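import Vale.Agent.P159.H529.Graded

/-!
The core of the displaced vortex, boundary values, and the energy of the whole tiling.
-/

open MeasureTheory Filter Topology
open scoped BigOperators

namespace Vale.Agent.P159

namespace H529

open UJ

theorem ctr_even {s : ℕ} (hs : s = 2 * (s / 2)) : ctr s = (s : ℝ) / 2 + 1 / 2 := by
  unfold ctr
  have h : (s : ℝ) = 2 * ((s / 2 : ℕ) : ℝ) := by exact_mod_cast hs
  linarith only [h]

/-- on the core the displaced vortex is the centred vortex of the core -/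
theorem wf_core {s n i j : ℕ} (hs : s = 2 * (s / 2)) (hs1 : 1 ≤ s) (hn : 4 ≤ n)
    (hi : i < 2 ^ (n - 3)) (hj : j < 2 ^ (n - 3)) {y : ℤ × ℤ} (h1 : 0 ≤ y.1) (h2 : y.1 ≤ s)
    (h3 : 0 ≤ y.2) (h4 : y.2 ≤ s) :
    wf (s * 2 ^ n) (PP s i j) (cw s n i j + y) = wf s 0 y := by
  have g1 : (0 : ℝ) ≤ y.1 := by exact_mod_cast h1
  have g2 : (y.1 : ℝ) ≤ s := by exact_mod_cast h2
  have g3 : (0 : ℝ) ≤ y.2 := by exact_mod_cast h3
  have g4 : (y.2 : ℝ) ≤ s := by exact_mod_cast h4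
  have hsR : (1 : ℝ) ≤ s := by exact_mod_cast hs1
  have hL : 0 < s * 2 ^ n := Nat.mul_pos hs1 (by positivity)
  have hiR : (0 : ℝ) ≤ i := i.cast_nonneg
  have hjR : (0 : ℝ) ≤ j := j.cast_nonneg
  have e1 : (((cw s n i j + y).1 : ℤ) : ℝ) - ctr (s * 2 ^ n) = (s : ℝ) * i + y.1 - 1 / 2 := by
    rw [ctr_eq hn, Prod.fst_add, Int.cast_add]
    unfold cw cor
    push_cast
    ring
  have e2 : (((cw s n i j + y).2 : ℤ) : ℝ) - ctr (s * 2 ^ n) = (s : ℝ) * j + y.2 - 1 / 2 := by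
    rw [ctr_eq hn, Prod.snd_add, Int.cast_add]
    unfold cw cor
    push_cast
    ring
  have hbi := PP_bd (s := s) hn hi
  have hbj := PP_bd (s := s) hn hj
  have hsi : 0 ≤ (s : ℝ) * i := by positivity
  have hsj : 0 ≤ (s : ℝ) * j := by positivity
  have hk : kk (s * 2 ^ n) (cw s n i j + y) = 1 := by
    apply kk_eq_one hL
    · rw [e1, abs_le]
      constructor <;> linarith
    · rw [e2, abs_le]
      constructor <;> linarith
  unfold wf
  rw [hk]
  apply Complex.ext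
  · simp only [zc, cc, PP, Complex.sub_re, Complex.mul_re, Complex.ofReal_re, Complex.ofReal_im,
      Complex.zero_re, Complex.zero_im]
    rw [ctr_even hs]
    linarith only [e1]
  · simp only [zc, cc, PP, Complex.sub_im, Complex.mul_im, Complex.ofReal_re, Complex.ofReal_im,
      Complex.zero_re, Complex.zero_im]
    rw [ctr_even hs]
    linarith only [e2]

/-- the weight of the core -/
theorem core_yy {b : ℝ} {s n i j : ℕ} (hs : s = 2 * (s / 2)) (hs1 : 1 ≤ s) (hn : 4 ≤ n)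
    (hi : i < 2 ^ (n - 3)) (hj : j < 2 ^ (n - 3)) :
    WB b s (cw s n i j) (alq s n i j) / WB b s (cw s n i j) 0 = yy b s := by
  have e1 : cw s n i j = 0 + cw s n i j := (zero_add _).symm
  have h1 : WB b s (cw s n i j) 0 = WB b s 0 0 := by
    conv_lhs => rw [e1]
    rw [WB_shift]
    rfl
  have h2 : WB b s (cw s n i j) (alq s n i j) = WB b s 0 (ang s 0) := by
    conv_lhs => rw [e1]
    rw [WB_shift]
    apply WB_congr
    intro z hz _
    obtain ⟨a1, a2, a3, a4⟩ := hz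
    rw [sub_zero] at a1 a2 a3 a4
    show alq s n i j (z + cw s n i j) = ang s 0 z
    rw [add_comm]
    unfold alq ang
    rw [wf_core hs hs1 hn hi hj a1 a2 a3 a4]
  rw [h1, h2]
  rfl

/-- off the interior of the big block all the displaced vortices agree -/
theorem alq_bdry {s n : ℕ} (hL : 4 ≤ s * 2 ^ n) (i j : ℕ) {z : ℤ × ℤ}
    (hz : z ∉ (inner (s * 2 ^ n) : Set (ℤ × ℤ))) : alq s n i j z = ang (s * 2 ^ n) 0 z := by
  have h : z.1 ≤ 0 ∨ ((s * 2 ^ n : ℕ) : ℤ) ≤ z.1 ∨ z.2 ≤ 0 ∨ ((s * 2 ^ n : ℕ) : ℤ) ≤ z.2 := by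
    by_contra hcon
    push Not at hcon
    apply hz
    unfold inner
    rw [Finset.coe_Icc, Set.mem_Icc]
    constructor
    · constructor
      · show (1 : ℤ) ≤ z.1
        omega
      · show (1 : ℤ) ≤ z.2
        omega
    · constructor
      · show z.1 ≤ ((s * 2 ^ n : ℕ) : ℤ) - 1
        omega
      · show z.2 ≤ ((s * 2 ^ n : ℕ) : ℤ) - 1
        omega
  unfold alq ang
  rw [geo_bdry hL _ h]

/-- **energy of the vortex in the whole tiling** -/
theorem graded_all (B : ℝ) (hB : 0 < B) : ∃ C s0 : ℝ, 0 ≤ C ∧ 2 ≤ s0 ∧ ∀ b : ℝ, 0 < b →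
    b ≤ B → ∀ l0 a n i j : ℕ, 1 ≤ l0 → 1 ≤ a → 4 ≤ n → i < 2 ^ (n - 3) → j < 2 ^ (n - 3) →
    s0 ≤ ((l0 * 2 ^ a : ℕ) : ℝ) →
    Real.exp (-(Real.pi * Real.log 2 * ∑ k ∈ Finset.range n, stiff (l0 * 2 ^ k) b +
      2 * Real.pi * ∑ k ∈ Finset.range n, (stiff (l0 * 2 ^ k) b - stiff (l0 * 2 ^ (k + 1)) b) *
        Real.log ((k : ℝ) + 3) + C)) * yy b (l0 * 2 ^ a) ≤
    ∏ κ ∈ gt l0 a n i j, WB b κ.1 κ.2 (alq (l0 * 2 ^ a) n i j) / WB b κ.1 κ.2 0 := by
  obtain ⟨C, s0, hC, hs0, h⟩ := graded_energy B hB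
  refine ⟨C, s0, hC, hs0, ?_⟩
  intro b hb hbB l0 a n i j hl ha hn hi hj hs
  have hs1 : 1 ≤ l0 * 2 ^ a := Nat.mul_pos hl (by positivity)
  rw [← Finset.mul_prod_erase _ _ (core_gt hl hn hi hj)]
  rw [core_yy (even_s ha) hs1 hn hi hj, mul_comm (yy b (l0 * 2 ^ a))]
  exact mul_le_mul_of_nonneg_right (h b hb hbB l0 a n i j hl ha hn hi hj hs) (yy_nonneg b _)

end H529

end Vale.Agent.P159
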