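import Vale.Agent.P159.Bdl.B5

/-!
Weight of a cell with nearly affine boundary values, with constants which do not depend on the
side of the cell.
-/

open MeasureTheory Filter Topology
open scoped BigOperators

namespace Vale.Agent.P159

namespace H529

open UJ

section QQ0

variable {l : ℕ} {b : ℝ}

/-- the stiffness form at `0` is nonnegative -/
theorem qq_nonneg (hb : 0 ≤ b) (a : BI l → ℝ) :
    0 ≤ QQ muInf (fun _ => b / 2) (chi0 l) 0 a a := by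
  have hJ : ∀ _ : BI l, 0 ≤ (fun _ : BI l => b / 2) ‹_› := fun _ => by positivity
  have h1 := lowerZ muInf (fun _ => b / 2) (chi0 l) pi_div2 hJ a
  have h2 := Zr_le muInf (fun _ => b / 2) (chi0 l) pi_div2 hJ a
  have h3 := Zr_pos muInf (fun _ => b / 2) (chi0 l) 0
  have h4 : Real.exp (-(QQ muInf (fun _ => b / 2) (chi0 l) 0 a a) / 2) ≤ 1 :=
    h1.trans (by rw [div_le_one h3]; exact h2)
  rw [Real.exp_le_one_iff] at h4
  linarith only [h4]

/-- diamagnetic bound -/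
theorem qq_le (hb : 0 ≤ b) (a : BI l → ℝ) :
    QQ muInf (fun _ => b / 2) (chi0 l) 0 a a ≤ b / 2 * ∑ e, a e ^ 2 := by
  unfold QQ
  rw [jm_zero, zero_mul, add_zero]
  have h1 : 0 ≤ ex muInf (fun _ => b / 2) (chi0 l) 0
      (fun x => Jt (fun _ => b / 2) (chi0 l) 0 a x * Jt (fun _ => b / 2) (chi0 l) 0 a x) := by
    have h := ex_mono muInf (fun _ => b / 2) (chi0 l) (t := 0) (f := fun _ => (0 : ℝ))
      (g := fun x => Jt (fun _ => b / 2) (chi0 l) 0 a x * Jt (fun _ => b / 2) (chi0 l) 0 a x)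
      continuous_const ((cont_Jt _ _ _ _).mul (cont_Jt _ _ _ _))
      (fun x => mul_self_nonneg _)
    rwa [ex_const] at h
  have h2 : ex muInf (fun _ => b / 2) (chi0 l) 0 (Bt (fun _ => b / 2) (chi0 l) 0 a a) ≤
      b / 2 * ∑ e, a e ^ 2 := by
    have h := ex_mono muInf (fun _ => b / 2) (chi0 l) (t := 0)
      (f := Bt (fun _ => b / 2) (chi0 l) 0 a a) (g := fun _ => b / 2 * ∑ e, a e ^ 2)
      (cont_Bt _ _ _ _ _) continuous_const (fun x => by
        unfold Bt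
        rw [Finset.mul_sum]
        refine Finset.sum_le_sum fun e _ => ?_
        have h1 := (abs_le.1 (abs_Ct (chi0 l) 0 e x)).2
        have h2 : 0 ≤ b / 2 * (a e * a e) := mul_nonneg (by positivity) (mul_self_nonneg _)
        calc _ ≤ b / 2 * (a e * a e) * 1 := mul_le_mul_of_nonneg_left h1 h2
          _ = _ := by ring)
    rwa [ex_const] at h
  linarith only [h1, h2]

theorem card_BI (l : ℕ) : (Finset.univ : Finset (BI l)).card = 4 * l ^ 2 := by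
  simp only [Finset.card_univ, Fintype.card_prod, Fintype.card_fin, Fintype.card_bool]
  ring

theorem sum_sq_le_BI {r : BI l → ℝ} {R : ℝ} (hr : ∀ e, |r e| ≤ R) :
    ∑ e, r e ^ 2 ≤ 4 * (l : ℝ) ^ 2 * R ^ 2 := by
  calc ∑ e, r e ^ 2 ≤ ∑ _e : BI l, R ^ 2 := Finset.sum_le_sum fun e _ => by
        rw [← sq_abs]; exact pow_le_pow_left₀ (abs_nonneg _) (hr e) 2
    _ = _ := by
        rw [Finset.sum_const, card_BI, nsmul_eq_mul]
        push_cast
        ring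

theorem qq_rr (hb : 0 ≤ b) {r : BI l → ℝ} {R : ℝ} (hr : ∀ e, |r e| ≤ R) :
    QQ muInf (fun _ => b / 2) (chi0 l) 0 r r ≤ 2 * b * (l : ℝ) ^ 2 * R ^ 2 := by
  refine (qq_le hb r).trans ?_
  have := mul_le_mul_of_nonneg_left (sum_sq_le_BI hr) (show 0 ≤ b / 2 by positivity)
  linarith only [this]

/-- mixed terms -/
theorem qq_mix (hb : 0 ≤ b) {h r : BI l → ℝ} {Y R : ℝ} (hY : 0 ≤ Y) (hR : 0 ≤ R)
    (hh : ∀ e, |h e| ≤ Y) (hr : ∀ e, |r e| ≤ R) :
    |QQ muInf (fun _ => b / 2) (chi0 l) 0 h r| ≤ 2 * b * (l : ℝ) ^ 2 * (Y * R) := by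
  have bil : ∀ (h k : BI l → ℝ), QQ muInf (fun _ => b / 2) (chi0 l) 0 (h + k) (h + k) =
      QQ muInf (fun _ => b / 2) (chi0 l) 0 h h + 2 * QQ muInf (fun _ => b / 2) (chi0 l) 0 h k +
        QQ muInf (fun _ => b / 2) (chi0 l) 0 k k := by
    intro h k
    rw [QQ_add, QQ_symm muInf _ _ 0 (h + k) h, QQ_symm muInf _ _ 0 (h + k) k, QQ_add, QQ_add,
      QQ_symm muInf _ _ 0 k h]
    ring
  have key : ∀ u v : ℝ, 0 ≤ u ^ 2 * QQ muInf (fun _ => b / 2) (chi0 l) 0 h h +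
      2 * (u * v) * QQ muInf (fun _ => b / 2) (chi0 l) 0 h r +
      v ^ 2 * QQ muInf (fun _ => b / 2) (chi0 l) 0 r r := by
    intro u v
    have h1 := qq_nonneg (l := l) hb (u • h + v • r)
    rw [bil, QQ_smul2, QQ_smul2, QQ_smul, QQ_symm muInf _ _ 0 (u • h) r, QQ_smul,
      QQ_symm muInf _ _ 0 r h] at h1
    linarith only [h1]
  have hhh := qq_rr (l := l) hb hh
  have hrr := qq_rr (l := l) hb hr
  have hh0 := qq_nonneg (l := l) hb h
  have hr0 := qq_nonneg (l := l) hb r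
  obtain ⟨X, hX⟩ : ∃ X, X = QQ muInf (fun _ => b / 2) (chi0 l) 0 h r := ⟨_, rfl⟩
  obtain ⟨A, hA⟩ : ∃ A, A = QQ muInf (fun _ => b / 2) (chi0 l) 0 h h := ⟨_, rfl⟩
  obtain ⟨B, hB⟩ : ∃ B, B = QQ muInf (fun _ => b / 2) (chi0 l) 0 r r := ⟨_, rfl⟩
  rw [← hX, ← hA, ← hB] at key
  rw [← hA] at hhh hh0
  rw [← hB] at hrr hr0
  rw [← hX]
  -- `X ^ 2 ≤ A * B`
  have hcs : X ^ 2 ≤ A * B := by
    rcases hh0.lt_or_eq with hA0 | hA0
    · have h1 := key (-X) A
      have h2 : 0 ≤ A * (A * B - X ^ 2) := by nlinarith only [h1]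
      have h3 := nonneg_of_mul_nonneg_right h2 hA0
      linarith only [h3]
    · have hX0 : X = 0 := by
        by_contra hne
        have h1 := key (-((B + 1) / (2 * X))) 1
        rw [← hA0] at h1
        have h2 : 2 * (-((B + 1) / (2 * X)) * 1) * X = -(B + 1) := by field_simp
        rw [h2] at h1
        linarith only [h1]
      rw [← hA0, zero_mul, hX0]
      norm_num
  have h5 : X ^ 2 ≤ (2 * b * (l : ℝ) ^ 2 * (Y * R)) ^ 2 := by
    calc X ^ 2 ≤ A * B := hcs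
      _ ≤ (2 * b * (l : ℝ) ^ 2 * Y ^ 2) * (2 * b * (l : ℝ) ^ 2 * R ^ 2) :=
        mul_le_mul hhh hrr hr0 (by positivity)
      _ = _ := by ring
  exact abs_le_of_sq_le_sq h5 (by positivity)

end QQ0

/-- Gaussian lower bound for the weight of a cell with nearly affine boundary values; the constant
does not depend on the side of the cell -/
theorem cell_weight' {b : ℝ} (hb : 0 ≤ b) {l : ℕ} (hl : 1 ≤ l) (c : ℤ × ℤ) (α : Ginf)
    (a : BI l → ℝ) (Y R : ℝ) (hY : 0 ≤ Y) (hR : 0 ≤ R)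
    (haα : ∀ e, ((a e : ℝ) : T) = α (c + bu e) - α (c + bv e)) (ha : ∀ e, |a e| ≤ Y)
    (hRa : ∀ e e', hh e = hh e' → |a e - a e'| ≤ R) :
    Real.exp (-(stiff l b / 4 * ∑ e, a e ^ 2) - 4 * b * (l : ℝ) ^ 2 * (Y * R + R ^ 2)) ≤
      WB b l c α / WB b l c 0 := by
  have hJ : ∀ _ : BI l, 0 ≤ b / 2 := fun _ => by positivity
  have h0 : ∀ e : BI l, (((0 : BI l → ℝ) e : ℝ) : T) = (0 : Ginf) (c + bu e) -
      (0 : Ginf) (c + bv e) := by
    intro e
    simp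
  rw [WB_eq haα, WB_eq h0]
  refine le_trans ?_ (lowerZ muInf (fun _ => b / 2) (chi0 l) pi_div2 hJ a)
  rw [Real.exp_le_exp]
  obtain ⟨xi1, xi2, r, hdec, h1, h2, hr, hs1, hs2, hsq⟩ := decomp hl ha hRa
  have hst := stiff_nonneg' hb hl
  have r1 := qq_mix (l := l) hb (Y := 1) zero_le_one hR abs_hh_le hr
  have r2 := qq_mix (l := l) hb (Y := 1) zero_le_one hR abs_vv_le hr
  have r3 := qq_rr (l := l) hb hr
  rw [one_mul] at r1 r2
  have bil : ∀ (h k : BI l → ℝ), QQ muInf (fun _ => b / 2) (chi0 l) 0 (h + k) (h + k) =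
      QQ muInf (fun _ => b / 2) (chi0 l) 0 h h + 2 * QQ muInf (fun _ => b / 2) (chi0 l) 0 h k +
        QQ muInf (fun _ => b / 2) (chi0 l) 0 k k := by
    intro h k
    rw [QQ_add, QQ_symm muInf _ _ 0 (h + k) h, QQ_symm muInf _ _ 0 (h + k) k, QQ_add, QQ_add,
      QQ_symm muInf _ _ 0 k h]
    ring
  have hQ : QQ muInf (fun _ => b / 2) (chi0 l) 0 a a = (l : ℝ) ^ 2 * stiff l b *
      (xi1 ^ 2 + xi2 ^ 2) + 2 * xi1 * QQ muInf (fun _ => b / 2) (chi0 l) 0 hh r +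
      2 * xi2 * QQ muInf (fun _ => b / 2) (chi0 l) 0 vv r +
      QQ muInf (fun _ => b / 2) (chi0 l) 0 r r := by
    conv_lhs => rw [hdec]
    rw [bil, bil, QQ_smul2, QQ_smul2, QQ_add, QQ_smul, QQ_symm muInf _ _ 0 (xi1 • hh) vv,
      QQ_smul, QQ_symm muInf _ _ 0 (xi1 • hh) r, QQ_smul, QQ_symm muInf _ _ 0 (xi2 • vv) r,
      QQ_smul, QQ_symm muInf _ _ 0 vv hh, Q0_hv, Q0_h l b hl, Q0_v l b hl,
      QQ_symm muInf _ _ 0 r hh, QQ_symm muInf _ _ 0 r vv]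
    ring
  rw [hQ]
  have t1 : xi1 * QQ muInf (fun _ => b / 2) (chi0 l) 0 hh r ≤ Y * (2 * b * (l : ℝ) ^ 2 * R) := by
    refine (le_abs_self _).trans ?_
    rw [abs_mul]
    exact mul_le_mul h1 r1 (abs_nonneg _) hY
  have t2 : xi2 * QQ muInf (fun _ => b / 2) (chi0 l) 0 vv r ≤ Y * (2 * b * (l : ℝ) ^ 2 * R) := by
    refine (le_abs_self _).trans ?_
    rw [abs_mul]
    exact mul_le_mul h2 r2 (abs_nonneg _) hY
  have t4 := mul_le_mul_of_nonneg_left hsq hst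
  have t5 : 0 ≤ b * (l : ℝ) ^ 2 * R ^ 2 := by positivity
  nlinarith only [t1, t2, r3, t4, t5]

end H529

end Vale.Agent.P159
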