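import Vale.Agent.P159.Bdl.B4

/-!
Tilings of a square block by smaller square blocks.
-/

open MeasureTheory Filter Topology
open scoped BigOperators

namespace Vale.Agent.P159

namespace H529

open UJ

/-- finite families of squares `(side, corner)` obtained from the square of side `s` with corner
`c` by repeated subdivision -/
inductive Tl : Finset (ℕ × (ℤ × ℤ)) → ℕ → ℤ × ℤ → Prop
  | single (s : ℕ) (c : ℤ × ℤ) (hs : 1 ≤ s) : Tl {(s, c)} s c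
  | split (n l : ℕ) (c : ℤ × ℤ) (f : ℤ × ℤ → Finset (ℕ × (ℤ × ℤ))) (hl : 1 ≤ l) (hn : 1 ≤ n)
      (h : ∀ k ∈ cells n, Tl (f k) l (c + cor l k)) :
      Tl ((cells n).biUnion f) (l * n) c

/-- the square `a` is contained in the square of side `s` with corner `c` -/
def Sub (a : ℕ × (ℤ × ℤ)) (s : ℕ) (c : ℤ × ℤ) : Prop :=
  c.1 ≤ a.2.1 ∧ a.2.1 + a.1 ≤ c.1 + s ∧ c.2 ≤ a.2.2 ∧ a.2.2 + a.1 ≤ c.2 + s

/-- the squares have no common interior point -/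
def Sep (a a' : ℕ × (ℤ × ℤ)) : Prop :=
  a.2.1 + a.1 ≤ a'.2.1 ∨ a'.2.1 + a'.1 ≤ a.2.1 ∨ a.2.2 + a.1 ≤ a'.2.2 ∨ a'.2.2 + a'.1 ≤ a.2.2

theorem Sep.symm {a a' : ℕ × (ℤ × ℤ)} (h : Sep a a') : Sep a' a := by
  unfold Sep at h ⊢
  tauto

theorem mem_cells {n : ℕ} {k : ℤ × ℤ} : k ∈ cells n ↔
    (0 ≤ k.1 ∧ k.1 < n) ∧ 0 ≤ k.2 ∧ k.2 < n := by
  unfold cells
  rw [Finset.mem_product, Finset.mem_Ico, Finset.mem_Ico]

theorem cor_sub {n l : ℕ} {k : ℤ × ℤ} (hk : k ∈ cells n) (c : ℤ × ℤ) :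
    Sub (l, c + cor l k) (l * n) c := by
  rw [mem_cells] at hk
  obtain ⟨⟨h1, h2⟩, h3, h4⟩ := hk
  have hl : (0 : ℤ) ≤ l := Int.natCast_nonneg l
  have e1 : (l : ℤ) * (k.1 + 1) ≤ l * n := mul_le_mul_of_nonneg_left h2 hl
  have e2 : (l : ℤ) * (k.2 + 1) ≤ l * n := mul_le_mul_of_nonneg_left h4 hl
  have e3 : 0 ≤ (l : ℤ) * k.1 := mul_nonneg hl h1
  have e4 : 0 ≤ (l : ℤ) * k.2 := mul_nonneg hl h3
  unfold Sub cor
  simp only [Prod.fst_add, Prod.snd_add]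
  push_cast
  refine ⟨?_, ?_, ?_, ?_⟩ <;> linarith

theorem cor_sep {l : ℕ} {k k' : ℤ × ℤ} (h : k ≠ k') (c : ℤ × ℤ) :
    Sep (l, c + cor l k) (l, c + cor l k') := by
  have hl : (0 : ℤ) ≤ l := Int.natCast_nonneg l
  have key : ∀ a b : ℤ, a < b → (l : ℤ) * a + l ≤ l * b := by
    intro a b hab
    have := mul_le_mul_of_nonneg_left (show a + 1 ≤ b by omega) hl
    linarith
  unfold Sep cor
  simp only [Prod.fst_add, Prod.snd_add]
  by_cases h1 : k.1 = k'.1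
  · have h2 : k.2 ≠ k'.2 := fun h2 => h (Prod.ext h1 h2)
    rcases lt_or_gt_of_ne h2 with h3 | h3
    · have := key _ _ h3
      right; right; left; linarith
    · have := key _ _ h3
      right; right; right; linarith
  · rcases lt_or_gt_of_ne h1 with h3 | h3
    · have := key _ _ h3
      left; linarith
    · have := key _ _ h3
      right; left; linarith

theorem Sub.trans {a : ℕ × (ℤ × ℤ)} {l : ℕ} {d : ℤ × ℤ} {s : ℕ} {c : ℤ × ℤ} (h : Sub a l d)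
    (h' : Sub (l, d) s c) : Sub a s c := by
  unfold Sub at *
  simp only at h'
  omega

theorem Sep.mono {a a' : ℕ × (ℤ × ℤ)} {l l' : ℕ} {d d' : ℤ × ℤ} (h : Sep (l, d) (l', d'))
    (ha : Sub a l d) (ha' : Sub a' l' d') : Sep a a' := by
  unfold Sep Sub at *
  simp only at h
  omega

theorem Tl.side {T : Finset (ℕ × (ℤ × ℤ))} {s : ℕ} {c : ℤ × ℤ} (h : Tl T s c) :
    ∀ a ∈ T, 1 ≤ a.1 ∧ Sub a s c := by
  induction h with
  | single s c hs =>
    intro a ha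
    rw [Finset.mem_singleton] at ha
    subst ha
    exact ⟨hs, by unfold Sub; simp only; omega⟩
  | split n l c f hl hn _ ih =>
    intro a ha
    rw [Finset.mem_biUnion] at ha
    obtain ⟨k, hk, hak⟩ := ha
    obtain ⟨h1, h2⟩ := ih k hk a hak
    exact ⟨h1, h2.trans (cor_sub hk c)⟩

theorem Tl.one_le {T : Finset (ℕ × (ℤ × ℤ))} {s : ℕ} {c : ℤ × ℤ} (h : Tl T s c) : 1 ≤ s := by
  cases h with
  | single _ _ hs => exact hs
  | split n l c f hl hn _ => exact Nat.mul_pos hl hn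

/-- two squares of a tiling have disjoint interiors -/
theorem Tl.sep {T : Finset (ℕ × (ℤ × ℤ))} {s : ℕ} {c : ℤ × ℤ} (h : Tl T s c) :
    ∀ a ∈ T, ∀ a' ∈ T, a ≠ a' → Sep a a' := by
  induction h with
  | single s c hs =>
    intro a ha a' ha' hne
    rw [Finset.mem_singleton] at ha ha'
    exact absurd (ha.trans ha'.symm) hne
  | split n l c f hl hn h ih =>
    intro a ha a' ha' hne
    rw [Finset.mem_biUnion] at ha ha'
    obtain ⟨k, hk, hak⟩ := ha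
    obtain ⟨k', hk', hak'⟩ := ha'
    by_cases hkk : k = k'
    · subst hkk
      exact ih k hk a hak a' hak' hne
    · exact (cor_sep hkk c).mono ((h k hk).side a hak).2 ((h k' hk').side a' hak').2

/-- a square does not avoid its own interior -/
theorem not_sep_self {a a' : ℕ × (ℤ × ℤ)} {l l' : ℕ} {d d' : ℤ × ℤ} (h : Sep (l, d) (l', d'))
    (ha : Sub a l d) (ha' : Sub a' l' d') (h1 : 1 ≤ a.1) : a ≠ a' := by
  rintro rfl
  unfold Sep Sub at *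
  simp only at h
  omega

/-- additive functions of squares are additive over tilings -/
theorem Tl.sum {T : Finset (ℕ × (ℤ × ℤ))} {s : ℕ} {c : ℤ × ℤ} (h : Tl T s c)
    (Φ : ℕ → ℤ × ℤ → ℝ)
    (hΦ : ∀ l n : ℕ, 1 ≤ l → 1 ≤ n → ∀ c : ℤ × ℤ, Φ (l * n) c = ∑ k ∈ cells n, Φ l (c + cor l k)) :
    ∑ a ∈ T, Φ a.1 a.2 = Φ s c := by
  induction h with
  | single s c hs => simp
  | split n l c f hl hn h ih =>
    rw [Finset.sum_biUnion, hΦ l n hl hn]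
    · exact Finset.sum_congr rfl fun k hk => ih k hk
    · intro k hk k' hk' hne
      rw [Function.onFun, Finset.disjoint_left]
      intro a ha ha'
      have h1 := (h k hk).side a ha
      have h2 := (h k' hk').side a ha'
      exact not_sep_self (cor_sep hne c) h1.2 h2.2 h1.1 rfl

theorem Tl.prod {T : Finset (ℕ × (ℤ × ℤ))} {s : ℕ} {c : ℤ × ℤ} (h : Tl T s c)
    (Φ : ℕ → ℤ × ℤ → ℝ)
    (hΦ : ∀ l n : ℕ, 1 ≤ l → 1 ≤ n → ∀ c : ℤ × ℤ, Φ (l * n) c = ∏ k ∈ cells n, Φ l (c + cor l k)) :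
    ∏ a ∈ T, Φ a.1 a.2 = Φ s c := by
  induction h with
  | single s c hs => simp
  | split n l c f hl hn h ih =>
    rw [Finset.prod_biUnion, hΦ l n hl hn]
    · exact Finset.prod_congr rfl fun k hk => ih k hk
    · intro k hk k' hk' hne
      rw [Function.onFun, Finset.disjoint_left]
      intro a ha ha'
      have h1 := (h k hk).side a ha
      have h2 := (h k' hk').side a ha'
      exact not_sep_self (cor_sep hne c) h1.2 h2.2 h1.1 rfl

/-- the energy of the block is the sum of the energies of the tiles -/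
theorem Tl.EB {T : Finset (ℕ × (ℤ × ℤ))} {s : ℕ} {c : ℤ × ℤ} (h : Tl T s c) (b : ℝ) (θ : Ginf) :
    ∑ a ∈ T, UJ.EB b a.1 a.2 θ = UJ.EB b s c θ :=
  h.sum (fun l c => UJ.EB b l c θ) fun _ n hl _ c => EB_split b hl n c θ

theorem mem_inB' {s : ℕ} {c z : ℤ × ℤ} :
    z ∈ inB s c ↔ 1 ≤ z.1 - c.1 ∧ 1 ≤ z.2 - c.2 ∧ z.1 - c.1 ≤ s - 1 ∧ z.2 - c.2 ≤ s - 1 := by
  simp only [inB, inner, Finset.coe_Icc, Set.mem_ofPred_eq, Set.mem_Icc, Prod.le_def, Prod.fst_sub,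
    Prod.snd_sub]
  tauto

theorem mem_clB' {s : ℕ} {c z : ℤ × ℤ} :
    z ∈ clB s c ↔ 0 ≤ z.1 - c.1 ∧ z.1 - c.1 ≤ s ∧ 0 ≤ z.2 - c.2 ∧ z.2 - c.2 ≤ s := by
  simp only [clB, Set.mem_ofPred_eq, Prod.fst_sub, Prod.snd_sub]

/-- a closed tile does not meet the interior of another tile -/
theorem Sep.disj {a a' : ℕ × (ℤ × ℤ)} (h : Sep a a') {z : ℤ × ℤ} (hz : z ∈ clB a'.1 a'.2) :
    z ∉ inB a.1 a.2 := by
  intro hz'
  rw [mem_clB'] at hz
  rw [mem_inB'] at hz'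
  unfold Sep at h
  omega

theorem Sub.inB {a : ℕ × (ℤ × ℤ)} {s : ℕ} {c : ℤ × ℤ} (h : Sub a s c) :
    UJ.inB a.1 a.2 ⊆ UJ.inB s c := by
  intro z hz
  rw [mem_inB'] at hz ⊢
  unfold Sub at h
  omega

theorem Sub.clB {a : ℕ × (ℤ × ℤ)} {s : ℕ} {c : ℤ × ℤ} (h : Sub a s c) :
    UJ.clB a.1 a.2 ⊆ UJ.clB s c := by
  intro z hz
  rw [mem_clB'] at hz ⊢
  unfold Sub at h
  omega

/-- the unit squares of a square -/
noncomputable def US (a : ℕ × (ℤ × ℤ)) : Finset (ℤ × ℤ) :=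
  Finset.Ico a.2.1 (a.2.1 + a.1) ×ˢ Finset.Ico a.2.2 (a.2.2 + a.1)

theorem mem_US {a : ℕ × (ℤ × ℤ)} {z : ℤ × ℤ} : z ∈ US a ↔
    (a.2.1 ≤ z.1 ∧ z.1 < a.2.1 + a.1) ∧ a.2.2 ≤ z.2 ∧ z.2 < a.2.2 + a.1 := by
  unfold US
  rw [Finset.mem_product, Finset.mem_Ico, Finset.mem_Ico]

theorem US_card (a : ℕ × (ℤ × ℤ)) : (US a).card = a.1 ^ 2 := by
  unfold US
  rw [Finset.card_product, Int.card_Ico, Int.card_Ico, add_sub_cancel_left, add_sub_cancel_left,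
    Int.toNat_natCast, pow_two]

theorem Sep.US {a a' : ℕ × (ℤ × ℤ)} (h : Sep a a') : Disjoint (US a) (US a') := by
  rw [Finset.disjoint_left]
  intro z hz hz'
  rw [mem_US] at hz hz'
  unfold Sep at h
  omega

/-- sums over the unit squares of some tiles are bounded by sums over their union -/
theorem sum_US_le {T : Finset (ℕ × (ℤ × ℤ))} (h : ∀ a ∈ T, ∀ a' ∈ T, a ≠ a' → Sep a a')
    {B : Finset (ℤ × ℤ)} (hB : ∀ a ∈ T, US a ⊆ B) {f : ℤ × ℤ → ℝ} (hf : ∀ z ∈ B, 0 ≤ f z) :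
    ∑ a ∈ T, ∑ z ∈ US a, f z ≤ ∑ z ∈ B, f z := by
  rw [← Finset.sum_biUnion]
  · refine Finset.sum_le_sum_of_subset_of_nonneg ?_ fun z hz _ => hf z hz
    intro z hz
    rw [Finset.mem_biUnion] at hz
    obtain ⟨a, ha, hz⟩ := hz
    exact hB a ha hz
  · intro a ha a' ha' hne
    exact (h a ha a' ha' hne).US

end H529

end Vale.Agent.P159
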