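import Vale.Agent.P159.H529.Core
import Vale.Agent.P159.H282.Var

/-!
Squares of one side near the core are unions of tiles of the graded tiling: sums of mean currents
over such squares are functions of the skeleton of the graded tiling.
-/

set_option linter.all false

open MeasureTheory Filter Topology
open scoped BigOperators

namespace Vale.Agent.P159

namespace H529

open UJ UJ.H282

/-- a mean current does not see the interior of a square inside or outside -/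
theorem jc_skel {b : ℝ} {p p' : ℕ × (ℤ × ℤ)} (h : Sub p' p.1 p.2 ∨ Sep p' p) (f : BI p.1 → ℝ)
    (x y : Ginf) : jc b p.1 p.2 f (x + PB p'.1 p'.2 y) = jc b p.1 p.2 f x := by
  refine jc_congr fun z hz hz' => var_PB_notMem (fun h1 => ?_) x y
  rcases h with h | h
  · exact hz' (h.inB h1)
  · exact h.disj hz h1

theorem TT_skel' {b : ℝ} {S : Finset (ℕ × (ℤ × ℤ))} {p' : ℕ × (ℤ × ℤ)}
    (h : ∀ p ∈ S, Sub p' p.1 p.2 ∨ Sep p' p) (g : Fld) (x y : Ginf) :
    H282.TT b S g (x + PB p'.1 p'.2 y) = H282.TT b S g x := by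
  unfold H282.TT
  exact Finset.sum_congr rfl fun p hp => jc_skel (h p hp) _ x y

/-- the squares of the graded tiling are dyadic -/
theorem gr_al {l0 a : ℕ} {w : ℤ × ℤ} (K : ℕ) : ∀ c z : ℤ × ℤ, c = cor (l0 * 2 ^ K) z →
    ∀ κ ∈ gr l0 a w K c, ∃ k ≤ K, ∃ z' : ℤ × ℤ, κ = (l0 * 2 ^ k, cor (l0 * 2 ^ k) z') := by
  induction K with
  | zero =>
    intro c z hc κ hκ
    unfold gr at hκ
    rw [Finset.mem_singleton] at hκ
    refine ⟨0, le_rfl, z, ?_⟩
    rw [hκ, hc, pow_zero, mul_one]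
  | succ K ih =>
    intro c z hc κ hκ
    unfold gr at hκ
    split_ifs at hκ with h
    · rw [Finset.mem_singleton] at hκ
      exact ⟨K + 1, le_rfl, z, by rw [hκ, hc]⟩
    · rw [Finset.mem_biUnion] at hκ
      obtain ⟨u, hu, hκ⟩ := hκ
      obtain ⟨k, hk, z', hz'⟩ := ih (c + cor (l0 * 2 ^ K) u) (2 * z.1 + u.1, 2 * z.2 + u.2) (by
        rw [hc]
        unfold cor
        ext
        · simp only [Prod.fst_add]; push_cast; ring
        · simp only [Prod.snd_add]; push_cast; ring) κ hκ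
      exact ⟨k, by omega, z', hz'⟩

/-- dyadic squares -/
theorem dy_sub {m : ℕ} {t : ℕ} {z z' : ℤ × ℤ} (ht : 1 ≤ t) :
    Sub (t, cor t z') (t * 2 ^ m) (cor (t * 2 ^ m) z) ∨
      Sep (t, cor t z') (t * 2 ^ m, cor (t * 2 ^ m) z) := by
  have hp : (0 : ℤ) < 2 ^ m := by positivity
  have ht0 : (0 : ℤ) < t := by exact_mod_cast ht
  unfold Sub Sep cor
  simp only
  push_cast
  have key : ∀ x y : ℤ, (t * 2 ^ m * x ≤ t * y ∧ t * y + t ≤ t * 2 ^ m * x + t * 2 ^ m) ∨
      t * y + (t : ℤ) ≤ t * 2 ^ m * x ∨ t * 2 ^ m * x + t * 2 ^ m ≤ (t : ℤ) * y := by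
    intro x y
    have e1 : (t : ℤ) * 2 ^ m * x = t * (2 ^ m * x) := by ring
    have e2 : (t : ℤ) * (2 ^ m * x) + t * 2 ^ m = t * (2 ^ m * x + 2 ^ m) := by ring
    have e3 : (t : ℤ) * y + t = t * (y + 1) := by ring
    rw [e1, e2, e3]
    generalize (2 : ℤ) ^ m * x = X
    generalize (2 : ℤ) ^ m = M at hp
    rcases lt_or_ge y X with h1 | h1
    · right; left
      exact mul_le_mul_of_nonneg_left (by omega) ht0.le
    · rcases lt_or_ge y (X + M) with h2 | h2
      · left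
        exact ⟨mul_le_mul_of_nonneg_left h1 ht0.le, mul_le_mul_of_nonneg_left (by omega) ht0.le⟩
      · right; right
        exact mul_le_mul_of_nonneg_left h2 ht0.le
  rcases key z.1 z'.1 with h1 | h1 | h1
  · rcases key z.2 z'.2 with h2 | h2 | h2
    · left; exact ⟨h1.1, h1.2, h2.1, h2.2⟩
    · right; right; right; left; exact h2
    · right; right; right; right; exact h2
  · right; left; exact h1
  · right; right; left; exact h1

theorem DD_mono {l0 a k k' : ℕ} (h : k ≤ k') : DD l0 a k ≤ DD l0 a k' := by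
  unfold DD
  exact Nat.mul_le_mul_left _ (Nat.mul_le_mul (Nat.pow_le_pow_left (by omega) 2)
    (Nat.pow_le_pow_right (by norm_num) h))

/-- a dyadic square of level `lam` near the core, which does not meet the core, is a union of
tiles of the graded tiling -/
theorem gt_dy {l0 a n i j lam : ℕ} (hl : 1 ≤ l0) (hn : 4 ≤ n) (hi : i < 2 ^ (n - 3))
    (hj : j < 2 ^ (n - 3)) {p : ℕ × (ℤ × ℤ)} {z : ℤ × ℤ}
    (hp : p = (l0 * 2 ^ lam, cor (l0 * 2 ^ lam) z))
    (hcore : Sep (l0 * 2 ^ a, cw (l0 * 2 ^ a) n i j) p)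
    (h1 : p.2.1 < (cw (l0 * 2 ^ a) n i j).1 + (l0 * 2 ^ a : ℕ) + DD l0 a (lam + 1))
    (h2 : (cw (l0 * 2 ^ a) n i j).1 < p.2.1 + p.1 + DD l0 a (lam + 1))
    (h3 : p.2.2 < (cw (l0 * 2 ^ a) n i j).2 + (l0 * 2 ^ a : ℕ) + DD l0 a (lam + 1))
    (h4 : (cw (l0 * 2 ^ a) n i j).2 < p.2.2 + p.1 + DD l0 a (lam + 1))
    {p' : ℕ × (ℤ × ℤ)} (hp' : p' ∈ gt l0 a n i j) : Sub p' p.1 p.2 ∨ Sep p' p := by
  by_cases hc : p' = (l0 * 2 ^ a, cw (l0 * 2 ^ a) n i j)
  · right
    rw [hc]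
    exact hcore
  · obtain ⟨k, -, hk, hfar, -, -, -⟩ := gt_geo hl hn hi hj hp' hc
    obtain ⟨k', -, z', hz'⟩ := gr_al (l0 := l0) (a := a) (w := cw (l0 * 2 ^ a) n i j) (a + n) 0 0
      (by unfold cor; ext <;> simp) p' hp'
    have hkk : k = k' := by
      have e1 : l0 * 2 ^ k = l0 * 2 ^ k' := by rw [← hk, hz']
      exact Nat.pow_right_injective le_rfl (Nat.eq_of_mul_eq_mul_left (by omega) e1)
    subst hkk
    have ht : 1 ≤ l0 * 2 ^ k := Nat.mul_pos hl (by positivity)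
    have ht2 : 1 ≤ l0 * 2 ^ lam := Nat.mul_pos hl (by positivity)
    rcases le_or_gt k lam with hkl | hkl
    · have e1 : l0 * 2 ^ lam = l0 * 2 ^ k * 2 ^ (lam - k) := by
        rw [mul_assoc, ← pow_add]
        congr 2
        omega
      rw [hz', hp, e1]
      exact dy_sub ht
    · right
      have e1 : l0 * 2 ^ k = l0 * 2 ^ lam * 2 ^ (k - lam) := by
        rw [mul_assoc, ← pow_add]
        congr 2
        omega
      have h5 := dy_sub (m := k - lam) (z := z') (z' := z) ht2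
      rw [← e1, ← hp, ← hz'] at h5
      rcases h5 with h5 | h5
      · exfalso
        have hD : DD l0 a (lam + 1) ≤ DD l0 a k := DD_mono (by omega)
        have h6 : Far l0 a (cw (l0 * 2 ^ a) n i j) k p'.2 := by
          rcases hfar with h6 | h6
          · omega
          · exact h6
        have e2 : (l0 * 2 ^ k, cor (l0 * 2 ^ k) z').1 = p'.1 := by rw [hz']
        simp only at e2
        unfold Far at h6
        have h7 : Sub p p'.1 p'.2 := by rw [hz']; exact h5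
        unfold Sub at h7
        rw [e2] at h6
        omega
      · exact h5.symm

/-- **skeleton invariance of the tests** -/
theorem TT_skel {b : ℝ} {l0 a n i j lam : ℕ} (hl : 1 ≤ l0) (hn : 4 ≤ n) (hi : i < 2 ^ (n - 3))
    (hj : j < 2 ^ (n - 3)) {S : Finset (ℕ × (ℤ × ℤ))} (g : Fld)
    (hS : ∀ p ∈ S, (∃ z : ℤ × ℤ, p = (l0 * 2 ^ lam, cor (l0 * 2 ^ lam) z)) ∧
      Sep (l0 * 2 ^ a, cw (l0 * 2 ^ a) n i j) p ∧
      p.2.1 < (cw (l0 * 2 ^ a) n i j).1 + (l0 * 2 ^ a : ℕ) + DD l0 a (lam + 1) ∧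
      (cw (l0 * 2 ^ a) n i j).1 < p.2.1 + p.1 + DD l0 a (lam + 1) ∧
      p.2.2 < (cw (l0 * 2 ^ a) n i j).2 + (l0 * 2 ^ a : ℕ) + DD l0 a (lam + 1) ∧
      (cw (l0 * 2 ^ a) n i j).2 < p.2.2 + p.1 + DD l0 a (lam + 1)) :
    ∀ p' ∈ gt l0 a n i j, ∀ x y, H282.TT b S g (x + PB p'.1 p'.2 y) = H282.TT b S g x := by
  intro p' hp' x y
  refine TT_skel' (fun p hp => ?_) g x y
  obtain ⟨⟨z, hz⟩, h1, h2, h3, h4, h5⟩ := hS p hp
  exact gt_dy hl hn hi hj hz h1 h2 h3 h4 h5 hp'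

end H529

end Vale.Agent.P159
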