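import Mathlib

/-!
P159 (helper529), START of S, part 1: the scalar record lemma. `u` = square of the wired
magnetization, `g` = two point function of the plane. At record scales of `R ^ α u(3 R)` the two
point function is comparable with `u`, and `u` has the exponent `α` from below.
-/

open Filter Finset

set_option linter.all false

namespace Vale.Agent.P159.H529.St

/-- records of an unbounded sequence -/
lemma exists_record {F : ℕ → ℝ} (hF : ∀ M : ℝ, ∃ n, M < F n) (n0 : ℕ) :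
    ∃ t, n0 < t ∧ ∀ s, s < t → F s ≤ F t := by
  classical
  set M : ℝ := (Finset.range (n0 + 1)).sup' ⟨0, by simp⟩ F with hM
  have hex : ∃ n, M < F n := hF M
  refine ⟨Nat.find hex, ?_, fun s hs => ?_⟩
  · by_contra hcon
    have h1 : Nat.find hex ≤ n0 := Nat.le_of_not_lt hcon
    have h2 : F (Nat.find hex) ≤ M :=
      Finset.le_sup' F (Finset.mem_range.2 (Nat.lt_succ_of_le h1))
    exact absurd (Nat.find_spec hex) (not_lt.2 h2)
  · have h1 : F s ≤ M := not_lt.1 (Nat.find_min hex hs)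
    exact h1.trans (Nat.find_spec hex).le

variable {u g : ℕ → ℝ} {K α β c : ℝ}

/-- records of `R ^ α u (3 R)`, all smaller scales included -/
lemma record_all (hβ : 0 ≤ β) (hα : β < α) (hc : 0 < c) (hu : Antitone u) (hu1 : ∀ n, u n ≤ 1)
    (h2 : ∀ s r, 2 * s + 2 ≤ r → g r ≤ u s)
    (h3 : ∀ᶠ r : ℕ in atTop, c * (r : ℝ) ^ (-β) ≤ g r) :
    ∃ C : ℝ, 1 ≤ C ∧ ∀ n0 : ℕ, ∃ R, n0 < R ∧
      ∀ s : ℕ, 1 ≤ s → s ≤ 3 * R → u s ≤ C * ((3 * R : ℝ) / s) ^ α * u (3 * R) := by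
  have hα0 : 0 < α := lt_of_le_of_lt hβ hα
  obtain ⟨r0, hr0⟩ := eventually_atTop.1 h3
  -- positivity of u
  have hpos : ∀ n, 0 < u n := by
    intro n
    have h := hr0 (max (2 * n + 2) (r0 + 1)) (by omega)
    have h' := h2 n (max (2 * n + 2) (r0 + 1)) (le_max_left _ _)
    refine lt_of_lt_of_le ?_ (h.trans h')
    exact mul_pos hc (Real.rpow_pos_of_pos (by positivity) _)
  set F : ℕ → ℝ := fun R => (R : ℝ) ^ α * u (3 * R) with hF
  have hub : ∀ M : ℝ, ∃ n, M < F n := by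
    intro M
    -- R^α u(3R) ≥ R^α c (6R+2)^(-β) ≥ c 8^(-β) R^(α-β)
    have ht : Tendsto (fun R : ℕ => c * (8 : ℝ) ^ (-β) * (R : ℝ) ^ (α - β)) atTop atTop := by
      refine Tendsto.const_mul_atTop (by positivity) ?_
      exact (tendsto_rpow_atTop (by linarith)).comp tendsto_natCast_atTop_atTop
    obtain ⟨n, hn1, hn2, hn3⟩ := ((ht.eventually_gt_atTop M).and
      ((eventually_ge_atTop (r0 + 1)).and (eventually_ge_atTop 1))).exists
    refine ⟨n, lt_of_lt_of_le hn1 ?_⟩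
    have h := hr0 (6 * n + 2) (by omega)
    have h' := h2 (3 * n) (6 * n + 2) (by omega)
    have hn0 : (0 : ℝ) < n := by exact_mod_cast hn3
    have hn1' : (1 : ℝ) ≤ n := by exact_mod_cast hn3
    have e1 : (8 * n : ℝ) ^ (-β) ≤ ((6 * n + 2 : ℕ) : ℝ) ^ (-β) := by
      refine Real.rpow_le_rpow_of_nonpos (by positivity) ?_ (by linarith)
      push_cast
      linarith
    have e2 : (8 * n : ℝ) ^ (-β) = (8 : ℝ) ^ (-β) * (n : ℝ) ^ (-β) :=
      Real.mul_rpow (by norm_num) hn0.le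
    have e3 : (n : ℝ) ^ (α - β) = (n : ℝ) ^ α * (n : ℝ) ^ (-β) := by
      rw [← Real.rpow_add hn0]; ring_nf
    have e4 : c * ((8 : ℝ) ^ (-β) * (n : ℝ) ^ (-β)) ≤ u (3 * n) := by
      rw [← e2]
      exact (mul_le_mul_of_nonneg_left e1 hc.le).trans (h.trans h')
    calc c * (8 : ℝ) ^ (-β) * (n : ℝ) ^ (α - β)
        = (n : ℝ) ^ α * (c * ((8 : ℝ) ^ (-β) * (n : ℝ) ^ (-β))) := by rw [e3]; ring
      _ ≤ F n := mul_le_mul_of_nonneg_left e4 (Real.rpow_nonneg hn0.le _)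
  have hu3 : 0 < u 3 := hpos 3
  refine ⟨(3 : ℝ) ^ α * (6 : ℝ) ^ α / u 3, ?_, fun n0 => ?_⟩
  · rw [le_div_iff₀ hu3, one_mul]
    refine (hu1 3).trans ?_
    have h3' : (1 : ℝ) ≤ (3 : ℝ) ^ α := Real.one_le_rpow (by norm_num) hα0.le
    have h6' : (1 : ℝ) ≤ (6 : ℝ) ^ α := Real.one_le_rpow (by norm_num) hα0.le
    nlinarith
  · obtain ⟨R, hR, hrec⟩ := exists_record hub (n0 + 1)
    refine ⟨R, by omega, fun s hs1 hs => ?_⟩
    have hR1 : 1 ≤ R := by omega
    have hR0 : (0 : ℝ) < R := by exact_mod_cast hR1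
    have hs0 : (0 : ℝ) < s := by exact_mod_cast hs1
    have hRpos : 0 < u (3 * R) := hpos _
    -- F 1 ≤ F R
    have hF1 : u 3 ≤ (R : ℝ) ^ α * u (3 * R) := by
      have h := hrec 1 (by omega)
      simpa [hF] using h
    by_cases h3s : s < 3
    · -- small s
      have h5 : u s ≤ 1 := hu1 s
      have h6 : (1 : ℝ) ≤ ((R : ℝ) ^ α * u (3 * R)) / u 3 := by
        rw [le_div_iff₀ hu3, one_mul]; exact hF1
      have h7 : (R : ℝ) ^ α ≤ (3 : ℝ) ^ α * ((3 * R : ℝ) / s) ^ α := by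
        rw [← Real.mul_rpow (by norm_num) (by positivity)]
        refine Real.rpow_le_rpow hR0.le ?_ hα0.le
        rw [mul_div_assoc', le_div_iff₀ hs0]
        have : (s : ℝ) ≤ 3 := by exact_mod_cast h3s.le
        nlinarith
      have h8 : (1 : ℝ) ≤ (6 : ℝ) ^ α := Real.one_le_rpow (by norm_num) hα0.le
      calc u s ≤ 1 := h5
        _ ≤ ((R : ℝ) ^ α * u (3 * R)) / u 3 := h6
        _ ≤ ((3 : ℝ) ^ α * ((3 * R : ℝ) / s) ^ α * u (3 * R)) / u 3 := by
            refine div_le_div_of_nonneg_right ?_ hu3.le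
            exact mul_le_mul_of_nonneg_right h7 hRpos.le
        _ = ((3 : ℝ) ^ α * 1 / u 3) * ((3 * R : ℝ) / s) ^ α * u (3 * R) := by ring
        _ ≤ _ := by
            refine mul_le_mul_of_nonneg_right (mul_le_mul_of_nonneg_right ?_
              (Real.rpow_nonneg (by positivity) _)) hRpos.le
            refine div_le_div_of_nonneg_right ?_ hu3.le
            exact mul_le_mul_of_nonneg_left h8 (Real.rpow_nonneg (by norm_num) _)
    · -- s ≥ 3
      set R' := s / 3 with hR'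
      have hR'1 : 1 ≤ R' := by omega
      have hR'0 : (0 : ℝ) < R' := by exact_mod_cast hR'1
      have hR's : 3 * R' ≤ s := by omega
      have hsR' : s ≤ 6 * R' := by omega
      have h5 : u s ≤ u (3 * R') := hu hR's
      have h6 : F R' ≤ F R := by
        rcases Nat.lt_or_ge R' R with h | h
        · exact hrec R' h
        · have : R' = R := by omega
          rw [this]
      have h7 : u (3 * R') ≤ ((R : ℝ) / R') ^ α * u (3 * R) := by
        have h8 : (R' : ℝ) ^ α * u (3 * R') ≤ (R : ℝ) ^ α * u (3 * R) := h6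
        rw [Real.div_rpow hR0.le hR'0.le]
        have h9 : 0 < (R' : ℝ) ^ α := Real.rpow_pos_of_pos hR'0 _
        rw [div_mul_eq_mul_div, le_div_iff₀ h9]
        linarith
      have h8 : ((R : ℝ) / R') ^ α ≤ (6 : ℝ) ^ α * ((3 * R : ℝ) / s) ^ α := by
        rw [← Real.mul_rpow (by norm_num) (by positivity)]
        refine Real.rpow_le_rpow (by positivity) ?_ hα0.le
        rw [mul_div_assoc', div_le_div_iff₀ hR'0 hs0]
        have : (s : ℝ) ≤ 6 * R' := by exact_mod_cast hsR'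
        nlinarith
      have h9 : (1 : ℝ) ≤ (3 : ℝ) ^ α / u 3 := by
        rw [le_div_iff₀ hu3, one_mul]
        exact (hu1 3).trans (Real.one_le_rpow (by norm_num) hα0.le)
      calc u s ≤ ((R : ℝ) / R') ^ α * u (3 * R) := h5.trans h7
        _ ≤ (6 : ℝ) ^ α * ((3 * R : ℝ) / s) ^ α * u (3 * R) :=
            mul_le_mul_of_nonneg_right h8 hRpos.le
        _ = 1 * ((6 : ℝ) ^ α * ((3 * R : ℝ) / s) ^ α * u (3 * R)) := by ring
        _ ≤ ((3 : ℝ) ^ α / u 3) * ((6 : ℝ) ^ α * ((3 * R : ℝ) / s) ^ α * u (3 * R)) :=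
            mul_le_mul_of_nonneg_right h9 (by positivity)
        _ = _ := by ring

/-- splitting the sum at `m` -/
lemma sum_split {g : ℕ → ℝ} {B : ℝ} {R m : ℕ} (hB : 0 ≤ B) (hg : Antitone g)
    (hg1 : ∀ n, g n ≤ 1) (hg0 : ∀ n, 0 ≤ g n)
    (hterm : ∀ x : ℕ, 4 ≤ x → x ≤ R → (x : ℝ) * g x ≤ B) (hmR : m ≤ R) :
    ∑ r ∈ range R, ((r : ℝ) + 1) * g (r + 1) ≤
        6 + (m : ℝ) * B + (R : ℝ) ^ 2 * g (m + 1) := by
  have hR0 : (0 : ℝ) ≤ R := Nat.cast_nonneg _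
  have hsplit : ∀ r ∈ range R, ((r : ℝ) + 1) * g (r + 1) ≤
      (if r < 3 then (r : ℝ) + 1 else 0) + (if r < m then B else 0) +
        (R : ℝ) * g (m + 1) := by
    intro r hr
    have hrR : r < R := Finset.mem_range.1 hr
    have hgm : 0 ≤ (R : ℝ) * g (m + 1) := mul_nonneg hR0 (hg0 _)
    by_cases h3 : r < 3
    · rw [if_pos h3]
      have h4 : ((r : ℝ) + 1) * g (r + 1) ≤ (r : ℝ) + 1 :=
        mul_le_of_le_one_right (by positivity) (hg1 (r + 1))
      split_ifs <;> linarith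
    · rw [if_neg h3]
      by_cases hrm : r < m
      · rw [if_pos hrm]
        have h4 := hterm (r + 1) (by omega) (by omega)
        push_cast at h4
        linarith
      · rw [if_neg hrm]
        have h4 : g (r + 1) ≤ g (m + 1) := hg (by omega)
        have h5 : ((r : ℝ) + 1) ≤ R := by exact_mod_cast hrR
        have h6 : ((r : ℝ) + 1) * g (r + 1) ≤ (R : ℝ) * g (m + 1) :=
          mul_le_mul h5 h4 (hg0 _) hR0
        linarith
  refine (Finset.sum_le_sum hsplit).trans ?_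
  rw [Finset.sum_add_distrib, Finset.sum_add_distrib]
  have e1 : ∑ r ∈ range R, (if r < 3 then (r : ℝ) + 1 else 0) ≤ 6 := by
    have h5 : ∑ r ∈ range R, (if r < 3 then (r : ℝ) + 1 else 0) ≤
        ∑ r ∈ range (R + 3), (if r < 3 then (r : ℝ) + 1 else 0) := by
      refine Finset.sum_le_sum_of_subset_of_nonneg (by simp) fun i _ _ => ?_
      split_ifs <;> positivity
    refine h5.trans (le_of_eq ?_)
    rw [Finset.sum_ite, Finset.sum_const_zero, add_zero]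
    have : (range (R + 3)).filter (fun r => r < 3) = range 3 := by
      ext r; simp only [Finset.mem_filter, Finset.mem_range]; omega
    rw [this]
    simp [Finset.sum_range_succ]
    norm_num
  have e2 : ∑ r ∈ range R, (if r < m then B else 0) = (m : ℝ) * B := by
    rw [Finset.sum_ite, Finset.sum_const_zero, add_zero, Finset.sum_const, nsmul_eq_mul]
    congr 1
    have : (range R).filter (fun r => r < m) = range m := by
      ext r; simp only [Finset.mem_filter, Finset.mem_range]; omega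
    rw [this]; simp
  have e3 : ∑ r ∈ range R, (R : ℝ) * g (m + 1) = (R : ℝ) ^ 2 * g (m + 1) := by
    rw [Finset.sum_const, nsmul_eq_mul, Finset.card_range]; ring
  rw [e2, e3]
  linarith

/-- positivity of `u` -/
lemma u_pos (hc : 0 < c) (h2 : ∀ s r, 2 * s + 2 ≤ r → g r ≤ u s)
    (h3 : ∀ᶠ r : ℕ in atTop, c * (r : ℝ) ^ (-β) ≤ g r) (n : ℕ) : 0 < u n := by
  obtain ⟨r0, hr0⟩ := eventually_atTop.1 h3
  have h := hr0 (max (2 * n + 2) (r0 + 1)) (by omega)
  have h' := h2 n (max (2 * n + 2) (r0 + 1)) (le_max_left _ _)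
  refine lt_of_lt_of_le ?_ (h.trans h')
  exact mul_pos hc (Real.rpow_pos_of_pos (by positivity) _)

/-- `R ^ 2 u (3 R)` is large -/
lemma large (hβ : 0 ≤ β) (hβ1 : β ≤ 1) (hc : 0 < c) (h2 : ∀ s r, 2 * s + 2 ≤ r → g r ≤ u s)
    (h3 : ∀ᶠ r : ℕ in atTop, c * (r : ℝ) ^ (-β) ≤ g r) (L : ℝ) :
    ∀ᶠ R : ℕ in atTop, L ≤ ((R : ℝ)) ^ 2 * u (3 * R) := by
  obtain ⟨r0, hr0⟩ := eventually_atTop.1 h3
  have ht : Tendsto (fun R : ℕ => c * (8 : ℝ) ^ (-β) * (R : ℝ) ^ (2 - β)) atTop atTop := by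
    refine Tendsto.const_mul_atTop (by positivity) ?_
    exact (tendsto_rpow_atTop (by linarith)).comp tendsto_natCast_atTop_atTop
  filter_upwards [ht.eventually_ge_atTop L, eventually_ge_atTop (r0 + 1)] with n hn1 hn2
  refine hn1.trans ?_
  have h := hr0 (6 * n + 2) (by omega)
  have h' := h2 (3 * n) (6 * n + 2) (by omega)
  have hn3 : 1 ≤ n := by omega
  have hn0 : (0 : ℝ) < n := by exact_mod_cast hn3
  have hn1' : (1 : ℝ) ≤ n := by exact_mod_cast hn3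
  have e1 : (8 * n : ℝ) ^ (-β) ≤ ((6 * n + 2 : ℕ) : ℝ) ^ (-β) := by
    refine Real.rpow_le_rpow_of_nonpos (by positivity) ?_ (by linarith)
    push_cast
    linarith
  have e2 : (8 * n : ℝ) ^ (-β) = (8 : ℝ) ^ (-β) * (n : ℝ) ^ (-β) :=
    Real.mul_rpow (by norm_num) hn0.le
  have e3 : (n : ℝ) ^ (2 - β) = (n : ℝ) ^ 2 * (n : ℝ) ^ (-β) := by
    have e : (2 - β) = (2 : ℕ) + (-β) := by push_cast; ring
    rw [e, Real.rpow_add hn0, Real.rpow_natCast]
  have e4 : c * ((8 : ℝ) ^ (-β) * (n : ℝ) ^ (-β)) ≤ u (3 * n) := by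
    rw [← e2]
    exact (mul_le_mul_of_nonneg_left e1 hc.le).trans (h.trans h')
  calc c * (8 : ℝ) ^ (-β) * (n : ℝ) ^ (2 - β)
      = (n : ℝ) ^ 2 * (c * ((8 : ℝ) ^ (-β) * (n : ℝ) ^ (-β))) := by rw [e3]; ring
    _ ≤ _ := mul_le_mul_of_nonneg_left e4 (by positivity)

/-- one term below the cut off -/
lemma term_le {C1 U : ℝ} {R : ℕ} (hC1 : 1 ≤ C1) (hα0 : 0 < α) (hα1 : α ≤ 1) (hU0 : 0 < U)
    (h2 : ∀ s r, 2 * s + 2 ≤ r → g r ≤ u s)
    (hrecR : ∀ s : ℕ, 1 ≤ s → s ≤ 3 * R → u s ≤ C1 * ((3 * R : ℝ) / s) ^ α * U)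
    {x : ℕ} (hx : 4 ≤ x) (hxR : x ≤ R) : (x : ℝ) * g x ≤ C1 * 18 * (R : ℝ) * U := by
  have hx0 : (0 : ℝ) < x := by
    have : 0 < x := by omega
    exact_mod_cast this
  set s := x / 2 - 1 with hs
  have hs1 : 1 ≤ s := by omega
  have h6s : x ≤ 6 * s := by omega
  have hs0 : (0 : ℝ) < s := by exact_mod_cast hs1
  have h4 : g x ≤ u s := h2 s x (by omega)
  have h5 := hrecR s hs1 (by omega)
  have h6 : ((3 * R : ℝ) / s) ^ α ≤ (18 * R : ℝ) / x := by
    have h7 : ((3 * R : ℝ) / s) ≤ (18 * R : ℝ) / x := by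
      rw [div_le_div_iff₀ hs0 hx0]
      have : (x : ℝ) ≤ 6 * s := by exact_mod_cast h6s
      have hR0 : (0 : ℝ) ≤ R := Nat.cast_nonneg _
      nlinarith
    have h8 : (1 : ℝ) ≤ (18 * R : ℝ) / x := by
      rw [le_div_iff₀ hx0]
      have : (x : ℝ) ≤ R := by exact_mod_cast hxR
      linarith
    calc ((3 * R : ℝ) / s) ^ α ≤ ((18 * R : ℝ) / x) ^ α :=
          Real.rpow_le_rpow (by positivity) h7 hα0.le
      _ ≤ ((18 * R : ℝ) / x) ^ (1 : ℝ) := Real.rpow_le_rpow_of_exponent_le h8 hα1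
      _ = _ := Real.rpow_one _
  have h7 : g x ≤ C1 * ((18 * R : ℝ) / x) * U :=
    h4.trans (h5.trans (mul_le_mul_of_nonneg_right
      (mul_le_mul_of_nonneg_left h6 (by linarith)) hU0.le))
  calc (x : ℝ) * g x ≤ x * (C1 * ((18 * R : ℝ) / x) * U) :=
        mul_le_mul_of_nonneg_left h7 hx0.le
    _ = _ := by field_simp

/-- **record lemma** -/
theorem record (hK : 0 < K) (hβ : 0 ≤ β) (hα : β < α) (hα1 : α ≤ 1) (hβ1 : β ≤ 1)
    (hc : 0 < c) (hu : Antitone u) (hu1 : ∀ n, u n ≤ 1) (hg : Antitone g) (hg1 : ∀ n, g n ≤ 1)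
    (hg0 : ∀ n, 0 ≤ g n)
    (h1 : ∀ R : ℕ, 1 ≤ R → ((R : ℝ) + 1) ^ 2 * u (3 * R) ≤
      K * (1 + ∑ r ∈ range R, ((r : ℝ) + 1) * g (r + 1)))
    (h2 : ∀ s r, 2 * s + 2 ≤ r → g r ≤ u s)
    (h3 : ∀ᶠ r : ℕ in atTop, c * (r : ℝ) ^ (-β) ≤ g r) :
    ∃ C : ℝ, 1 ≤ C ∧ ∀ n0 : ℕ, ∃ r, n0 ≤ r ∧ 0 < g r ∧
      ∀ s : ℕ, 1 ≤ s → s ≤ r → u s ≤ C * ((r : ℝ) / s) ^ α * g r := by
  have hα0 : 0 < α := lt_of_le_of_lt hβ hα
  obtain ⟨C1, hC1, hrec⟩ := record_all hβ hα hc hu hu1 h2 h3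
  have hpos : ∀ n, 0 < u n := u_pos hc h2 h3
  -- the cut off `η`
  set D : ℝ := K * C1 * 18 with hD
  have hD0 : 0 < D := by positivity
  obtain ⟨η, hη0, hη1, hηD⟩ : ∃ η : ℝ, 0 < η ∧ η < 1 ∧ D * η ≤ 1 / 4 := by
    refine ⟨min (1 / 2) (1 / (4 * D)), by positivity, ?_, ?_⟩
    · exact lt_of_le_of_lt (min_le_left _ _) (by norm_num)
    · calc D * min (1 / 2) (1 / (4 * D)) ≤ D * (1 / (4 * D)) :=
            mul_le_mul_of_nonneg_left (min_le_right _ _) hD0.le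
        _ = 1 / 4 := by field_simp
  have hlarge := large hβ hβ1 hc h2 h3 (28 * K)
  obtain ⟨R1, hR1⟩ := eventually_atTop.1 hlarge
  refine ⟨C1 * (3 / η) * (2 * K + 1), ?_, fun n0 => ?_⟩
  · have h1 : (1 : ℝ) ≤ 3 / η := by rw [le_div_iff₀ hη0]; linarith
    have h2 : (1 : ℝ) ≤ 2 * K + 1 := by linarith
    have h3 : (1 : ℝ) ≤ C1 * (3 / η) := by nlinarith
    nlinarith
  · obtain ⟨R, hR, hrecR⟩ := hrec (max (max R1 1) (⌈(n0 : ℝ) / η⌉₊ + ⌈1 / η⌉₊))
    have hRR1 : R1 ≤ R := by omega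
    have hR1' : 1 ≤ R := by omega
    have hRn0 : ⌈(n0 : ℝ) / η⌉₊ + ⌈1 / η⌉₊ ≤ R := by omega
    have hR0 : (0 : ℝ) < R := by exact_mod_cast hR1'
    have hηR1 : 1 ≤ η * R := by
      have h4 : 1 / η ≤ (R : ℝ) := by
        refine (Nat.le_ceil _).trans ?_
        have : ⌈1 / η⌉₊ ≤ R := by omega
        exact_mod_cast this
      rwa [div_le_iff₀ hη0, mul_comm] at h4
    have hηn0 : (n0 : ℝ) ≤ η * R := by
      have h4 : (n0 : ℝ) / η ≤ (R : ℝ) := by
        refine (Nat.le_ceil _).trans ?_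
        have : ⌈(n0 : ℝ) / η⌉₊ ≤ R := by omega
        exact_mod_cast this
      rwa [div_le_iff₀ hη0, mul_comm] at h4
    set m : ℕ := ⌊η * R⌋₊ with hm
    have hm1 : 1 ≤ m := by
      rw [hm]
      exact Nat.le_floor (by simpa using hηR1)
    have hmn0 : n0 ≤ m := Nat.le_floor hηn0
    have hmle : (m : ℝ) ≤ η * R := Nat.floor_le (by positivity)
    have hmlt : η * R < m + 1 := Nat.lt_floor_add_one _
    have hmR : m ≤ R := by
      have : (m : ℝ) ≤ R := hmle.trans (by nlinarith)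
      exact_mod_cast this
    set U : ℝ := u (3 * R) with hU
    have hU0 : 0 < U := hpos _
    have hterm : ∀ x : ℕ, 4 ≤ x → x ≤ R → (x : ℝ) * g x ≤ C1 * 18 * (R : ℝ) * U :=
      fun x hx hxR => term_le hC1 hα0 hα1 hU0 h2 hrecR hx hxR
    have hsum := sum_split (m := m) (by positivity : 0 ≤ C1 * 18 * (R : ℝ) * U) hg hg1 hg0 hterm hmR
    have hmain := h1 R hR1'
    have hL := hR1 R hRR1
    have hsm : (m : ℝ) * (C1 * 18 * (R : ℝ) * U) * K ≤ (R : ℝ) ^ 2 * U / 4 := by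
      have h4 : (m : ℝ) * (C1 * 18 * (R : ℝ) * U) * K = D * m * (R * U) := by rw [hD]; ring
      rw [h4]
      have h5 : D * m ≤ D * (η * R) := mul_le_mul_of_nonneg_left hmle hD0.le
      have h6 : D * (η * R) ≤ 1 / 4 * R := by nlinarith
      have h7 : 0 ≤ (R : ℝ) * U := by positivity
      nlinarith
    have hgm : U ≤ (2 * K) * g (m + 1) := by
      have h4 : (R : ℝ) ^ 2 * U ≤ ((R : ℝ) + 1) ^ 2 * U := by
        refine mul_le_mul_of_nonneg_right ?_ hU0.le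
        nlinarith
      have h5 : (R : ℝ) ^ 2 * U ≤ K * (1 + (6 + (m : ℝ) * (C1 * 18 * (R : ℝ) * U) +
          (R : ℝ) ^ 2 * g (m + 1))) :=
        h4.trans (hmain.trans (mul_le_mul_of_nonneg_left (by linarith) hK.le))
      have h51 : K * (1 + (6 + (m : ℝ) * (C1 * 18 * (R : ℝ) * U) +
          (R : ℝ) ^ 2 * g (m + 1))) = 7 * K + (m : ℝ) * (C1 * 18 * (R : ℝ) * U) * K +
          K * ((R : ℝ) ^ 2 * g (m + 1)) := by ring
      rw [h51] at h5
      have h6 : (R : ℝ) ^ 2 * U / 2 ≤ K * ((R : ℝ) ^ 2 * g (m + 1)) := by linarith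
      have h7 : (0 : ℝ) < (R : ℝ) ^ 2 := by positivity
      have h8 : (R : ℝ) ^ 2 * U ≤ (R : ℝ) ^ 2 * ((2 * K) * g (m + 1)) := by
        have h81 : (R : ℝ) ^ 2 * ((2 * K) * g (m + 1)) = 2 * (K * ((R : ℝ) ^ 2 * g (m + 1))) := by
          ring
        rw [h81]; linarith
      exact le_of_mul_le_mul_left h8 h7
    have hgpos : 0 < g (m + 1) := by
      by_contra hcon
      have h9 : g (m + 1) ≤ 0 := not_lt.1 hcon
      have h10 : (2 * K) * g (m + 1) ≤ 0 := mul_nonpos_of_nonneg_of_nonpos (by positivity) h9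
      linarith
    refine ⟨m + 1, by omega, hgpos, fun s hs1 hs => ?_⟩
    have hs0 : (0 : ℝ) < s := by exact_mod_cast hs1
    have h4 := hrecR s hs1 (by omega)
    have h5 : ((3 * R : ℝ) / s) ^ α ≤ (3 / η) * (((m + 1 : ℕ) : ℝ) / s) ^ α := by
      have h6 : (3 * R : ℝ) / s ≤ (3 / η) * (((m + 1 : ℕ) : ℝ) / s) := by
        have h61 : (3 * R : ℝ) / s = (3 / η) * ((η * R) / s) := by field_simp
        rw [h61]
        refine mul_le_mul_of_nonneg_left ?_ (by positivity)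
        refine div_le_div_of_nonneg_right ?_ hs0.le
        push_cast
        exact hmlt.le
      calc ((3 * R : ℝ) / s) ^ α ≤ ((3 / η) * (((m + 1 : ℕ) : ℝ) / s)) ^ α :=
            Real.rpow_le_rpow (by positivity) h6 hα0.le
        _ = (3 / η) ^ α * (((m + 1 : ℕ) : ℝ) / s) ^ α :=
            Real.mul_rpow (by positivity) (by positivity)
        _ ≤ (3 / η) * (((m + 1 : ℕ) : ℝ) / s) ^ α := by
            refine mul_le_mul_of_nonneg_right ?_ (Real.rpow_nonneg (by positivity) _)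
            have h7 : (1 : ℝ) ≤ 3 / η := by rw [le_div_iff₀ hη0]; linarith
            calc (3 / η) ^ α ≤ (3 / η) ^ (1 : ℝ) := Real.rpow_le_rpow_of_exponent_le h7 hα1
              _ = 3 / η := Real.rpow_one _
    calc u s ≤ C1 * ((3 * R : ℝ) / s) ^ α * U := h4
      _ ≤ C1 * ((3 / η) * (((m + 1 : ℕ) : ℝ) / s) ^ α) * ((2 * K) * g (m + 1)) :=
          mul_le_mul (mul_le_mul_of_nonneg_left h5 (by linarith)) hgm hU0.le (by positivity)
      _ = C1 * (3 / η) * (2 * K) * (((m + 1 : ℕ) : ℝ) / s) ^ α * g (m + 1) := by ring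
      _ ≤ C1 * (3 / η) * (2 * K + 1) * (((m + 1 : ℕ) : ℝ) / s) ^ α * g (m + 1) := by
          refine mul_le_mul_of_nonneg_right (mul_le_mul_of_nonneg_right
            (mul_le_mul_of_nonneg_left (by linarith) (by positivity))
            (Real.rpow_nonneg (by positivity) _)) hgpos.le

end Vale.Agent.P159.H529.St
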