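import Vale.Agent.P159.H529.Qf2
import Vale.Agent.P159.H773.Rat6

/-!
P159 (helper529), q numbers, part 3: wired correlations `EQ b Λ q` of any charges `q` in finite regions
`Λ` of the plane: monotonicity, separated regions, translations, reflections, comparison with the
neutral torus.
-/

open MeasureTheory Filter Topology
open scoped BigOperators

set_option linter.all false

namespace Vale.Agent.P159.H529.Qf

open Vale.Agent.P159 Vale.Agent.P159.H353 Vale.Agent.P159.T1.H42 Vale.Agent.P159.TM.H389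
open Vale.Agent.P159.TM.H331 Vale.Agent.P159.H773

variable {M : ℕ} {b : ℝ}

/-- the phase of the charges `q` in the region `Λ` -/
noncomputable def cqs (Λ : Finset (ℤ × ℤ)) (q : ℤ × ℤ → ℤ) (ω : ℤ × ℤ → T) : T :=
  ∑ v ∈ Λ, q v • ω v

/-- wired correlation of the charges `q` in the region `Λ` -/
noncomputable def EQ (b : ℝ) (Λ : Finset (ℤ × ℤ)) (q : ℤ × ℤ → ℤ) : ℝ :=
  EW b Λ fun ω => cosT (cqs Λ q ω)

lemma cqs_cont (Λ : Finset (ℤ × ℤ)) (q : ℤ × ℤ → ℤ) : Continuous (cqs Λ q) := by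
  unfold cqs
  exact continuous_finsetSum _ fun v _ => (continuous_apply v).zsmul _

lemma cqs_congr {Λ : Finset (ℤ × ℤ)} {q q' : ℤ × ℤ → ℤ} (h : ∀ v ∈ Λ, q v = q' v)
    (ω : ℤ × ℤ → T) : cqs Λ q ω = cqs Λ q' ω := by
  unfold cqs
  exact Finset.sum_congr rfl fun v hv => by rw [h v hv]

lemma EQ_congr {Λ : Finset (ℤ × ℤ)} {q q' : ℤ × ℤ → ℤ} (h : ∀ v ∈ Λ, q v = q' v) :
    EQ b Λ q = EQ b Λ q' := by
  unfold EQ
  simp_rw [cqs_congr h]

/-- the charges of the box -/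
def bxq (M : ℕ) (q : ℤ × ℤ → ℤ) (v : St M) : ℤ := q (cv v)

lemma chq_ext {Λ : Finset (ℤ × ℤ)} (hΛ : Λ ⊆ inner (M + 1)) (q : ℤ × ℤ → ℤ) (φ : Λ → T) :
    chq (bxq M q) (fun v => ext φ (cv v)) = cqs Λ q (ext φ) := by
  have hQ : Λ ⊆ QQ M := by
    intro z hz
    have h1 := mem_inner_iff.1 (hΛ hz)
    rw [mem_QQ]
    push_cast at h1
    omega
  have h1 : cqs Λ q (ext φ) = ∑ z ∈ QQ M, q z • ext φ z := by
    unfold cqs
    refine Finset.sum_subset hQ fun z _ hz => ?_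
    rw [ext_off φ hz, smul_zero]
  rw [h1]
  unfold QQ
  rw [Finset.sum_image fun x _ y _ h => cv_inj h]
  rfl

/-- the wired correlation in the box -/
theorem eP_EQ {Λ : Finset (ℤ × ℤ)} (hΛ : Λ ⊆ inner (M + 1)) (q : ℤ × ℤ → ℤ) :
    eP (WF M b) (off M Λ) (fun θ => cosT (chq (bxq M q) θ)) = EQ b Λ q := by
  refine eP_eq_EW hΛ (cont_cos.comp (chq_cont _)) fun φ => ?_
  show cosT (chq (bxq M q) (fun v => ext φ (cv v))) = _
  rw [chq_ext hΛ]

/-- **neutral torus ≤ wired** -/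
theorem torus_le (hb : 0 ≤ b) {Λ : Finset (ℤ × ℤ)} (hΛ : Λ ⊆ inner (M + 1)) (q : ℤ × ℤ → ℤ) :
    eP (WT M b) ∅ (fun θ => cosT (chq (bxq M q) θ)) ≤ EQ b Λ q := by
  have h1 := eP_mono (w := WT M b) (U := cc (chQ (bxq M q))) (WT_fer hb).wt (WT_fer hb).pos
    (PG_cos _) (Set.empty_subset (off M Λ))
  refine h1.trans (le_of_eq ?_)
  rw [← eP_EQ hΛ q]
  have hS : ∀ θ, WS M b (pin (off M Λ) 0 θ) = WS M b 0 := by
    intro θ
    refine WS_dep M b _ _ fun v hv => pin_mem ?_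
    intro h
    rw [ringS_off] at hv
    exact hv (hΛ h)
  have p0 : 0 < WS M b 0 := (WS_fer hb).pos 0
  unfold eP
  have e1 : ∫ θ, WT M b (pin (off M Λ) 0 θ) ∂(torusHaar (St M)) =
      WS M b 0 * ∫ θ, WF M b (pin (off M Λ) 0 θ) ∂(torusHaar (St M)) := by
    rw [← integral_const_mul]
    refine integral_congr_ae (Eventually.of_forall fun θ => ?_)
    show WS M b (pin (off M Λ) 0 θ) * WF M b (pin (off M Λ) 0 θ) = _
    rw [hS]
  have e2 : ∫ θ, WT M b (pin (off M Λ) 0 θ) * cc (chQ (bxq M q)) (pin (off M Λ) 0 θ)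
      ∂(torusHaar (St M)) =
      WS M b 0 * ∫ θ, WF M b (pin (off M Λ) 0 θ) * cosT (chq (bxq M q) (pin (off M Λ) 0 θ))
        ∂(torusHaar (St M)) := by
    rw [← integral_const_mul]
    refine integral_congr_ae (Eventually.of_forall fun θ => ?_)
    show WS M b (pin (off M Λ) 0 θ) * WF M b (pin (off M Λ) 0 θ) * _ = _
    rw [hS]
    show WS M b 0 * WF M b (pin (off M Λ) 0 θ) * cosT (chq (bxq M q) (pin (off M Λ) 0 θ)) = _
    ring
  rw [e1, e2, mul_div_mul_left _ _ p0.ne']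

/-! ### translations and reflections -/

/-- integrals over mapped regions -/
lemma int_map (Λ : Finset (ℤ × ℤ)) (σ : ℤ × ℤ ≃ ℤ × ℤ) {f : (ℤ × ℤ → T) → ℝ}
    (hf : Continuous fun φ : Λ → T => f (fun v => ext φ (σ.symm v))) :
    ∫ φ, f (ext φ) ∂(torusHaar (Λ.map σ.toEmbedding)) =
      ∫ φ, f (fun v => ext φ (σ.symm v)) ∂(torusHaar Λ) := by
  have hm : ∀ w : Λ, σ w.1 ∈ Λ.map σ.toEmbedding := fun w => by
    rw [Finset.mem_map]
    exact ⟨w.1, w.2, rfl⟩
  have hmem : ∀ v, v ∈ Λ.map σ.toEmbedding ↔ σ.symm v ∈ Λ := by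
    intro v
    rw [Finset.mem_map]
    constructor
    · rintro ⟨w, hw, rfl⟩
      simpa using hw
    · intro h
      exact ⟨σ.symm v, h, by simp⟩
  have hinj : Function.Injective (fun w : Λ => (⟨σ w.1, hm w⟩ : Λ.map σ.toEmbedding)) := by
    intro w w' hw
    apply Subtype.ext
    simpa using hw
  have h1 := integral_relabel (fun w : Λ => (⟨σ w.1, hm w⟩ : Λ.map σ.toEmbedding)) hinj
    (torusHaar (Λ.map σ.toEmbedding)) (torusHaar Λ)
      (f := fun φ => f (fun v => ext φ (σ.symm v))) hf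
  rw [← h1]
  refine integral_congr_ae (Eventually.of_forall fun θ => ?_)
  show f _ = f _
  congr 1
  funext v
  by_cases hv : v ∈ Λ.map σ.toEmbedding
  · have hv' : σ.symm v ∈ Λ := (hmem v).1 hv
    rw [ext_on _ hv, ext_on _ hv']
    show θ ⟨v, hv⟩ = θ ⟨σ (σ.symm v), hm ⟨σ.symm v, hv'⟩⟩
    congr 1
    apply Subtype.ext
    simp
  · have hv' : σ.symm v ∉ Λ := fun h => hv ((hmem v).2 h)
    rw [ext_off _ hv, ext_off _ hv']

lemma ext_map_cont (Λ : Finset (ℤ × ℤ)) (σ : ℤ × ℤ ≃ ℤ × ℤ) :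
    Continuous fun φ : Λ → T => (fun v : ℤ × ℤ => ext φ (σ.symm v)) :=
  continuous_pi fun v => (continuous_apply (σ.symm v)).comp (ext_cont _)

theorem EW_map (b : ℝ) (Λ : Finset (ℤ × ℤ)) (σ : ℤ × ℤ ≃ ℤ × ℤ)
    (hσ : ∀ φ : Λ → T, EL b (fun v => ext φ (σ.symm v)) = EL b (ext φ))
    {f : (ℤ × ℤ → T) → ℝ} (hf : Continuous f) :
    EW b (Λ.map σ.toEmbedding) f = EW b Λ fun ω => f (fun v => ω (σ.symm v)) := by
  have hc := ext_map_cont Λ σ
  have c1 : Continuous fun φ : Λ → T => Real.exp (EL b (fun v => ext φ (σ.symm v))) := by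
    simp_rw [hσ]
    exact Real.continuous_exp.comp (EL_cont b Λ)
  unfold EW
  rw [int_map Λ σ (f := fun ω => Real.exp (EL b ω) * f ω) (c1.mul (hf.comp hc)),
    int_map Λ σ (f := fun ω => Real.exp (EL b ω)) c1]
  simp_rw [hσ]

theorem EQ_map (b : ℝ) (Λ : Finset (ℤ × ℤ)) (σ : ℤ × ℤ ≃ ℤ × ℤ)
    (hσ : ∀ φ : Λ → T, EL b (fun v => ext φ (σ.symm v)) = EL b (ext φ)) (q : ℤ × ℤ → ℤ) :
    EQ b (Λ.map σ.toEmbedding) (fun v => q (σ.symm v)) = EQ b Λ q := by
  unfold EQ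
  refine (EW_map b Λ σ hσ (f := fun ω => cosT (cqs (Λ.map σ.toEmbedding)
    (fun v => q (σ.symm v)) ω)) (cont_cos.comp (cqs_cont _ _))).trans ?_
  congr 1
  funext ω
  congr 1
  unfold cqs
  rw [Finset.sum_map]
  refine Finset.sum_congr rfl fun v _ => ?_
  simp

/-- translations -/
theorem EQ_tr (b : ℝ) (Λ : Finset (ℤ × ℤ)) (z : ℤ × ℤ) (q : ℤ × ℤ → ℤ) :
    EQ b (H773.tr Λ z) (fun v => q (v - z)) = EQ b Λ q := by
  have h := EQ_map b Λ (Equiv.addRight z) (fun φ => by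
    have h := EL_shift b (ext φ) (-z)
    simpa [sub_eq_add_neg] using h) q
  have e : (fun v => q ((Equiv.addRight z).symm v)) = fun v => q (v - z) := by
    funext v
    simp [sub_eq_add_neg]
  rw [e] at h
  exact h

/-- the bonds in both directions -/
lemma nn_split (b : ℝ) (u v : ℤ × ℤ) :
    nn b u v = (if v = u + (1, 0) then b else 0) + (if v = u + (0, 1) then b else 0) := by
  unfold nn
  by_cases h1 : v = u + (1, 0)
  · have h2 : ¬ v = u + (0, 1) := by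
      rw [h1]
      intro h
      have := congrArg Prod.fst h
      simp at this
    rw [if_pos (Or.inl h1), if_pos h1, if_neg h2, add_zero]
  · by_cases h2 : v = u + (0, 1)
    · rw [if_pos (Or.inr h2), if_neg h1, if_pos h2, zero_add]
    · rw [if_neg (by tauto), if_neg h1, if_neg h2, add_zero]

lemma EL_two (b : ℝ) {ω : ℤ × ℤ → T} (hω : (Function.support ω).Finite) :
    EL b ω = (∑' u : ℤ × ℤ, b * (cosT (ω u - ω (u + (1, 0))) - 1)) +
      ∑' u : ℤ × ℤ, b * (cosT (ω u - ω (u + (0, 1))) - 1) := by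
  have key : ∀ d : ℤ × ℤ, Summable (fun e : (ℤ × ℤ) × (ℤ × ℤ) =>
      (if e.2 = e.1 + d then b else 0) * (cosT (ω e.1 - ω e.2) - 1)) ∧
      ∑' e : (ℤ × ℤ) × (ℤ × ℤ), (if e.2 = e.1 + d then b else 0) * (cosT (ω e.1 - ω e.2) - 1) =
        ∑' u : ℤ × ℤ, b * (cosT (ω u - ω (u + d)) - 1) := by
    intro d
    have hinj : Function.Injective (fun u : ℤ × ℤ => (u, u + d)) := fun u u' h =>
      (Prod.mk.inj h).1
    have hsup : Function.support (fun e : (ℤ × ℤ) × (ℤ × ℤ) =>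
        (if e.2 = e.1 + d then b else 0) * (cosT (ω e.1 - ω e.2) - 1)) ⊆
        Set.range (fun u : ℤ × ℤ => (u, u + d)) := by
      intro e he
      by_contra h
      apply he
      have : ¬ e.2 = e.1 + d := fun h' => h ⟨e.1, by simp only; rw [← h']⟩
      simp only
      rw [if_neg this, zero_mul]
    have hfin : (Function.support (fun u : ℤ × ℤ => b * (cosT (ω u - ω (u + d)) - 1))).Finite := by
      refine (hω.union (hω.preimage (f := fun u => u + d)
        (fun x _ y _ h => add_right_cancel h))).subset fun u hu => ?_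
      by_contra h
      apply hu
      rw [Set.mem_union, not_or] at h
      have h1 : ω u = 0 := by
        by_contra h2
        exact h.1 h2
      have h2 : ω (u + d) = 0 := by
        by_contra h3
        exact h.2 h3
      show b * (cosT (ω u - ω (u + d)) - 1) = 0
      rw [h1, h2, sub_zero, cosT_zero, sub_self, mul_zero]
    have e1 : (fun u : ℤ × ℤ => b * (cosT (ω u - ω (u + d)) - 1)) =
        (fun e : (ℤ × ℤ) × (ℤ × ℤ) =>
          (if e.2 = e.1 + d then b else 0) * (cosT (ω e.1 - ω e.2) - 1)) ∘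
          fun u : ℤ × ℤ => (u, u + d) := by
      funext u
      simp
    constructor
    · have h1 : Summable (fun u : ℤ × ℤ => b * (cosT (ω u - ω (u + d)) - 1)) :=
        summable_of_finite_support hfin
      rw [e1] at h1
      exact (hinj.summable_iff (fun e he => Function.notMem_support.1 fun h => he (hsup h))).1 h1
    · have h1 : (∑' u : ℤ × ℤ, (fun e : (ℤ × ℤ) × (ℤ × ℤ) =>
          (if e.2 = e.1 + d then b else 0) * (cosT (ω e.1 - ω e.2) - 1)) (u, u + d)) =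
          ∑' e : (ℤ × ℤ) × (ℤ × ℤ),
            (if e.2 = e.1 + d then b else 0) * (cosT (ω e.1 - ω e.2) - 1) :=
        hinj.tsum_eq hsup
      rw [← h1]
      exact tsum_congr fun u => (congrFun e1 u).symm
  unfold EL
  have h1 : ∀ e : (ℤ × ℤ) × (ℤ × ℤ), nn b e.1 e.2 * (cosT (ω e.1 - ω e.2) - 1) =
      (if e.2 = e.1 + (1, 0) then b else 0) * (cosT (ω e.1 - ω e.2) - 1) +
      (if e.2 = e.1 + (0, 1) then b else 0) * (cosT (ω e.1 - ω e.2) - 1) := by
    intro e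
    rw [nn_split, add_mul]
  simp_rw [h1]
  rw [((key (1, 0)).1).tsum_add (key (0, 1)).1, (key (1, 0)).2, (key (0, 1)).2]

/-- reflection of the first coordinate -/
def rf1 (c : ℤ) : ℤ × ℤ ≃ ℤ × ℤ where
  toFun v := (c - v.1, v.2)
  invFun v := (c - v.1, v.2)
  left_inv v := by simp
  right_inv v := by simp

/-- reflection of the second coordinate -/
def rf2 (c : ℤ) : ℤ × ℤ ≃ ℤ × ℤ where
  toFun v := (v.1, c - v.2)
  invFun v := (v.1, c - v.2)
  left_inv v := by simp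
  right_inv v := by simp

lemma ext_supp {Λ : Finset (ℤ × ℤ)} (φ : Λ → T) (σ : ℤ × ℤ ≃ ℤ × ℤ) :
    (Function.support fun v => ext φ (σ.symm v)).Finite := by
  refine (Finset.finite_toSet (Λ.map σ.toEmbedding)).subset fun v hv => ?_
  by_contra h
  apply hv
  show ext φ (σ.symm v) = 0
  refine ext_off φ fun h' => h ?_
  rw [Finset.mem_coe, Finset.mem_map]
  exact ⟨σ.symm v, h', by simp⟩

lemma ext_supp0 {Λ : Finset (ℤ × ℤ)} (φ : Λ → T) : (Function.support (ext φ)).Finite :=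
  ext_supp φ (Equiv.refl _)

lemma cos_sub_comm (a c : T) : cosT (a - c) = cosT (c - a) := by
  rw [← cosT_neg, neg_sub]

lemma EL_rf1 (b : ℝ) {Λ : Finset (ℤ × ℤ)} (c : ℤ) (φ : Λ → T) :
    EL b (fun v => ext φ ((rf1 c).symm v)) = EL b (ext φ) := by
  rw [EL_two b (ext_supp φ (rf1 c)), EL_two b (ext_supp0 φ)]
  congr 1
  · rw [← ((rf1 c).trans (Equiv.addRight (-1, 0))).tsum_eq
      (fun u : ℤ × ℤ => b * (cosT (ext φ u - ext φ (u + (1, 0))) - 1))]
    refine tsum_congr fun u => ?_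
    have e1 : (rf1 c).symm u = ((rf1 c).trans (Equiv.addRight (-1, 0))) u + (1, 0) := by
      show (c - u.1, u.2) = ((c - u.1, u.2) + (-1, 0)) + (1, 0)
      ext <;> simp
    have e2 : (rf1 c).symm (u + (1, 0)) = ((rf1 c).trans (Equiv.addRight (-1, 0))) u := by
      show (c - (u.1 + 1), u.2 + 0) = (c - u.1, u.2) + (-1, 0)
      ext
      · simp only [Prod.fst_add]; ring
      · simp
    rw [e1, e2, cos_sub_comm]
  · rw [← (rf1 c).tsum_eq (fun u : ℤ × ℤ => b * (cosT (ext φ u - ext φ (u + (0, 1))) - 1))]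
    refine tsum_congr fun u => ?_
    have e1 : (rf1 c).symm u = (rf1 c) u := rfl
    have e2 : (rf1 c).symm (u + (0, 1)) = (rf1 c) u + (0, 1) := by
      show (c - (u.1 + 0), u.2 + 1) = (c - u.1, u.2) + (0, 1)
      ext <;> simp
    rw [e1, e2]

lemma EL_rf2 (b : ℝ) {Λ : Finset (ℤ × ℤ)} (c : ℤ) (φ : Λ → T) :
    EL b (fun v => ext φ ((rf2 c).symm v)) = EL b (ext φ) := by
  rw [EL_two b (ext_supp φ (rf2 c)), EL_two b (ext_supp0 φ)]
  congr 1
  · rw [← (rf2 c).tsum_eq (fun u : ℤ × ℤ => b * (cosT (ext φ u - ext φ (u + (1, 0))) - 1))]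
    refine tsum_congr fun u => ?_
    have e1 : (rf2 c).symm u = (rf2 c) u := rfl
    have e2 : (rf2 c).symm (u + (1, 0)) = (rf2 c) u + (1, 0) := by
      show (u.1 + 1, c - (u.2 + 0)) = (u.1, c - u.2) + (1, 0)
      ext <;> simp
    rw [e1, e2]
  · rw [← ((rf2 c).trans (Equiv.addRight (0, -1))).tsum_eq
      (fun u : ℤ × ℤ => b * (cosT (ext φ u - ext φ (u + (0, 1))) - 1))]
    refine tsum_congr fun u => ?_
    have e1 : (rf2 c).symm u = ((rf2 c).trans (Equiv.addRight (0, -1))) u + (0, 1) := by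
      show (u.1, c - u.2) = ((u.1, c - u.2) + (0, -1)) + (0, 1)
      ext <;> simp
    have e2 : (rf2 c).symm (u + (0, 1)) = ((rf2 c).trans (Equiv.addRight (0, -1))) u := by
      show (u.1 + 0, c - (u.2 + 1)) = (u.1, c - u.2) + (0, -1)
      ext
      · simp
      · simp only [Prod.snd_add]; ring
    rw [e1, e2, cos_sub_comm]

theorem EQ_rf1 (b : ℝ) (Λ : Finset (ℤ × ℤ)) (c : ℤ) (q : ℤ × ℤ → ℤ) :
    EQ b (Λ.map (rf1 c).toEmbedding) (fun v => q (c - v.1, v.2)) = EQ b Λ q :=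
  EQ_map b Λ (rf1 c) (EL_rf1 b c) q

theorem EQ_rf2 (b : ℝ) (Λ : Finset (ℤ × ℤ)) (c : ℤ) (q : ℤ × ℤ → ℤ) :
    EQ b (Λ.map (rf2 c).toEmbedding) (fun v => q (v.1, c - v.2)) = EQ b Λ q :=
  EQ_map b Λ (rf2 c) (EL_rf2 b c) q

/-- opposite charges -/
theorem EQ_neg (b : ℝ) (Λ : Finset (ℤ × ℤ)) (q : ℤ × ℤ → ℤ) : EQ b Λ (-q) = EQ b Λ q := by
  unfold EQ
  congr 1
  funext ω
  have e : cqs Λ (-q) ω = -cqs Λ q ω := by
    unfold cqs
    rw [← Finset.sum_neg_distrib]
    exact Finset.sum_congr rfl fun v _ => neg_zsmul _ _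
  rw [e, cosT_neg]

/-! ### monotonicity, bounds -/

lemma EQ_mono' (hb : 0 ≤ b) {Λ Λ' : Finset (ℤ × ℤ)} (h : Λ ⊆ Λ')
    (hΛ : Λ' ⊆ inner (M + 1)) (q : ℤ × ℤ → ℤ) : EQ b Λ' q ≤ EQ b Λ q := by
  rw [← eP_EQ hΛ, ← eP_EQ (h.trans hΛ)]
  exact eP_mono (U := cc (chQ (bxq M q))) (WF_fer hb).wt (WF_fer hb).pos (PG_cos _) (off_mono h)

/-- wired correlations decrease with the region -/
theorem EQ_mono (hb : 0 ≤ b) {Λ Λ' : Finset (ℤ × ℤ)} (h : Λ ⊆ Λ') (q : ℤ × ℤ → ℤ) :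
    EQ b Λ' q ≤ EQ b Λ q := by
  obtain ⟨M, z, hM⟩ := exists_inner Λ'
  have h1 := EQ_mono' (b := b) hb (tr_mono h z) hM (fun v => q (v - z))
  rwa [EQ_tr, EQ_tr] at h1

theorem EQ_nonneg (hb : 0 ≤ b) (Λ : Finset (ℤ × ℤ)) (q : ℤ × ℤ → ℤ) : 0 ≤ EQ b Λ q := by
  obtain ⟨M, z, hM⟩ := exists_inner Λ
  rw [← EQ_tr b Λ z, ← eP_EQ hM]
  exact eP_nonneg (U := cc (chQ (bxq M _))) (WF_fer hb).wt (WF_fer hb).pos (PG_cos _) _

theorem EQ_le_one (b : ℝ) (Λ : Finset (ℤ × ℤ)) (q : ℤ × ℤ → ℤ) : EQ b Λ q ≤ 1 := by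
  obtain ⟨M, z, hM⟩ := exists_inner Λ
  rw [← EQ_tr b Λ z, ← eP_EQ hM]
  have h0 : ∀ θ, 0 < WF M b θ := fun θ => Real.exp_pos _
  unfold eP
  rw [div_le_one (eP_den_pos h0 _)]
  have hc := pin_cont (off M (H773.tr Λ z)) (0 : St M → T)
  refine integral_mono (cint (((WF M b).continuous.comp hc).mul
    ((cont_cos.comp (chq_cont _)).comp hc))) (cint ((WF M b).continuous.comp hc)) fun θ => ?_
  have h1 : cosT (chq (bxq M fun v => q (v - z)) (pin (off M (H773.tr Λ z)) 0 θ)) ≤ 1 :=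
    by
      have h2 := Real.Angle.cos_sq_add_sin_sq (chq (bxq M fun v => q (v - z))
        (pin (off M (H773.tr Λ z)) 0 θ))
      show Real.Angle.cos _ ≤ 1
      nlinarith [sq_nonneg (Real.Angle.sin (chq (bxq M fun v => q (v - z))
        (pin (off M (H773.tr Λ z)) 0 θ))), sq_nonneg (Real.Angle.cos (chq (bxq M fun v => q (v - z))
        (pin (off M (H773.tr Λ z)) 0 θ)) - 1)]
  exact mul_le_of_le_one_right (h0 _).le h1

/-! ### separated regions -/

lemma cos_add' (a c : T) : cosT (a + c) = cosT a * cosT c - sinT a * sinT c :=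
  Real.Angle.cos_add _ _

theorem eP_twoq {Λ1 Λ2 : Finset (ℤ × ℤ)} (hs : H773.Sep Λ1 Λ2) (q : St M → ℤ) :
    eP (WF M b) (off M (Λ1 ∪ Λ2)) (fun θ => cosT (chq q θ)) =
      eP (WF M b) (off M Λ1) (fun θ => cosT (chq q θ)) *
        eP (WF M b) (off M Λ2) (fun θ => cosT (chq q θ)) := by
  have hd : ∀ v : St M, cv v ∈ Λ1 → cv v ∉ Λ2 := by
    intro v h1 h2
    have := hs _ h1 _ h2
    rw [sub_self, XY.nm_zero] at this
    omega
  have w0 : 0 < WF M b 0 := Real.exp_pos _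
  set p1 := fun θ : St M → T => pin (off M Λ1) 0 θ with hp1
  set p2 := fun θ : St M → T => pin (off M Λ2) 0 θ with hp2
  have c1 : Continuous p1 := pin_cont _ 0
  have c2 : Continuous p2 := pin_cont _ 0
  have hW := fun θ => WF_two (M := M) (b := b) hs θ
  have hind : ∀ {f g : T → ℝ}, Continuous f → Continuous g →
      ∫ θ, (WF M b (p1 θ) * f (chq q (p1 θ))) * (WF M b (p2 θ) * g (chq q (p2 θ)))
        ∂(torusHaar (St M)) =
        (∫ θ, WF M b (p1 θ) * f (chq q (p1 θ)) ∂(torusHaar (St M))) *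
          ∫ θ, WF M b (p2 θ) * g (chq q (p2 θ)) ∂(torusHaar (St M)) := by
    intro f g hf hg
    refine indep (S := {v : St M | cv v ∈ Λ1})
      (((WF M b).continuous.comp c1).mul (hf.comp ((chq_cont q).comp c1)))
      (((WF M b).continuous.comp c2).mul (hg.comp ((chq_cont q).comp c2))) ?_ ?_
    · intro θ θ' h
      have e : p1 θ = p1 θ' := by
        funext v
        by_cases hv : cv v ∈ Λ1
        · have hv' : v ∉ off M Λ1 := fun h => h hv
          simp only [hp1]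
          rw [pin_notMem hv', pin_notMem hv']
          exact h v hv
        · simp only [hp1]
          rw [pin_mem (show v ∈ off M Λ1 from hv), pin_mem (show v ∈ off M Λ1 from hv)]
      show WF M b (p1 θ) * f (chq q (p1 θ)) = WF M b (p1 θ') * f (chq q (p1 θ'))
      rw [e]
    · intro θ θ' h
      have e : p2 θ = p2 θ' := by
        funext v
        by_cases hv : cv v ∈ Λ2
        · have hv' : v ∉ off M Λ2 := fun h => h hv
          simp only [hp2]
          rw [pin_notMem hv', pin_notMem hv']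
          exact h v fun h1 => hd v h1 hv
        · simp only [hp2]
          rw [pin_mem (show v ∈ off M Λ2 from hv), pin_mem (show v ∈ off M Λ2 from hv)]
      show WF M b (p2 θ) * g (chq q (p2 θ)) = WF M b (p2 θ') * g (chq q (p2 θ'))
      rw [e]
  have hp12 : ∀ θ : St M → T, pin (off M (Λ1 ∪ Λ2)) 0 θ = p1 θ + p2 θ := by
    intro θ
    funext v
    rw [Pi.add_apply]
    simp only [hp1, hp2]
    by_cases h1 : cv v ∈ Λ1
    · have h2 := hd v h1
      rw [pin_notMem (notMem_off (Finset.mem_union_left _ h1)), pin_notMem (notMem_off h1),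
        pin_mem (show v ∈ off M Λ2 from h2), Pi.zero_apply, add_zero]
    · by_cases h2 : cv v ∈ Λ2
      · rw [pin_notMem (notMem_off (Finset.mem_union_right _ h2)),
          pin_mem (show v ∈ off M Λ1 from h1), pin_notMem (notMem_off h2), Pi.zero_apply,
          zero_add]
      · have h3 : v ∈ off M (Λ1 ∪ Λ2) := fun h => by
          rcases Finset.mem_union.1 h with h | h
          · exact h1 h
          · exact h2 h
        rw [pin_mem h3, pin_mem (show v ∈ off M Λ1 from h1), pin_mem (show v ∈ off M Λ2 from h2),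
          Pi.zero_apply, add_zero]
  have e1 : (∫ θ, WF M b (pin (off M (Λ1 ∪ Λ2)) 0 θ) *
      cosT (chq q (pin (off M (Λ1 ∪ Λ2)) 0 θ)) ∂(torusHaar (St M))) *
        WF M b 0 = (∫ θ, WF M b (p1 θ) * cosT (chq q (p1 θ)) ∂(torusHaar (St M))) *
          ∫ θ, WF M b (p2 θ) * cosT (chq q (p2 θ)) ∂(torusHaar (St M)) := by
    have hc := hind cont_cos cont_cos
    have hsn := hind cont_sin cont_sin
    have z1 : ∫ θ, WF M b (p1 θ) * sinT (chq q (p1 θ)) ∂(torusHaar (St M)) = 0 := by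
      refine int_odd fun θ => ?_
      simp only [hp1]
      rw [pin_neg, WF_neg, chq_neg_arg, sinT_neg]
      ring
    rw [z1, zero_mul] at hsn
    rw [← hc, ← integral_mul_const, ← sub_zero (∫ θ, (WF M b (p1 θ) * cosT (chq q (p1 θ))) *
      (WF M b (p2 θ) * cosT (chq q (p2 θ))) ∂(torusHaar (St M))), ← hsn, ← integral_sub]
    · refine integral_congr_ae (Eventually.of_forall fun θ => ?_)
      have e2 := cos_add' (chq q (p1 θ)) (chq q (p2 θ))
      show WF M b (pin (off M (Λ1 ∪ Λ2)) 0 θ) * cosT (chq q (pin (off M (Λ1 ∪ Λ2)) 0 θ)) *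
        WF M b 0 = _
      rw [mul_right_comm, hW θ, hp12 θ, chq_add_arg, e2]
      show _ = (WF M b (p1 θ) * cosT (chq q (p1 θ))) * (WF M b (p2 θ) * cosT (chq q (p2 θ))) -
        (WF M b (p1 θ) * sinT (chq q (p1 θ))) * (WF M b (p2 θ) * sinT (chq q (p2 θ)))
      ring
    · exact cint ((((WF M b).continuous.comp c1).mul
        (cont_cos.comp ((chq_cont q).comp c1))).mul
        (((WF M b).continuous.comp c2).mul (cont_cos.comp ((chq_cont q).comp c2))))
    · exact cint ((((WF M b).continuous.comp c1).mul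
        (cont_sin.comp ((chq_cont q).comp c1))).mul
        (((WF M b).continuous.comp c2).mul (cont_sin.comp ((chq_cont q).comp c2))))
  have e2 : (∫ θ, WF M b (pin (off M (Λ1 ∪ Λ2)) 0 θ) ∂(torusHaar (St M))) * WF M b 0 =
      (∫ θ, WF M b (p1 θ) ∂(torusHaar (St M))) * ∫ θ, WF M b (p2 θ) ∂(torusHaar (St M)) := by
    have hc := hind (f := fun _ => 1) (g := fun _ => 1) continuous_const continuous_const
    simp only [mul_one] at hc
    rw [← hc, ← integral_mul_const]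
    exact integral_congr_ae (Eventually.of_forall fun θ => hW θ)
  unfold eP
  rw [← mul_div_mul_right _ _ w0.ne', e1, e2, mul_div_mul_comm]

/-- **separated regions** -/
theorem EQ_union {Λ1 Λ2 : Finset (ℤ × ℤ)} (hs : H773.Sep Λ1 Λ2) (q : ℤ × ℤ → ℤ) :
    EQ b (Λ1 ∪ Λ2) q = EQ b Λ1 q * EQ b Λ2 q := by
  obtain ⟨M, z, hM⟩ := exists_inner (Λ1 ∪ Λ2)
  have h0 := hM
  rw [tr_union] at h0
  have h := eP_twoq (M := M) (b := b) (Sep_tr hs z) (bxq M fun v => q (v - z))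
  rw [← tr_union, eP_EQ hM, eP_EQ (Finset.union_subset_left h0),
    eP_EQ (Finset.union_subset_right h0), EQ_tr, EQ_tr, EQ_tr] at h
  exact h

/-- no charge -/
theorem EQ_zero (b : ℝ) {Λ : Finset (ℤ × ℤ)} {q : ℤ × ℤ → ℤ} (h : ∀ v ∈ Λ, q v = 0) :
    EQ b Λ q = 1 := by
  obtain ⟨M, z, hM⟩ := exists_inner Λ
  have h0 : ∀ θ, 0 < WF M b θ := fun θ => Real.exp_pos _
  rw [EQ_congr (q' := fun _ => 0) h, ← EQ_tr b Λ z, ← eP_EQ hM]
  unfold eP
  rw [div_eq_one_iff_eq (eP_den_pos h0 _).ne']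
  refine integral_congr_ae (Eventually.of_forall fun θ => ?_)
  have e : ∀ θ' : St M → T, chq (bxq M fun v => (0 : ℤ)) θ' = 0 := by
    intro θ'
    unfold chq bxq
    simp
  show WF M b (pin (off M (H773.tr Λ z)) 0 θ) *
    cosT (chq (bxq M fun v => (0 : ℤ)) (pin (off M (H773.tr Λ z)) 0 θ)) = _
  rw [e, cosT_zero, mul_one]

/-- **one charge** in a region which contains a box of radius `ρ` around it -/
theorem EQ_one (hb : 0 ≤ b) {Λ : Finset (ℤ × ℤ)} {q : ℤ × ℤ → ℤ} {z : ℤ × ℤ} {ρ : ℕ}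
    (hΛ : H773.tr (box ρ) z ⊆ Λ) (hz : q z = 1 ∨ q z = -1) (hq : ∀ v ∈ Λ, v ≠ z → q v = 0) :
    EQ b Λ q ≤ mm b ρ := by
  refine (EQ_mono hb hΛ q).trans (le_of_eq ?_)
  have hq' : ∀ v ∈ H773.tr (box ρ) z, v ≠ z → q v = 0 := fun v hv => hq v (hΛ hv)
  rw [← mm_tr b ρ z]
  unfold EQ
  congr 1
  funext ω
  have e : cqs (H773.tr (box ρ) z) q ω = q z • ω z := by
    unfold cqs
    rw [Finset.sum_eq_single z]
    · intro v hv hne
      rw [hq' v hv hne, zero_smul]
    · intro h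
      exact absurd (mem_tr_box z) h
  rw [e]
  rcases hz with h | h
  · rw [h, one_smul]
  · rw [h, neg_smul, one_smul, cosT_neg]

end Vale.Agent.P159.H529.Qf
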