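import Vale.Agent.P159.H529.Qf1
import Vale.Agent.P159.H529.Qf3
import Vale.Agent.P159.H883.Twr4
import Vale.Agent.P159.H474.Cb7
import Vale.Agent.P159.H474.Cb8

/-!
P159 (helper529), q numbers, part 4: partition functions of the torus with a dislocation field `η` and
any real background against wired correlations; folded blocks.
-/

set_option linter.all false

namespace Vale.Agent.P159.H529.Qf

open Finset Matrix MeasureTheory
open Vale.Agent.P159.H37 (ZM Zn)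
open Vale.Agent.P159.H963 (MF)
open Vale.Agent.P159.H770 (wTD gwf_wTD wTD_zero)
open Vale.Agent.P159.TM.SpecC (Tor wT)
open Vale.Agent.P159.H513 (cuZ)
open Vale.Agent.P159.H474.Cb (foE fc sgh fo Z0 Z0_pos cuZ_foE)
open Vale.Agent.P159.H773 (mm)

noncomputable section

variable {b t : ℝ}

section tor

variable {N : ℕ} [NeZero N]

/-- region inside the open square -/
def InT (N : ℕ) (Λ : Finset (ℤ × ℤ)) : Prop :=
  ∀ z ∈ Λ, (1 ≤ z.1 ∧ z.1 + 2 ≤ N) ∧ (1 ≤ z.2 ∧ z.2 + 2 ≤ N)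

/-- neutral dislocation with the charges `q` -/
structure DQ (N : ℕ) [NeZero N] (η : H770.Ed N → ℤ) (q : ℤ × ℤ → ℤ) : Prop where
  cu : ∀ v : Tor N, cuZ η v = q ((v.1.val : ℤ), (v.2.val : ℤ))
  row : ∑ j : ZMod N, η ((0, j), true) = 0
  col : ∑ i : ZMod N, η ((i, 0), false) = 0

/-- the massless ratio against the wired correlation -/
theorem Cp_le (hN : 2 ≤ N) (hb : 0 < b) {η : H770.Ed N → ℤ} {q : ℤ × ℤ → ℤ} (hη : DQ N η q)
    {Λ : Finset (ℤ × ℤ)} (hΛ : InT N Λ) : Cp (wTD N b) η 0 ≤ EQ b Λ q := by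
  obtain ⟨M, rfl⟩ : ∃ M, N = M + 2 := ⟨N - 2, by omega⟩
  have h1 : DsQ (M := M) η (bxq M q) := by
    refine ⟨fun v => ?_, ?_, ?_⟩
    · exact hη.cu v
    · exact hη.row
    · exact hη.col
  have h2 := Zp_ratio hb.le h1
  have h3 : Cp (wTD (M + 2) b) η 0 =
      H773.eP (H773.WT M b) ∅ (fun θ => cosT (chq (bxq M q) θ)) := h2
  rw [h3]
  refine torus_le hb.le ?_ q
  intro z hz
  have h4 := hΛ z hz
  rw [H773.mem_inner_iff]
  push_cast at h4 ⊢
  omega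

/-- **integer model, any real background** -/
theorem ZM_EQ (hN : 2 ≤ N) (hb : 0 < b) {η : H770.Ed N → ℤ} {q : ℤ × ℤ → ℤ} (hη : DQ N η q)
    {Λ : Finset (ℤ × ℤ)} (hΛ : InT N Λ) {A : Matrix (Tor N) (Tor N) ℝ} {m : ℝ} (hA : MF A m)
    (F : Tor N → ℝ) : ZM (wTD N b η) A F ≤ EQ b Λ q * ZM (wT b N) A 0 := by
  have h1 := ZM_le (gwf_wTD (N := N) hb) (H883.em_pin_wTD hb) hA 0 η F
  have e : wTD N b 0 = wT b N := wTD_zero b
  rw [e] at h1
  refine h1.trans (mul_le_mul_of_nonneg_right (Cp_le hN hb hη hΛ) ?_)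
  have h2 := ((gwf_wTD (N := N) hb).disF_wM hA).em 0
  have h3 := H37.ZM_pos hA.symm h2 0
  have h4 : 0 < ZM (wTD N b 0) A 0 := h3
  rw [e] at h4
  exact h4.le

/-- **neutral model, any real background** -/
theorem Zn_EQ (hN : 2 ≤ N) (hb : 0 < b) {η : H770.Ed N → ℤ} {q : ℤ × ℤ → ℤ} (hη : DQ N η q)
    {Λ : Finset (ℤ × ℤ)} (hΛ : InT N Λ) {A : Matrix (Tor N) (Tor N) ℝ} {m : ℝ} (hA : MF A m)
    (F : Tor N → ℝ) : Zn (wTD N b η) A F ≤ EQ b Λ q * Zn (wT b N) A 0 := by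
  have h1 := Zn_le (gwf_wTD (N := N) hb) (H883.em_pin_wTD hb) hA 0 η F
  have e : wTD N b 0 = wT b N := wTD_zero b
  rw [e] at h1
  refine h1.trans (mul_le_mul_of_nonneg_right (Cp_le hN hb hη hΛ) ?_)
  have h4 := (gwf_wTD (N := N) hb).Zn_pos hA 0 (0 : Tor N → ℝ)
  have h5 : 0 < Zn (wTD N b 0) A 0 := h4
  rw [e] at h5
  exact h5.le

end tor

/-! ### folded blocks -/

section fold

variable {n m : ℕ} [NeZero ((m + 1) * n)] [NeZero ((m + 1) * 2)]

lemma val_neg_one_sub (x : ZMod ((m + 1) * 2)) : (-1 - x).val = (m + 1) * 2 - 1 - x.val := by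
  have h := ZMod.val_lt x
  have h1 : -1 - x = (((m + 1) * 2 - 1 - x.val : ℕ) : ZMod ((m + 1) * 2)) := by
    rw [Nat.sub_sub, Nat.cast_sub (by omega), ZMod.natCast_self]
    push_cast
    rw [ZMod.natCast_zmod_val]
    ring
  rw [h1, ZMod.val_natCast]
  exact Nat.mod_eq_of_lt (by omega)

lemma sum_fold (g : ℕ → ℤ) : ∑ x : ZMod ((m + 1) * 2),
    (if x.val < m + 1 then g x.val else -g ((m + 1) * 2 - 1 - x.val)) = 0 := by
  set f : ZMod ((m + 1) * 2) → ℤ := fun x =>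
    if x.val < m + 1 then g x.val else -g ((m + 1) * 2 - 1 - x.val) with hf
  have h1 : ∑ x, f (-1 - x) = ∑ x, f x := Equiv.sum_comp (Equiv.subLeft (-1)) f
  have h2 : ∀ x, f (-1 - x) = -f x := by
    intro x
    have h := ZMod.val_lt x
    simp only [hf]
    rw [val_neg_one_sub]
    by_cases h3 : x.val < m + 1
    · rw [if_pos h3, if_neg (by omega)]
      congr 2
      omega
    · rw [if_neg h3, if_pos (by omega), neg_neg]
  simp_rw [h2] at h1
  rw [Finset.sum_neg_distrib] at h1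
  have h4 : ∑ x, f x = 0 := by linarith
  exact h4

/-- the charges of the folded block -/
def fq (m : ℕ) (q : ℤ × ℤ → ℤ) (z : ℤ × ℤ) : ℤ :=
  (if z.1 ≤ m then 1 else -1) * (if z.2 ≤ m then 1 else -1) *
    q (if z.1 ≤ m then z.1 else 2 * m + 1 - z.1, if z.2 ≤ m then z.2 else 2 * m + 1 - z.2)

/-- the folded dislocation is neutral, its charges are the mirror images -/
theorem dq_foE (η : H770.Ed ((m + 1) * n) → ℤ) (i j : ℕ) {q : ℤ × ℤ → ℤ}
    (hq : ∀ a c : ℕ, a ≤ m → c ≤ m → cuZ η ((((m + 1) * i + a : ℕ) : ZMod ((m + 1) * n)),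
        (((m + 1) * j + c : ℕ) : ZMod ((m + 1) * n))) = q ((a : ℤ), (c : ℤ))) :
    DQ ((m + 1) * 2) (foE m η i j) (fq m q) where
  cu v := by
    have h1 := H474.Cb.fc_lt m v.1
    have h2 := H474.Cb.fc_lt m v.2
    rw [cuZ_foE, hq _ _ (by omega) (by omega)]
    have e : ∀ x : ZMod ((m + 1) * 2), sgh m x = (if (x.val : ℤ) ≤ m then 1 else -1) ∧
        ((fc m x : ℕ) : ℤ) = if (x.val : ℤ) ≤ m then (x.val : ℤ) else 2 * m + 1 - x.val := by
      intro x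
      have h3 := ZMod.val_lt x
      unfold sgh fc
      by_cases h : x.val < m + 1
      · have h' : (x.val : ℤ) ≤ m := by omega
        rw [if_pos h, if_pos h, if_pos h', if_pos h']
        exact ⟨rfl, rfl⟩
      · have h' : ¬ (x.val : ℤ) ≤ m := by omega
        rw [if_neg h, if_neg h, if_neg h', if_neg h']
        refine ⟨rfl, ?_⟩
        omega
    unfold fq
    simp only
    rw [(e v.1).1, (e v.2).1, (e v.1).2, (e v.2).2]
  row := by
    have h := sum_fold (m := m) fun a => η (((((m + 1) * i + fo m (0 : ZMod ((m + 1) * 2)) : ℕ) :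
      ZMod ((m + 1) * n)), (((m + 1) * j + a : ℕ) : ZMod ((m + 1) * n))), true)
    rw [← h]
    refine Finset.sum_congr rfl fun x _ => ?_
    unfold foE
    simp only [if_true]
  col := by
    have h := sum_fold (m := m) fun a => η (((((m + 1) * i + a : ℕ) : ZMod ((m + 1) * n)),
      (((m + 1) * j + fo m (0 : ZMod ((m + 1) * 2)) : ℕ) : ZMod ((m + 1) * n))), false)
    rw [← h]
    refine Finset.sum_congr rfl fun x _ => ?_
    unfold foE
    simp only [Bool.false_eq_true, if_false]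

/-- region inside the open block -/
def InB (m : ℕ) (Λ : Finset (ℤ × ℤ)) : Prop :=
  ∀ z ∈ Λ, (1 ≤ z.1 ∧ z.1 + 1 ≤ m) ∧ (1 ≤ z.2 ∧ z.2 + 1 ≤ m)

lemma mem_rf1 {Λ : Finset (ℤ × ℤ)} {c : ℤ} {z : ℤ × ℤ} :
    z ∈ Λ.map (rf1 c).toEmbedding ↔ (c - z.1, z.2) ∈ Λ := by
  rw [Finset.mem_map]
  constructor
  · rintro ⟨w, hw, rfl⟩
    have e : ((c - ((rf1 c).toEmbedding w).1, ((rf1 c).toEmbedding w).2) : ℤ × ℤ) = w := by
      show ((c - (c - w.1), w.2) : ℤ × ℤ) = w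
      ext
      · simp
      · rfl
    rw [e]
    exact hw
  · intro h
    refine ⟨_, h, ?_⟩
    show ((c - (c - z.1), z.2) : ℤ × ℤ) = z
    ext
    · simp
    · rfl

lemma mem_rf2 {Λ : Finset (ℤ × ℤ)} {c : ℤ} {z : ℤ × ℤ} :
    z ∈ Λ.map (rf2 c).toEmbedding ↔ (z.1, c - z.2) ∈ Λ := by
  rw [Finset.mem_map]
  constructor
  · rintro ⟨w, hw, rfl⟩
    have e : ((((rf2 c).toEmbedding w).1, c - ((rf2 c).toEmbedding w).2) : ℤ × ℤ) = w := by
      show ((w.1, c - (c - w.2)) : ℤ × ℤ) = w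
      ext
      · rfl
      · simp
    rw [e]
    exact hw
  · intro h
    refine ⟨_, h, ?_⟩
    show ((z.1, c - (c - z.2)) : ℤ × ℤ) = z
    ext
    · rfl
    · simp

lemma nm_ge_of_fst {u : ℤ × ℤ} {k : ℕ} (h : (k : ℤ) ≤ |u.1|) : k ≤ XY.nm u := by
  unfold XY.nm
  have := Int.natCast_natAbs u.1
  omega

lemma nm_ge_of_snd {u : ℤ × ℤ} {k : ℕ} (h : (k : ℤ) ≤ |u.2|) : k ≤ XY.nm u := by
  unfold XY.nm
  have := Int.natCast_natAbs u.2
  omega

/-- the four mirror images of the region -/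
def four (m : ℕ) (Λ : Finset (ℤ × ℤ)) : Finset (ℤ × ℤ) :=
  (Λ ∪ Λ.map (rf1 (2 * m + 1)).toEmbedding) ∪
    (Λ ∪ Λ.map (rf1 (2 * m + 1)).toEmbedding).map (rf2 (2 * m + 1)).toEmbedding

theorem EQ_four (b : ℝ) {Λ : Finset (ℤ × ℤ)} (hΛ : InB m Λ) (q : ℤ × ℤ → ℤ) :
    EQ b (four m Λ) (fq m q) = EQ b Λ q ^ 4 := by
  set Λ1 := Λ.map (rf1 (2 * m + 1)).toEmbedding with hΛ1
  have hs1 : H773.Sep Λ Λ1 := by
    intro u hu v hv
    rw [hΛ1, mem_rf1] at hv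
    have h1 := hΛ u hu
    have h2 := hΛ _ hv
    simp only at h2
    refine nm_ge_of_fst ?_
    rw [Prod.fst_sub, le_abs]
    push_cast
    omega
  have hs2 : H773.Sep (Λ ∪ Λ1) ((Λ ∪ Λ1).map (rf2 (2 * m + 1)).toEmbedding) := by
    have hy : ∀ z ∈ Λ ∪ Λ1, 1 ≤ z.2 ∧ z.2 + 1 ≤ m := by
      intro z hz
      rcases Finset.mem_union.1 hz with h | h
      · exact (hΛ z h).2
      · rw [hΛ1, mem_rf1] at h
        exact (hΛ _ h).2
    intro u hu v hv
    rw [mem_rf2] at hv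
    have h1 := hy u hu
    have h2 := hy _ hv
    simp only at h2
    refine nm_ge_of_snd ?_
    rw [Prod.snd_sub, le_abs]
    push_cast
    omega
  have e0 : EQ b Λ (fq m q) = EQ b Λ q := by
    refine EQ_congr fun v hv => ?_
    have h := hΛ v hv
    unfold fq
    rw [if_pos (by omega), if_pos (by omega), if_pos (by omega), if_pos (by omega)]
    simp
  have e1 : EQ b Λ1 (fq m q) = EQ b Λ q := by
    have h1 := EQ_rf1 b Λ (2 * m + 1) (-q)
    rw [EQ_neg] at h1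
    rw [← h1]
    refine EQ_congr fun v hv => ?_
    rw [mem_rf1] at hv
    have h := hΛ _ hv
    simp only at h
    unfold fq
    rw [if_neg (by omega), if_pos (by omega), if_neg (by omega), if_pos (by omega)]
    simp
  have e2 : EQ b (Λ ∪ Λ1) (fq m q) = EQ b Λ q ^ 2 := by
    rw [EQ_union hs1, e0, e1, pow_two]
  have e3 : EQ b ((Λ ∪ Λ1).map (rf2 (2 * m + 1)).toEmbedding) (fq m q) = EQ b Λ q ^ 2 := by
    rw [← e2]
    have h1 := EQ_rf2 b (Λ ∪ Λ1) (2 * m + 1) (-fq m q)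
    rw [EQ_neg] at h1
    rw [← h1]
    refine EQ_congr fun v hv => ?_
    have hy : ∀ z ∈ Λ ∪ Λ1, 1 ≤ z.2 ∧ z.2 + 1 ≤ m := by
      intro z hz
      rcases Finset.mem_union.1 hz with h | h
      · exact (hΛ z h).2
      · rw [hΛ1, mem_rf1] at h
        exact (hΛ _ h).2
    rw [mem_rf2] at hv
    have h := hy _ hv
    simp only at h
    rw [Pi.neg_apply]
    unfold fq
    simp only
    have a1 : ¬ v.2 ≤ (m : ℤ) := by omega
    have a2 : 2 * (m : ℤ) + 1 - v.2 ≤ m := by omega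
    rw [if_neg a1, if_neg a1, if_pos a2, if_pos a2]
    ring
  unfold four
  rw [EQ_union hs2, e2, e3]
  ring

lemma four_in {Λ : Finset (ℤ × ℤ)} (hΛ : InB m Λ) : InT ((m + 1) * 2) (four m Λ) := by
  intro z hz
  push_cast
  unfold four at hz
  rcases Finset.mem_union.1 hz with h | h
  · rcases Finset.mem_union.1 h with h | h
    · have := hΛ z h
      omega
    · rw [mem_rf1] at h
      have := hΛ _ h
      simp only at this
      omega
  · rw [mem_rf2] at h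
    rcases Finset.mem_union.1 h with h | h
    · have := hΛ _ h
      simp only at this
      omega
    · rw [mem_rf1] at h
      have := hΛ _ h
      simp only at this
      omega

/-- **(Q4) the folded block**: any real background, any mass form -/
theorem fold_EQ (hb : 0 < b) (η : H770.Ed ((m + 1) * n) → ℤ) (i j : ℕ) {q : ℤ × ℤ → ℤ}
    (hq : ∀ a c : ℕ, a ≤ m → c ≤ m → cuZ η ((((m + 1) * i + a : ℕ) : ZMod ((m + 1) * n)),
        (((m + 1) * j + c : ℕ) : ZMod ((m + 1) * n))) = q ((a : ℤ), (c : ℤ)))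
    {Λ : Finset (ℤ × ℤ)} (hΛ : InB m Λ)
    {A : Matrix (Tor ((m + 1) * 2)) (Tor ((m + 1) * 2)) ℝ} {μ : ℝ} (hA : MF A μ)
    (F : Tor ((m + 1) * 2) → ℝ) :
    ZM (wTD ((m + 1) * 2) b (foE m η i j)) A F ≤ EQ b Λ q ^ 4 * ZM (wT b ((m + 1) * 2)) A 0 := by
  rw [← EQ_four b hΛ q]
  exact ZM_EQ (by omega) hb (dq_foE η i j hq) (four_in hΛ) hA F

theorem fold_EQn (hb : 0 < b) (η : H770.Ed ((m + 1) * n) → ℤ) (i j : ℕ) {q : ℤ × ℤ → ℤ}
    (hq : ∀ a c : ℕ, a ≤ m → c ≤ m → cuZ η ((((m + 1) * i + a : ℕ) : ZMod ((m + 1) * n)),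
        (((m + 1) * j + c : ℕ) : ZMod ((m + 1) * n))) = q ((a : ℤ), (c : ℤ)))
    {Λ : Finset (ℤ × ℤ)} (hΛ : InB m Λ)
    {A : Matrix (Tor ((m + 1) * 2)) (Tor ((m + 1) * 2)) ℝ} {μ : ℝ} (hA : MF A μ)
    (F : Tor ((m + 1) * 2) → ℝ) :
    Zn (wTD ((m + 1) * 2) b (foE m η i j)) A F ≤ EQ b Λ q ^ 4 * Zn (wT b ((m + 1) * 2)) A 0 := by
  rw [← EQ_four b hΛ q]
  exact Zn_EQ (by omega) hb (dq_foE η i j hq) (four_in hΛ) hA F

/-- the same in the letters of `arm_num` -/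
theorem fold_Z0 (hb : 0 < b) (ht : 0 < t) (η : H770.Ed ((m + 1) * n) → ℤ) (i j : ℕ)
    {q : ℤ × ℤ → ℤ}
    (hq : ∀ a c : ℕ, a ≤ m → c ≤ m → cuZ η ((((m + 1) * i + a : ℕ) : ZMod ((m + 1) * n)),
        (((m + 1) * j + c : ℕ) : ZMod ((m + 1) * n))) = q ((a : ℤ), (c : ℤ)))
    {Λ : Finset (ℤ × ℤ)} (hΛ : InB m Λ) (F : Tor ((m + 1) * 2) → ℝ) :
    ZM (wTD ((m + 1) * 2) b (foE m η i j)) (t • (1 : Matrix _ _ ℝ)) F ≤
      EQ b Λ q ^ 4 * Z0 ((m + 1) * 2) b t :=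
  fold_EQ hb η i j hq hΛ (H963.mf_smul ht) F

/-- the fourth root of the number -/
lemma root_EQ (hb : 0 ≤ b) (Λ : Finset (ℤ × ℤ)) (q : ℤ × ℤ → ℤ) :
    (EQ b Λ q ^ 4) ^ (1 / 4 : ℝ) = EQ b Λ q := by
  rw [← Real.rpow_natCast, ← Real.rpow_mul (EQ_nonneg hb Λ q)]
  norm_num

/-- **one core**: a charge `±1` at the face `z`, no other charge in the box of radius `ρ` -/
theorem fold_core (hb : 0 < b) (ht : 0 < t) (η : H770.Ed ((m + 1) * n) → ℤ) (i j : ℕ)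
    {z : ℤ × ℤ} {ρ : ℕ} (h1 : ρ + 1 ≤ z.1) (h1' : z.1 + ρ + 1 ≤ m) (h2 : ρ + 1 ≤ z.2)
    (h2' : z.2 + ρ + 1 ≤ m)
    (hz : ∀ a c : ℕ, (a : ℤ) = z.1 → (c : ℤ) = z.2 →
      cuZ η ((((m + 1) * i + a : ℕ) : ZMod ((m + 1) * n)),
        (((m + 1) * j + c : ℕ) : ZMod ((m + 1) * n))) = 1 ∨
      cuZ η ((((m + 1) * i + a : ℕ) : ZMod ((m + 1) * n)),
        (((m + 1) * j + c : ℕ) : ZMod ((m + 1) * n))) = -1)
    (hq : ∀ a c : ℕ, |(a : ℤ) - z.1| ≤ ρ → |(c : ℤ) - z.2| ≤ ρ → ((a : ℤ), (c : ℤ)) ≠ z →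
      cuZ η ((((m + 1) * i + a : ℕ) : ZMod ((m + 1) * n)),
        (((m + 1) * j + c : ℕ) : ZMod ((m + 1) * n))) = 0)
    (F : Tor ((m + 1) * 2) → ℝ) :
    ZM (wTD ((m + 1) * 2) b (foE m η i j)) (t • (1 : Matrix _ _ ℝ)) F ≤
      mm b ρ ^ 4 * Z0 ((m + 1) * 2) b t := by
  set q : ℤ × ℤ → ℤ := fun v => cuZ η ((((m + 1) * i + v.1.toNat : ℕ) : ZMod ((m + 1) * n)),
    (((m + 1) * j + v.2.toNat : ℕ) : ZMod ((m + 1) * n))) with hqd
  set Λ := H773.tr (box ρ) z with hΛ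
  have hmem : ∀ v, v ∈ Λ → |v.1 - z.1| ≤ ρ ∧ |v.2 - z.2| ≤ ρ := by
    intro v hv
    rw [hΛ, H773.mem_tr, XY.mem_box] at hv
    simp only [Prod.fst_sub, Prod.snd_sub] at hv
    rw [abs_le, abs_le]
    omega
  have hin : InB m Λ := by
    intro v hv
    have := hmem v hv
    rw [abs_le, abs_le] at this
    omega
  have h := fold_Z0 hb ht η i j (q := q) (fun a c _ _ => by
    simp only [hqd, Int.toNat_natCast]) hin F
  refine h.trans (mul_le_mul_of_nonneg_right ?_ (Z0_pos hb ht).le)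
  refine pow_le_pow_left₀ (EQ_nonneg hb.le _ _) ?_ 4
  refine EQ_one hb.le (Finset.Subset.refl _) ?_ fun v hv hne => ?_
  · exact hz _ _ (by omega) (by omega)
  · have h3 := hin v hv
    have h4 := hmem v hv
    have e1 : (v.1.toNat : ℤ) = v.1 := Int.toNat_of_nonneg (by omega)
    have e2 : (v.2.toNat : ℤ) = v.2 := Int.toNat_of_nonneg (by omega)
    exact hq _ _ (by rw [e1]; exact h4.1) (by rw [e2]; exact h4.2) (by rw [e1, e2]; exact hne)

end fold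

end

end Vale.Agent.P159.H529.Qf
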