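import Vale.Agent.P159.H529.Pr3
import Vale.Agent.P159.H856.Dlc

/-!
P159 (helper529), module PR, part 4: `PrN` at a far pair.
-/

set_option linter.unusedSectionVars false

namespace Vale.Agent.P159.H529.Pr

open Vale.Agent.P159.H770 (Ed wTD)
open Vale.Agent.P159.TM.Spec (V)
open Vale.Agent.P159.H817 (eF sz bD v1 v2 IsPath)
open Vale.Agent.P159.H253.Rec (RecAt ga ua)
open Vale.Agent.P159.H773 (mm)
open Vale.Agent.P159.H883
open Vale.Agent.P159.H856.Dl (Del)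

noncomputable section

/-- **`PrN` at a far pair** -/
theorem prN_far {b α C1 : ℝ} (hb : 0 < b) (hα0 : 0 ≤ α) (hα1 : α ≤ 1) (hC1 : 1 ≤ C1) :
    ∃ C A0 : ℝ, 1 ≤ C ∧ 16 ≤ A0 ∧ ∀ (N : ℕ) [NeZero N] (r R : ℕ) (t Δ : ℝ) (p q : V N),
      RecAt b α C1 R → 32 ≤ R → H817.Far R p q → A0 * R ≤ N → 1 ≤ r → 8 * r ≤ R →
      (∀ (L : ℕ) (η : Ed N → ℤ) (φ : V N → ℝ), IsPath p q (v1 p q) (v2 p q) L η →
        (∀ e, eF η φ e = bD p q e) →
        Del (wTD N b) (t • (1 : Matrix (V N) (V N) ℝ)) t 0 η φ ≤ Δ) →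
      PrN N b t r p q Δ (α * Real.log ((R : ℝ) / r) + C) := by
  obtain ⟨C, A0, hC, hA0, h⟩ := H856.Dl.mm_le_CT hb hα0 hα1 hC1
  refine ⟨C, A0, hC, hA0, ?_⟩
  intro N _ r R t Δ p q hrec hR32 hf hA hr hr8 hΔ
  exact prN_of hΔ fun L η hpath =>
    (h N L r R η p q hrec hR32 hf.1 hf.2 hA hpath hr hr8).2.2.1

end

end Vale.Agent.P159.H529.Pr
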