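import Vale.Agent.P159.H950.E1

/-!
Quadratic forms of half-bond fields in wired regions, monotonicity in the region, reflection
positivity for half-bond fields.
-/

set_option linter.all false
set_option autoImplicit false

open MeasureTheory Filter Topology
open scoped BigOperators

namespace Vale.Agent.P159.H529

open Vale.Agent.P159 Vale.Agent.P159.UJ Vale.Agent.P159.H950

/-- half-bonds -/
abbrev Hb : Type := (ℤ × ℤ) × HT

/-- restriction of a half-bond field to a region -/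
def rs (R : Finset (ℤ × ℤ)) (y : Hb → ℝ) (e : KR R) : ℝ := y ((e.1 : ℤ × ℤ), e.2)

/-- the quadratic form of a half-bond field in the wired region `R` -/
noncomputable def QF (b : ℝ) (R : Finset (ℤ × ℤ)) (y : Hb → ℝ) : ℝ :=
  Qform muInf (fun _ : KR R => b / 2) (chiR R) (rs R y)

/-- its bilinear form -/
noncomputable def QB (b : ℝ) (R : Finset (ℤ × ℤ)) (y z : Hb → ℝ) : ℝ :=
  QQ muInf (fun _ : KR R => b / 2) (chiR R) 0 (rs R y) (rs R z)

/-- ratio of partition functions at the imaginary twist `y` -/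
noncomputable def rF (b : ℝ) (R : Finset (ℤ × ℤ)) (y : Hb → ℝ) : ℝ :=
  rho muInf (fun _ : KR R => b / 2) (chiR R) (rs R y)

/-- squared norm: every half-bond counts `1/2` -/
noncomputable def nH (R : Finset (ℤ × ℤ)) (y : Hb → ℝ) : ℝ := ∑ c ∈ R, ∑ t : HT, y (c, t) ^ 2 / 2

variable {b : ℝ} {R R' : Finset (ℤ × ℤ)} {y z : Hb → ℝ}

theorem QB_self (b : ℝ) (R : Finset (ℤ × ℤ)) (y : Hb → ℝ) : QB b R y y = QF b R y := QQ_zero ..

theorem QB_symm (b : ℝ) (R : Finset (ℤ × ℤ)) (y z : Hb → ℝ) : QB b R y z = QB b R z y :=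
  QQ_symm ..

theorem QB_add (b : ℝ) (R : Finset (ℤ × ℤ)) (y z w : Hb → ℝ) :
    QB b R y (z + w) = QB b R y z + QB b R y w :=
  QQ_add muInf (fun _ : KR R => b / 2) (chiR R) 0 (rs R y) (rs R z) (rs R w)

theorem QB_smul (b : ℝ) (R : Finset (ℤ × ℤ)) (y z : Hb → ℝ) (c : ℝ) :
    QB b R y (c • z) = c * QB b R y z :=
  QQ_smul muInf (fun _ : KR R => b / 2) (chiR R) 0 (rs R y) (rs R z) c

theorem QF_nonneg (hb : 0 ≤ b) (R : Finset (ℤ × ℤ)) (y : Hb → ℝ) : 0 ≤ QF b R y :=
  Qform_nonneg muInf _ _ G_div2 (half_nonneg' hb R) _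

theorem nH_nonneg (R : Finset (ℤ × ℤ)) (y : Hb → ℝ) : 0 ≤ nH R y :=
  Finset.sum_nonneg fun c _ => Finset.sum_nonneg fun t _ => by positivity

theorem sum_KR' (R : Finset (ℤ × ℤ)) (F : ℤ × ℤ → HT → ℝ) :
    ∑ e : KR R, F e.1 e.2 = ∑ c ∈ R, ∑ t : HT, F c t := by
  rw [Fintype.sum_prod_type, ← Finset.sum_coe_sort R]

theorem sum_rs (b : ℝ) (R : Finset (ℤ × ℤ)) (y : Hb → ℝ) :
    ∑ e : KR R, b / 2 * rs R y e ^ 2 = b * nH R y := by
  have := sum_KR' R (fun c t => b / 2 * y (c, t) ^ 2)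
  rw [show (∑ e : KR R, b / 2 * rs R y e ^ 2) =
    ∑ e : KR R, (fun c t => b / 2 * y (c, t) ^ 2 : ℤ × ℤ → HT → ℝ) e.1 e.2 from rfl, this,
    nH, Finset.mul_sum]
  refine Finset.sum_congr rfl fun c _ => ?_
  rw [Finset.mul_sum]
  refine Finset.sum_congr rfl fun t _ => by ring

theorem QF_le (hb : 0 ≤ b) (R : Finset (ℤ × ℤ)) (y : Hb → ℝ) : QF b R y ≤ b * nH R y := by
  rw [← sum_rs]
  exact Qform_le muInf _ _ (half_nonneg' hb R) _

theorem rs_congr (h : ∀ c ∈ R, ∀ t, y (c, t) = z (c, t)) : rs R y = rs R z := by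
  funext e
  exact h e.1 e.1.2 e.2

theorem QF_congr (b : ℝ) (h : ∀ c ∈ R, ∀ t, y (c, t) = z (c, t)) : QF b R y = QF b R z := by
  unfold QF
  rw [rs_congr h]

theorem QF_smul (b : ℝ) (R : Finset (ℤ × ℤ)) (s : ℝ) (y : Hb → ℝ) :
    QF b R (s • y) = s ^ 2 * QF b R y :=
  Qform_smul muInf _ _ s (rs R y)

theorem rF_ge (hb : 0 ≤ b) (R : Finset (ℤ × ℤ)) (y : Hb → ℝ) :
    Real.exp (QF b R y / 2) ≤ rF b R y :=
  rho_ge muInf _ _ G_div2 (half_nonneg' hb R) _

theorem rF_pos (hb : 0 ≤ b) (R : Finset (ℤ × ℤ)) (y : Hb → ℝ) : 0 < rF b R y :=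
  lt_of_lt_of_le (Real.exp_pos _) (rF_ge hb R y)

theorem rF_upper (hb : 0 ≤ b) (R : Finset (ℤ × ℤ)) (y : Hb → ℝ) {δ : ℝ} (hδ0 : 0 ≤ δ)
    (hδ1 : δ ≤ 1) (hδ : 4 * b * R.card * δ ≤ 1) (hy : ∀ c ∈ R, ∀ t, |y (c, t)| ≤ δ) :
    rF b R y ≤ Real.exp (QF b R y / 2 + K5 (2 * b * R.card) * δ ^ 4) := by
  have h := rho_second muInf (fun _ : KR R => b / 2) (chiR R) (half_nonneg' hb R)
    (Vale.Agent.P159.H950.sum_half b R) (rs R y) (Y := δ) hδ1 (by linarith) (fun e => hy e.1 e.1.2 e.2) hδ0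
  refine h.trans ?_
  have h2 := Real.add_one_le_exp (QF b R y / 2 + K5 (2 * b * R.card) * δ ^ 4)
  unfold QF K5 at *
  linarith

theorem rho_fib' (b : ℝ) {ι : Type*} [DecidableEq ι] (R : Finset (ℤ × ℤ)) (τ : ℤ × ℤ → ι) (k : ι)
    (y : Hb → ℝ) :
    rho muInf (fun e : {e : KR R // τ e.1 = k} => b / 2)
      (fun e : {e : KR R // τ e.1 = k} => (chiR R e.1).comp
        (proj (intR (R.filter fun c => τ c = k))) (proj_cont _)) (fun e => rs R y e.1) =
    rF b (R.filter fun c => τ c = k) y := by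
  have h := rho_tr muInf (J := fun e : {e : KR R // τ e.1 = k} => b / 2)
    (χ := fun e : {e : KR R // τ e.1 = k} => (chiR R e.1).comp
        (proj (intR (R.filter fun c => τ c = k))) (proj_cont _))
    (J' := fun _ : KR (R.filter fun c => τ c = k) => b / 2)
    (χ' := chiR (R.filter fun c => τ c = k))
    (fibE R τ k) (fun x => x) (fun F _ => rfl) (fun _ => 1)
    (fun _ => Or.inl rfl) (fun e => rfl) (fun e x => fib_c R τ k e x)
    (fun e x => by rw [one_mul]; exact fib_s R τ k e x)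
    (y := fun e => rs R y e.1) (y' := rs (R.filter fun c => τ c = k) y)
    (fun e => by rw [one_mul]; rfl)
  exact h

theorem rF_tile (hb : 0 ≤ b) {ι : Type*} [DecidableEq ι] (R : Finset (ℤ × ℤ))
    (S : Finset ι) (τ : ℤ × ℤ → ι) (hτ : ∀ c ∈ R, τ c ∈ S) (y : Hb → ℝ) :
    rF b R y ≤ ∏ k ∈ S, rF b (R.filter fun c => τ c = k) y := by
  have h := tile_bound muInf (fun _ : KR R => b / 2) (chiR R) G_div2 (half_nonneg' hb R) S
    (fun e : KR R => τ e.1) (fun e => hτ e.1 e.1.2)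
    (fun k => proj (intR (R.filter fun c => τ c = k))) (fun k => proj_cont _)
    (fun k e he x => tile_indep R τ k e he x) (rs R y)
  have h2 : ∀ k ∈ S, rho muInf (fun e : {e : KR R // τ e.1 = k} => b / 2)
      (fun e : {e : KR R // τ e.1 = k} => (chiR R e.1).comp
        (proj (intR (R.filter fun c => τ c = k))) (proj_cont _)) (fun e => rs R y e.1) =
      rF b (R.filter fun c => τ c = k) y := fun k _ => rho_fib' b R τ k y
  rw [← Finset.prod_congr rfl h2]
  exact h

/-- subadditivity of the quadratic form -/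
theorem QF_tile (hb : 0 ≤ b) {ι : Type*} [DecidableEq ι] (R : Finset (ℤ × ℤ))
    (S : Finset ι) (τ : ℤ × ℤ → ι) (hτ : ∀ c ∈ R, τ c ∈ S) (y : Hb → ℝ) :
    QF b R y ≤ ∑ k ∈ S, QF b (R.filter fun c => τ c = k) y := by
  obtain ⟨M, hM1, hM⟩ : ∃ M : ℝ, 1 ≤ M ∧ ∀ c ∈ R, ∀ t : HT, |y (c, t)| ≤ M := by
    refine ⟨1 + ∑ c ∈ R, ∑ t : HT, |y (c, t)|, ?_, fun c hc t => ?_⟩
    · have : 0 ≤ ∑ c ∈ R, ∑ t : HT, |y (c, t)| :=
        Finset.sum_nonneg fun c _ => Finset.sum_nonneg fun t _ => abs_nonneg _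
      linarith
    · have h1 : |y (c, t)| ≤ ∑ t : HT, |y (c, t)| :=
        Finset.single_le_sum (f := fun t : HT => |y (c, t)|) (fun t _ => abs_nonneg _)
          (Finset.mem_univ t)
      have h2 : ∑ t : HT, |y (c, t)| ≤ ∑ c ∈ R, ∑ t : HT, |y (c, t)| :=
        Finset.single_le_sum (f := fun c => ∑ t : HT, |y (c, t)|)
          (fun c _ => Finset.sum_nonneg fun t _ => abs_nonneg _) hc
      linarith
  set k0 : ℝ := ∑ k ∈ S, K5 (2 * b * (R.filter fun c => τ c = k).card) with hk0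
  have hk00 : 0 ≤ k0 := Finset.sum_nonneg fun k _ => K5_nonneg (by positivity)
  have key : ∀ u : ℝ, 0 < u → u * M ≤ 1 → 4 * b * R.card * (u * M) ≤ 1 →
      QF b R y ≤ (∑ k ∈ S, QF b (R.filter fun c => τ c = k) y) + 2 * k0 * M ^ 4 * u ^ 2 := by
    intro u hu h1 h2
    have h3 := (rF_ge hb R (u • y)).trans (rF_tile hb R S τ hτ (u • y))
    have h4 : ∏ k ∈ S, rF b (R.filter fun c => τ c = k) (u • y) ≤
        ∏ k ∈ S, Real.exp (QF b (R.filter fun c => τ c = k) (u • y) / 2 +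
          K5 (2 * b * (R.filter fun c => τ c = k).card) * (u * M) ^ 4) := by
      refine Finset.prod_le_prod (fun k _ => (rF_pos hb _ _).le) fun k _ => ?_
      refine rF_upper hb _ _ (by positivity) h1 ?_ fun c hc d => ?_
      · refine le_trans ?_ h2
        have : ((R.filter fun c => τ c = k).card : ℝ) ≤ R.card := by
          exact_mod_cast Finset.card_le_card (Finset.filter_subset _ _)
        have hM0 : 0 ≤ u * M := by positivity
        gcongr
      · rw [Pi.smul_apply, smul_eq_mul, abs_mul, abs_of_pos hu]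
        exact mul_le_mul_of_nonneg_left (hM c (Finset.mem_filter.1 hc).1 d) hu.le
    have h5 := h3.trans h4
    rw [← Real.exp_sum, Real.exp_le_exp] at h5
    simp only [QF_smul] at h5
    rw [Finset.sum_add_distrib, ← Finset.sum_mul, ← hk0, ← Finset.sum_div, ← Finset.mul_sum] at h5
    have hu2 : 0 < u ^ 2 := by positivity
    have h6 : u ^ 2 * QF b R y ≤ u ^ 2 * ((∑ k ∈ S, QF b (R.filter fun c => τ c = k) y) +
        2 * k0 * M ^ 4 * u ^ 2) := by
      nlinarith only [h5]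
    exact le_of_mul_le_mul_left h6 hu2
  have htend : Tendsto (fun n : ℕ => (2 : ℝ)⁻¹ ^ n) atTop (𝓝 0) :=
    tendsto_pow_atTop_nhds_zero_of_lt_one (by norm_num) (by norm_num)
  have hlim : Tendsto (fun n : ℕ => (∑ k ∈ S, QF b (R.filter fun c => τ c = k) y) +
      2 * k0 * M ^ 4 * ((2 : ℝ)⁻¹ ^ n) ^ 2) atTop
      (𝓝 ((∑ k ∈ S, QF b (R.filter fun c => τ c = k) y) + 2 * k0 * M ^ 4 * 0 ^ 2)) :=
    tendsto_const_nhds.add (tendsto_const_nhds.mul (htend.pow 2))
  have c1 := (htend.mul_const M).eventually (ge_mem_nhds (by norm_num : (0:ℝ) * M < 1))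
  have c2 := ((htend.mul_const M).const_mul (4 * b * R.card)).eventually
    (ge_mem_nhds (by norm_num : 4 * b * R.card * ((0:ℝ) * M) < 1))
  have := ge_of_tendsto hlim (by
    filter_upwards [c1, c2] with n h1 h2
    exact key _ (by positivity) h1 h2)
  simpa using this

/-- monotonicity in the region -/
theorem QF_mono (hb : 0 ≤ b) (h : R ⊆ R') (hy : ∀ c ∉ R, ∀ t, y (c, t) = 0) :
    QF b R' y ≤ QF b R y := by
  classical
  have h1 := QF_tile hb R' (Finset.univ : Finset Bool) (fun c => decide (c ∈ R))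
    (fun c _ => Finset.mem_univ _) y
  have h2 : (R'.filter fun c => decide (c ∈ R) = true) = R := by
    ext c
    rw [Finset.mem_filter, decide_eq_true_iff]
    exact ⟨fun hc => hc.2, fun hc => ⟨h hc, hc⟩⟩
  have h3 : QF b (R'.filter fun c => decide (c ∈ R) = false) y ≤ 0 := by
    refine (QF_le hb _ _).trans (le_of_eq ?_)
    have : nH (R'.filter fun c => decide (c ∈ R) = false) y = 0 := by
      refine Finset.sum_eq_zero fun c hc => Finset.sum_eq_zero fun t _ => ?_
      rw [Finset.mem_filter, decide_eq_false_iff_not] at hc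
      rw [hy c hc.2]
      norm_num
    rw [this, mul_zero]
  rw [Fintype.sum_bool, h2] at h1
  linarith

/-! ### Reflection positivity -/

/-- reflected half-bond field -/
noncomputable def ac (r : Refl) (y : Hb → ℝ) : Hb → ℝ := fun p =>
  r.sg p.2.1 * y (r.cm p.1, r.tm p.2)

theorem ac_ac (r : Refl) (y : Hb → ℝ) : ac r (ac r y) = y := by
  funext p
  obtain ⟨c, t⟩ := p
  unfold ac
  simp only
  rw [r.cm_cm, r.tm_tm, r.tm_dm, r.sg_dm, ← mul_assoc]
  rcases r.sg_or t.1 with h | h <;> rw [h] <;> ring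

/-- the equivalence of half-bonds given by a symmetric region -/
def sgE (r : Refl) (h : r.Sym R) : KR R ≃ KR R where
  toFun := fun e => (⟨r.cm e.1, (h.1 _).2 e.1.2⟩, r.tm e.2)
  invFun := fun e => (⟨r.cm e.1, (h.1 _).2 e.1.2⟩, r.tm e.2)
  left_inv := fun e => by
    ext
    · simp only [r.cm_cm]
    · simp only [r.cm_cm]
    · simp only [r.tm_tm]
    · simp only [r.tm_tm]
  right_inv := fun e => by
    ext
    · simp only [r.cm_cm]
    · simp only [r.cm_cm]
    · simp only [r.tm_tm]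
    · simp only [r.tm_tm]

theorem relab_proj (r : Refl) (h : r.Sym R) (x : Ginf) (v : ℤ × ℤ) :
    proj (intR R) (relabel r.s x) v = proj (intR R) x (r.s v) := by
  rw [relabel_proj (intR R) r.s h.2]
  rfl

theorem sg_c (r : Refl) (h : r.Sym R) (e : KR R) (x : Ginf) :
    (chiR R e).c (relabel r.s x) = (chiR R (sgE r h e)).c x := by
  show cosT (proj (intR R) (relabel r.s x) (hu e.1 e.2) -
      proj (intR R) (relabel r.s x) (hv e.1 e.2)) =
    cosT (proj (intR R) x (hu (r.cm e.1) (r.tm e.2)) -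
      proj (intR R) x (hv (r.cm e.1) (r.tm e.2)))
  rw [relab_proj r h, relab_proj r h]
  rcases r.ends e.1 e.2 with ⟨_, h1, h2⟩ | ⟨_, h1, h2⟩
  · rw [h1, h2]
  · rw [h1, h2, ← cosT_neg]
    congr 1
    abel

theorem sg_s (r : Refl) (h : r.Sym R) (e : KR R) (x : Ginf) :
    (chiR R e).s (relabel r.s x) = r.sg e.2.1 * (chiR R (sgE r h e)).s x := by
  show sinT (proj (intR R) (relabel r.s x) (hu e.1 e.2) -
      proj (intR R) (relabel r.s x) (hv e.1 e.2)) =
    r.sg e.2.1 * sinT (proj (intR R) x (hu (r.cm e.1) (r.tm e.2)) -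
      proj (intR R) x (hv (r.cm e.1) (r.tm e.2)))
  rw [relab_proj r h, relab_proj r h]
  rcases r.ends e.1 e.2 with ⟨h0, h1, h2⟩ | ⟨h0, h1, h2⟩
  · rw [h0, h1, h2, one_mul]
  · rw [h0, h1, h2, neg_one_mul, ← sinT_neg]
    congr 1
    abel

theorem s_inj (r : Refl) : Function.Injective r.s := by
  intro u v huv
  rw [← r.s_s u, huv, r.s_s]

/-- reflection invariance in a symmetric region -/
theorem QF_ac (r : Refl) (h : r.Sym R) (b : ℝ) (y : Hb → ℝ) : QF b R (ac r y) = QF b R y := by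
  refine (Qform_tr muInf (J := fun _ : KR R => b / 2) (χ := chiR R)
    (J' := fun _ : KR R => b / 2) (χ' := chiR R) (sgE r h) (fun x => relabel r.s x)
    (fun F hF => integral_relabel r.s (s_inj r) muInf muInf hF) (fun e => r.sg e.2.1)
    (fun e => r.sg_or _) (fun e => rfl) (fun e x => ?_) (fun e x => ?_)
    (y := rs R (ac r y)) (y' := rs R y) (fun e => rfl))
  · have := sg_c r h (sgE r h e) x
    rw [show sgE r h (sgE r h e) = e from (sgE r h).left_inv e] at this
    exact this.symm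
  · have := sg_s r h (sgE r h e) x
    rw [show sgE r h (sgE r h e) = e from (sgE r h).left_inv e] at this
    rw [this]
    show (chiR R e).s x = r.sg e.2.1 * (r.sg (r.tm e.2).1 * (chiR R e).s x)
    rw [r.tm_dm, r.sg_dm, ← mul_assoc]
    rcases r.sg_or e.2.1 with h | h <;> rw [h] <;> ring

theorem QF_add (b : ℝ) (R : Finset (ℤ × ℤ)) (y z : Hb → ℝ) :
    QF b R (y + z) = QF b R y + QF b R z + 2 * QB b R y z :=
  Qform_add muInf (fun _ : KR R => b / 2) (chiR R) (rs R y) (rs R z)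

/-- reflection positivity -/
theorem QB_rp {r : Refl} (h : r.Sym R) (b : ℝ) (y : Hb → ℝ)
    (hy : ∀ c ∈ R, ∀ t, ¬ r.left c t → y (c, t) = 0) : QB b R y (ac r y) ≤ 0 := by
  classical
  have hinj := s_inj r
  set P : Ginf →+ Ginf := proj {v | r.lam v < 0} with hP
  have hPz : ∀ (z : Ginf) (v : ℤ × ℤ), 0 ≤ r.lam v → P z v = 0 := by
    intro z v hv'
    exact proj_of_notMem (by simp only [Set.mem_setOf_eq, not_lt]; exact hv') z
  have hval : ∀ (x z : Ginf) (v : ℤ × ℤ), x v = z v →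
      proj (intR R) x v = proj (intR R) z v := by
    intro x z v hxz
    by_cases h1 : v ∈ intR R
    · rw [proj_of_mem h1, proj_of_mem h1, hxz]
    · rw [proj_of_notMem h1, proj_of_notMem h1]
  have hchi : ∀ (x z : Ginf) (e : KR R), x (hu e.1 e.2) = z (hu e.1 e.2) →
      x (hv e.1 e.2) = z (hv e.1 e.2) →
      (chiR R e).c x = (chiR R e).c z ∧ (chiR R e).s x = (chiR R e).s z := by
    intro x z e h1 h2
    constructor
    · show cosT (proj (intR R) x (hu e.1 e.2) - proj (intR R) x (hv e.1 e.2)) =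
        cosT (proj (intR R) z (hu e.1 e.2) - proj (intR R) z (hv e.1 e.2))
      rw [hval x z _ h1, hval x z _ h2]
    · show sinT (proj (intR R) x (hu e.1 e.2) - proj (intR R) x (hv e.1 e.2)) =
        sinT (proj (intR R) z (hu e.1 e.2) - proj (intR R) z (hv e.1 e.2))
      rw [hval x z _ h1, hval x z _ h2]
  have key := rp_form muInf (fun _ : KR R => b / 2) (chiR R) (fun z => P z) (proj_cont _)
    (fun x => relabel r.s x) (relabel_cont _)
    (fun F hF => integral_relabel r.s hinj muInf muInf hF)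
    (fun x => by funext v; show x (r.s (r.s v)) = x v; rw [r.s_s])
    (fun e => r.left e.1 e.2) (sgE r h) (fun e => r.left3 e.1 e.2)
    (fun e => (sgE r h).left_inv e) (fun e => r.sg e.2.1) (fun e => r.sg_or _)
    (fun e => by
      show r.sg (r.tm e.2).1 = r.sg e.2.1
      rw [r.tm_dm, r.sg_dm])
    (fun e => rfl) (sg_c r h) (sg_s r h)
    (fun e he x z => by
      have h1 := r.left2 e.1 e.2 he
      exact hchi _ _ e (by rw [Pi.add_apply, hPz z _ h1.1, add_zero])
        (by rw [Pi.add_apply, hPz z _ h1.2, add_zero]))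
    (fun x => by
      refine ⟨relabel r.s x - x, fun e he z => ?_⟩
      have h1 := r.left1 e.1 e.2 he
      have h2 : ∀ v, r.lam v ≤ 0 → (relabel r.s x + P z) v =
          (x + P (relabel r.s x - x + z)) v := by
        intro v hv'
        rcases hv'.lt_or_eq with h3 | h3
        · have h4 : ∀ w : Ginf, P w v = w v := fun w => proj_of_mem (by exact h3) w
          rw [Pi.add_apply, Pi.add_apply, h4, h4, Pi.add_apply, Pi.sub_apply]
          abel
        · rw [Pi.add_apply, Pi.add_apply, hPz _ _ h3.ge, hPz _ _ h3.ge]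
          show x (r.s v) + 0 = x v + 0
          rw [r.lam_s v h3]
      exact hchi _ _ e (h2 _ h1.1) (h2 _ h1.2))
    (fun y z => (map_add P y z).symm)
    (rs R y) (fun e he => hy e.1 e.1.2 e.2 he)
  have e1 : (fun e : KR R => rs R y e + r.sg e.2.1 * rs R y (sgE r h e)) =
      rs R (y + ac r y) := rfl
  rw [e1] at key
  have h2 := QF_add b R y (ac r y)
  rw [QF_ac r h] at h2
  unfold QF at h2
  linarith

end Vale.Agent.P159.H529
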