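import Vale.Agent.P159.H529.Vinf

/-!
The array of pyramids and its reflections.
-/

set_option linter.all false
set_option autoImplicit false

open MeasureTheory Filter Topology
open scoped BigOperators

namespace Vale.Agent.P159.H529

open Vale.Agent.P159 Vale.Agent.P159.UJ Vale.Agent.P159.H950

/-! ### Functionals of half-bonds -/

/-- twice the value of `x + y` at the centre of the bond -/
def sA (p : Hb) : ℤ := (hu p.1 p.2).1 + (hu p.1 p.2).2 + ((hv p.1 p.2).1 + (hv p.1 p.2).2)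

/-- twice the value of `x - y` at the centre of the bond -/
def sD (p : Hb) : ℤ := (hu p.1 p.2).1 - (hu p.1 p.2).2 + ((hv p.1 p.2).1 - (hv p.1 p.2).2)

/-- mirror image of a half-bond -/
def im (σ : Dir) (a : ℤ) (p : Hb) : Hb := ((σ.refl a).cm p.1, (σ.refl a).tm p.2)

theorem im_im (σ : Dir) (a : ℤ) (p : Hb) : im σ a (im σ a p) = p := by
  unfold im
  rw [(σ.refl a).cm_cm, (σ.refl a).tm_tm]

theorem im_V (a : ℤ) (p : Hb) : im Dir.V a p =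
    ((2 * a - 1 - p.1.1, p.1.2), (p.2.1, if p.2.1 then !p.2.2 else p.2.2)) := rfl

theorem im_H (a : ℤ) (p : Hb) : im Dir.H a p =
    ((p.1.1, 2 * a - 1 - p.1.2), (p.2.1, if p.2.1 then p.2.2 else !p.2.2)) := rfl

theorem im_D (a : ℤ) (p : Hb) : im Dir.D a p =
    ((p.1.2 + a, p.1.1 - a), (!p.2.1, p.2.2)) := rfl

theorem im_A (a : ℤ) (p : Hb) : im Dir.A a p =
    ((a - 1 - p.1.2, a - 1 - p.1.1), (!p.2.1, !p.2.2)) := rfl

/-- explicit values -/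
theorem s_vals (c : ℤ × ℤ) :
    (sA (c, (false, false)) = 2 * (c.1 + c.2) + 1 ∧ sD (c, (false, false)) = 2 * (c.1 - c.2) + 1) ∧
    (sA (c, (false, true)) = 2 * (c.1 + c.2) + 3 ∧ sD (c, (false, true)) = 2 * (c.1 - c.2) - 1) ∧
    (sA (c, (true, false)) = 2 * (c.1 + c.2) + 1 ∧ sD (c, (true, false)) = 2 * (c.1 - c.2) - 1) ∧
    (sA (c, (true, true)) = 2 * (c.1 + c.2) + 3 ∧ sD (c, (true, true)) = 2 * (c.1 - c.2) + 1) := by
  simp only [sA, sD, hu, hv, Prod.fst_add, Prod.snd_add]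
  refine ⟨⟨?_, ?_⟩, ⟨?_, ?_⟩, ⟨?_, ?_⟩, ?_, ?_⟩ <;> simp <;> ring

theorem sA_V (a : ℤ) (p : Hb) : sA (im Dir.V a p) = 4 * a - sD p := by
  obtain ⟨c, t⟩ := p
  rcases t with ⟨_ | _, _ | _⟩ <;>
  · simp only [im_V, Bool.not_false, Bool.not_true, if_true, if_false, Bool.false_eq_true,
      (s_vals _).1.1, (s_vals _).1.2, (s_vals _).2.1.1, (s_vals _).2.1.2, (s_vals _).2.2.1.1,
      (s_vals _).2.2.1.2, (s_vals _).2.2.2.1, (s_vals _).2.2.2.2]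
    ring

theorem sD_V (a : ℤ) (p : Hb) : sD (im Dir.V a p) = 4 * a - sA p := by
  obtain ⟨c, t⟩ := p
  rcases t with ⟨_ | _, _ | _⟩ <;>
  · simp only [im_V, Bool.not_false, Bool.not_true, if_true, if_false, Bool.false_eq_true,
      (s_vals _).1.1, (s_vals _).1.2, (s_vals _).2.1.1, (s_vals _).2.1.2, (s_vals _).2.2.1.1,
      (s_vals _).2.2.1.2, (s_vals _).2.2.2.1, (s_vals _).2.2.2.2]
    ring

theorem sA_H (a : ℤ) (p : Hb) : sA (im Dir.H a p) = sD p + 4 * a := by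
  obtain ⟨c, t⟩ := p
  rcases t with ⟨_ | _, _ | _⟩ <;>
  · simp only [im_H, Bool.not_false, Bool.not_true, if_true, if_false, Bool.false_eq_true,
      (s_vals _).1.1, (s_vals _).1.2, (s_vals _).2.1.1, (s_vals _).2.1.2, (s_vals _).2.2.1.1,
      (s_vals _).2.2.1.2, (s_vals _).2.2.2.1, (s_vals _).2.2.2.2]
    ring

theorem sD_H (a : ℤ) (p : Hb) : sD (im Dir.H a p) = sA p - 4 * a := by
  obtain ⟨c, t⟩ := p
  rcases t with ⟨_ | _, _ | _⟩ <;>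
  · simp only [im_H, Bool.not_false, Bool.not_true, if_true, if_false, Bool.false_eq_true,
      (s_vals _).1.1, (s_vals _).1.2, (s_vals _).2.1.1, (s_vals _).2.1.2, (s_vals _).2.2.1.1,
      (s_vals _).2.2.1.2, (s_vals _).2.2.2.1, (s_vals _).2.2.2.2]
    ring

theorem sA_D (a : ℤ) (p : Hb) : sA (im Dir.D a p) = sA p := by
  obtain ⟨c, t⟩ := p
  rcases t with ⟨_ | _, _ | _⟩ <;>
  · simp only [im_D, Bool.not_false, Bool.not_true, if_true, if_false, Bool.false_eq_true,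
      (s_vals _).1.1, (s_vals _).1.2, (s_vals _).2.1.1, (s_vals _).2.1.2, (s_vals _).2.2.1.1,
      (s_vals _).2.2.1.2, (s_vals _).2.2.2.1, (s_vals _).2.2.2.2]
    ring

theorem sD_D (a : ℤ) (p : Hb) : sD (im Dir.D a p) = 4 * a - sD p := by
  obtain ⟨c, t⟩ := p
  rcases t with ⟨_ | _, _ | _⟩ <;>
  · simp only [im_D, Bool.not_false, Bool.not_true, if_true, if_false, Bool.false_eq_true,
      (s_vals _).1.1, (s_vals _).1.2, (s_vals _).2.1.1, (s_vals _).2.1.2, (s_vals _).2.2.1.1,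
      (s_vals _).2.2.1.2, (s_vals _).2.2.2.1, (s_vals _).2.2.2.2]
    ring

theorem sA_A (a : ℤ) (p : Hb) : sA (im Dir.A a p) = 4 * a - sA p := by
  obtain ⟨c, t⟩ := p
  rcases t with ⟨_ | _, _ | _⟩ <;>
  · simp only [im_A, Bool.not_false, Bool.not_true, if_true, if_false, Bool.false_eq_true,
      (s_vals _).1.1, (s_vals _).1.2, (s_vals _).2.1.1, (s_vals _).2.1.2, (s_vals _).2.2.1.1,
      (s_vals _).2.2.1.2, (s_vals _).2.2.2.1, (s_vals _).2.2.2.2]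
    ring

theorem sD_A (a : ℤ) (p : Hb) : sD (im Dir.A a p) = sD p := by
  obtain ⟨c, t⟩ := p
  rcases t with ⟨_ | _, _ | _⟩ <;>
  · simp only [im_A, Bool.not_false, Bool.not_true, if_true, if_false, Bool.false_eq_true,
      (s_vals _).1.1, (s_vals _).1.2, (s_vals _).2.1.1, (s_vals _).2.1.2, (s_vals _).2.2.1.1,
      (s_vals _).2.2.1.2, (s_vals _).2.2.2.1, (s_vals _).2.2.2.2]
    ring

theorem sA_odd (p : Hb) : ∃ k : ℤ, sA p = 2 * k + 1 := by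
  obtain ⟨c, t⟩ := p
  have h := s_vals c
  rcases t with ⟨_ | _, _ | _⟩
  · exact ⟨c.1 + c.2, h.1.1⟩
  · exact ⟨c.1 + c.2 + 1, by rw [h.2.1.1]; ring⟩
  · exact ⟨c.1 + c.2, h.2.2.1.1⟩
  · exact ⟨c.1 + c.2 + 1, by rw [h.2.2.2.1]; ring⟩

theorem sD_odd (p : Hb) : ∃ k : ℤ, sD p = 2 * k + 1 := by
  obtain ⟨c, t⟩ := p
  have h := s_vals c
  rcases t with ⟨_ | _, _ | _⟩
  · exact ⟨c.1 - c.2, h.1.2⟩
  · exact ⟨c.1 - c.2 - 1, by rw [h.2.1.2]; ring⟩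
  · exact ⟨c.1 - c.2 - 1, by rw [h.2.2.1.2]; ring⟩
  · exact ⟨c.1 - c.2, h.2.2.2.2⟩

/-- the cell against the functionals -/
theorem s_cell (p : Hb) : 2 * (p.1.1 + p.1.2) + 1 ≤ sA p ∧ sA p ≤ 2 * (p.1.1 + p.1.2) + 3 ∧
    2 * (p.1.1 - p.1.2) - 1 ≤ sD p ∧ sD p ≤ 2 * (p.1.1 - p.1.2) + 1 := by
  obtain ⟨c, t⟩ := p
  have h := s_vals c
  rcases t with ⟨_ | _, _ | _⟩
  · obtain ⟨⟨h1, h2⟩, _⟩ := h; rw [h1, h2]; simp only; omega
  · obtain ⟨_, ⟨h1, h2⟩, _⟩ := h; rw [h1, h2]; simp only; omega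
  · obtain ⟨_, _, ⟨h1, h2⟩, _⟩ := h; rw [h1, h2]; simp only; omega
  · obtain ⟨_, _, _, h1, h2⟩ := h; rw [h1, h2]; simp only; omega

/-- in the quadrant -/
theorem s_quad (p : Hb) (h1 : 0 ≤ p.1.1) (h2 : 0 ≤ p.1.2) : -sA p ≤ sD p ∧ sD p ≤ sA p ∧
    1 ≤ sA p := by
  obtain ⟨c, t⟩ := p
  have h := s_vals c
  simp only at h1 h2
  rcases t with ⟨_ | _, _ | _⟩
  · obtain ⟨⟨h3, h4⟩, _⟩ := h; rw [h3, h4]; omega
  · obtain ⟨_, ⟨h3, h4⟩, _⟩ := h; rw [h3, h4]; omega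
  · obtain ⟨_, _, ⟨h3, h4⟩, _⟩ := h; rw [h3, h4]; omega
  · obtain ⟨_, _, _, h3, h4⟩ := h; rw [h3, h4]; omega

theorem left_V (a : ℤ) (c : ℤ × ℤ) (t : HT) : (Dir.V.refl a).left c t ↔ c.1 < a := Iff.rfl
theorem left_H (a : ℤ) (c : ℤ × ℤ) (t : HT) : (Dir.H.refl a).left c t ↔ c.2 < a := Iff.rfl
theorem left_D (a : ℤ) (c : ℤ × ℤ) (t : HT) : (Dir.D.refl a).left c t ↔ sD (c, t) < 2 * a :=
  Iff.rfl
theorem left_A (a : ℤ) (c : ℤ × ℤ) (t : HT) : (Dir.A.refl a).left c t ↔ sA (c, t) < 2 * a :=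
  Iff.rfl

/-! ### Cut fields and mirrors -/

theorem ct_ac {σ : Dir} {a : ℤ} {S S' : Finset Hb} {g g' : Hb → ℝ}
    (h1 : ∀ p, p ∈ S' ↔ im σ a p ∈ S) (h2 : ∀ p ∈ S', g' p = ac (σ.refl a) g p) :
    (ct S' g' : Hb → ℝ) = ac (σ.refl a) (ct S g) := by
  funext p
  rw [ct_apply]
  show _ = (σ.refl a).sg p.2.1 * ct S g (im σ a p)
  rw [ct_apply]
  by_cases hp : p ∈ S'
  · rw [if_pos hp, if_pos ((h1 p).1 hp), h2 p hp]
    rfl
  · rw [if_neg hp, if_neg (fun h => hp ((h1 p).2 h)), mul_zero]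

theorem ct_neg (S : Finset Hb) (g : Hb → ℝ) : ct S (fun p => -g p) = -ct S g := by
  ext p
  rw [Finsupp.neg_apply, ct_apply, ct_apply]
  split_ifs <;> simp

theorem ct_congr {S : Finset Hb} {g g' : Hb → ℝ} (h : ∀ p ∈ S, g p = g' p) : ct S g = ct S g' := by
  ext p
  rw [ct_apply, ct_apply]
  split_ifs with hp
  · exact h p hp
  · rfl

/-! ### The square wave -/

/-- square wave of period `2 ρ` -/
noncomputable def sw (ρ x : ℤ) : ℝ := if (x / ρ) % 2 = 0 then 1 else -1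

theorem sw_or (ρ x : ℤ) : sw ρ x = 1 ∨ sw ρ x = -1 := by unfold sw; split_ifs <;> simp

theorem sw_sq (ρ x : ℤ) : sw ρ x ^ 2 = 1 := by
  rcases sw_or ρ x with h | h <;> rw [h] <;> norm_num

theorem div_refl {ρ : ℤ} (hρ : 0 < ρ) (k x : ℤ) : (k * ρ - 1 - x) / ρ = k - 1 - x / ρ := by
  have h1 := Int.emod_add_mul_ediv x ρ
  have h2 := Int.emod_nonneg x hρ.ne'
  have h3 := Int.emod_lt_of_pos x hρ
  have h4 : k * ρ - 1 - x = (ρ - 1 - x % ρ) + (k - 1 - x / ρ) * ρ := by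
    have : x = x % ρ + ρ * (x / ρ) := h1.symm
    calc k * ρ - 1 - x = k * ρ - 1 - (x % ρ + ρ * (x / ρ)) := by rw [← this]
      _ = _ := by ring
  rw [h4, Int.add_mul_ediv_right _ _ hρ.ne', Int.ediv_eq_zero_of_lt (by omega) (by omega), zero_add]

theorem sw_refl_odd {ρ : ℤ} (hρ : 0 < ρ) (k x : ℤ) : sw ρ ((2 * k + 1) * ρ - 1 - x) = sw ρ x := by
  unfold sw
  rw [div_refl hρ]
  by_cases h : x / ρ % 2 = 0
  · rw [if_pos h, if_pos (by omega)]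
  · rw [if_neg h, if_neg (by omega)]

theorem sw_refl_even {ρ : ℤ} (hρ : 0 < ρ) (k x : ℤ) : sw ρ (2 * k * ρ - 1 - x) = -sw ρ x := by
  unfold sw
  rw [div_refl hρ]
  by_cases h : x / ρ % 2 = 0
  · rw [if_pos h, if_neg (by omega)]
  · rw [if_neg h, if_pos (by omega), neg_neg]

theorem sw_add_odd {ρ : ℤ} (hρ : 0 < ρ) (k x : ℤ) : sw ρ (x + (2 * k + 1) * ρ) = -sw ρ x := by
  unfold sw
  rw [Int.add_mul_ediv_right _ _ hρ.ne']
  by_cases h : x / ρ % 2 = 0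
  · rw [if_pos h, if_neg (by omega)]
  · rw [if_neg h, if_pos (by omega), neg_neg]

/-- the vertical square wave field -/
noncomputable def al (ρ : ℤ) (p : Hb) : ℝ := if p.2.1 then sw ρ p.1.1 else 0

/-- the horizontal square wave field -/
noncomputable def be (ρ : ℤ) (p : Hb) : ℝ := if p.2.1 then 0 else sw ρ p.1.2

/-- the array field -/
noncomputable def ga (ρ : ℤ) (p : Hb) : ℝ := if p.2.1 then -sw ρ p.1.1 else sw ρ p.1.2

/-- the vertical unit field -/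
noncomputable def e2 (p : Hb) : ℝ := if p.2.1 then 1 else 0

theorem ga_sq (ρ : ℤ) (p : Hb) : ga ρ p ^ 2 = 1 := by
  unfold ga
  split_ifs
  · rw [neg_sq, sw_sq]
  · exact sw_sq _ _

theorem ga_V {ρ : ℤ} (hρ : 0 < ρ) (k : ℤ) (p : Hb) :
    ac (Dir.V.refl (k * ρ)) (ga ρ) p = -ga ρ p := by
  obtain ⟨c, ⟨d, s⟩⟩ := p
  show (if d then (1 : ℝ) else -1) * (if d then -sw ρ (2 * (k * ρ) - 1 - c.1) else sw ρ c.2) =
    -(if d then -sw ρ c.1 else sw ρ c.2)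
  cases d
  · simp
  · simp only [if_true]
    rw [show 2 * (k * ρ) - 1 - c.1 = 2 * k * ρ - 1 - c.1 by ring, sw_refl_even hρ]
    ring

theorem ga_H {ρ : ℤ} (hρ : 0 < ρ) (k : ℤ) (p : Hb) :
    ac (Dir.H.refl (k * ρ)) (ga ρ) p = -ga ρ p := by
  obtain ⟨c, ⟨d, s⟩⟩ := p
  show (if d then (-1 : ℝ) else 1) * (if d then -sw ρ c.1 else sw ρ (2 * (k * ρ) - 1 - c.2)) =
    -(if d then -sw ρ c.1 else sw ρ c.2)
  cases d
  · simp only [Bool.false_eq_true, if_false]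
    rw [show 2 * (k * ρ) - 1 - c.2 = 2 * k * ρ - 1 - c.2 by ring, sw_refl_even hρ]
    ring
  · simp

theorem ga_D {ρ : ℤ} (hρ : 0 < ρ) (k : ℤ) (p : Hb) :
    ac (Dir.D.refl ((2 * k + 1) * ρ)) (ga ρ) p = ga ρ p := by
  obtain ⟨c, ⟨d, s⟩⟩ := p
  show (1 : ℝ) * (if !d then -sw ρ (c.2 + (2 * k + 1) * ρ) else sw ρ (c.1 - (2 * k + 1) * ρ)) =
    (if d then -sw ρ c.1 else sw ρ c.2)
  cases d
  · simp only [Bool.not_false, if_true, Bool.false_eq_true, if_false]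
    rw [sw_add_odd hρ]
    ring
  · simp only [Bool.not_true, Bool.false_eq_true, if_false, if_true]
    rw [show c.1 - (2 * k + 1) * ρ = c.1 + (2 * (-k - 1) + 1) * ρ by ring, sw_add_odd hρ]
    ring

theorem ga_A {ρ : ℤ} (hρ : 0 < ρ) (k : ℤ) (p : Hb) :
    ac (Dir.A.refl ((2 * k + 1) * ρ)) (ga ρ) p = ga ρ p := by
  obtain ⟨c, ⟨d, s⟩⟩ := p
  show (-1 : ℝ) * (if !d then -sw ρ ((2 * k + 1) * ρ - 1 - c.2) else
    sw ρ ((2 * k + 1) * ρ - 1 - c.1)) = (if d then -sw ρ c.1 else sw ρ c.2)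
  cases d
  · simp only [Bool.not_false, if_true, Bool.false_eq_true, if_false]
    rw [sw_refl_odd hρ]
    ring
  · simp only [Bool.not_true, Bool.false_eq_true, if_false, if_true]
    rw [sw_refl_odd hρ]
    ring

/-! ### Regions -/

/-- boxes -/
noncomputable def hbx (x0 x1 y0 y1 : ℤ) : Finset Hb :=
  (Finset.Ico x0 x1 ×ˢ Finset.Ico y0 y1) ×ˢ (Finset.univ : Finset HT)

theorem mem_hbx {x0 x1 y0 y1 : ℤ} {p : Hb} : p ∈ hbx x0 x1 y0 y1 ↔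
    x0 ≤ p.1.1 ∧ p.1.1 < x1 ∧ y0 ≤ p.1.2 ∧ p.1.2 < y1 := by
  unfold hbx
  simp only [Finset.mem_product, Finset.mem_Ico, Finset.mem_univ, and_true]
  tauto

/-- diamonds and other rectangles with diagonal sides -/
noncomputable def Dm (u0 u1 v0 v1 : ℤ) : Finset Hb :=
  (hbx (-(|u0| + |u1| + |v0| + |v1| + 3)) (|u0| + |u1| + |v0| + |v1| + 3)
    (-(|u0| + |u1| + |v0| + |v1| + 3)) (|u0| + |u1| + |v0| + |v1| + 3)).filter
    fun p => u0 < sD p ∧ sD p < u1 ∧ v0 < sA p ∧ sA p < v1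

theorem mem_Dm {u0 u1 v0 v1 : ℤ} {p : Hb} : p ∈ Dm u0 u1 v0 v1 ↔
    u0 < sD p ∧ sD p < u1 ∧ v0 < sA p ∧ sA p < v1 := by
  unfold Dm
  rw [Finset.mem_filter, mem_hbx]
  refine ⟨fun h => h.2, fun h => ⟨?_, h⟩⟩
  have h1 := s_cell p
  have a1 := neg_abs_le u0
  have a2 := le_abs_self u1
  have a3 := neg_abs_le v0
  have a4 := le_abs_self v1
  have b1 := abs_nonneg u0
  have b2 := abs_nonneg u1
  have b3 := abs_nonneg v0
  have b4 := abs_nonneg v1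
  omega

/-- doubling in the direction of `x - y` -/
theorem dbl_D {b : ℝ} (hb : 0 ≤ b) {ρ : ℤ} (hρ : 0 < ρ) (k u0 v0 v1 : ℤ) :
    VF b (ct (Dm u0 (4 * ((2 * k + 1) * ρ) - u0) v0 v1) (ga ρ)) ≤
      2 * VF b (ct (Dm u0 (2 * ((2 * k + 1) * ρ)) v0 v1) (ga ρ)) := by
  set a : ℤ := (2 * k + 1) * ρ with ha
  set y := ct (Dm u0 (2 * a) v0 v1) (ga ρ) with hy
  set z := ct (Dm (2 * a) (4 * a - u0) v0 v1) (ga ρ) with hz
  have e1 : ct (Dm u0 (4 * a - u0) v0 v1) (ga ρ) = y + z ∨ 2 * a ≤ u0 := by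
    by_cases hu : 2 * a ≤ u0
    · exact Or.inr hu
    · left
      ext p
      rw [Finsupp.add_apply, hy, hz, ct_apply, ct_apply, ct_apply]
      obtain ⟨j, hj⟩ := sD_odd p
      by_cases h1 : p ∈ Dm u0 (2 * a) v0 v1
      · have h2 : p ∈ Dm u0 (4 * a - u0) v0 v1 := by rw [mem_Dm] at h1 ⊢; omega
        have h3 : p ∉ Dm (2 * a) (4 * a - u0) v0 v1 := by rw [mem_Dm] at h1 ⊢; omega
        rw [if_pos h1, if_pos h2, if_neg h3, add_zero]
      · by_cases h2 : p ∈ Dm u0 (4 * a - u0) v0 v1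
        · have h3 : p ∈ Dm (2 * a) (4 * a - u0) v0 v1 := by rw [mem_Dm] at h1 h2 ⊢; omega
          rw [if_neg h1, if_pos h2, if_pos h3, zero_add]
        · have h3 : p ∉ Dm (2 * a) (4 * a - u0) v0 v1 := by rw [mem_Dm] at h1 h2 ⊢; omega
          rw [if_neg h1, if_neg h2, if_neg h3, add_zero]
  rcases e1 with e1 | e1
  · have hzy : (z : Hb → ℝ) = ac (Dir.D.refl a) y := by
      refine ct_ac (fun p => ?_) (fun p _ => (ga_D hρ k p).symm)
      rw [mem_Dm, mem_Dm, sD_D, sA_D]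
      omega
    have h1 := VB_rp hb Dir.D a hzy fun c t h => by
      rw [left_D] at h
      rw [hy, ct_apply, if_neg]
      rw [mem_Dm]
      omega
    have h2 := VF_inv hb Dir.D a hzy
    rw [e1, VF_add hb, h2]
    linarith
  · have h0 : Dm u0 (4 * a - u0) v0 v1 = ∅ := by
      ext p
      rw [mem_Dm]
      simp only [Finset.notMem_empty, iff_false]
      omega
    have h1 : ct (Dm u0 (4 * a - u0) v0 v1) (ga ρ) = 0 := by
      ext p
      rw [ct_apply, h0]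
      simp
    rw [h1]
    have h2 : VF b (0 : FH) = 0 := by
      have := VF_smul hb (0 : FH) 0
      rw [zero_smul] at this
      rw [this]; ring
    rw [h2]
    have := VF_nonneg hb y
    linarith

/-- doubling in the direction of `x + y` -/
theorem dbl_A {b : ℝ} (hb : 0 ≤ b) {ρ : ℤ} (hρ : 0 < ρ) (k u0 u1 v0 : ℤ) :
    VF b (ct (Dm u0 u1 v0 (4 * ((2 * k + 1) * ρ) - v0)) (ga ρ)) ≤
      2 * VF b (ct (Dm u0 u1 v0 (2 * ((2 * k + 1) * ρ))) (ga ρ)) := by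
  set a : ℤ := (2 * k + 1) * ρ with ha
  set y := ct (Dm u0 u1 v0 (2 * a)) (ga ρ) with hy
  set z := ct (Dm u0 u1 (2 * a) (4 * a - v0)) (ga ρ) with hz
  have e1 : ct (Dm u0 u1 v0 (4 * a - v0)) (ga ρ) = y + z ∨ 2 * a ≤ v0 := by
    by_cases hu : 2 * a ≤ v0
    · exact Or.inr hu
    · left
      ext p
      rw [Finsupp.add_apply, hy, hz, ct_apply, ct_apply, ct_apply]
      obtain ⟨j, hj⟩ := sA_odd p
      by_cases h1 : p ∈ Dm u0 u1 v0 (2 * a)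
      · have h2 : p ∈ Dm u0 u1 v0 (4 * a - v0) := by rw [mem_Dm] at h1 ⊢; omega
        have h3 : p ∉ Dm u0 u1 (2 * a) (4 * a - v0) := by rw [mem_Dm] at h1 ⊢; omega
        rw [if_pos h1, if_pos h2, if_neg h3, add_zero]
      · by_cases h2 : p ∈ Dm u0 u1 v0 (4 * a - v0)
        · have h3 : p ∈ Dm u0 u1 (2 * a) (4 * a - v0) := by rw [mem_Dm] at h1 h2 ⊢; omega
          rw [if_neg h1, if_pos h2, if_pos h3, zero_add]
        · have h3 : p ∉ Dm u0 u1 (2 * a) (4 * a - v0) := by rw [mem_Dm] at h1 h2 ⊢; omega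
          rw [if_neg h1, if_neg h2, if_neg h3, add_zero]
  rcases e1 with e1 | e1
  · have hzy : (z : Hb → ℝ) = ac (Dir.A.refl a) y := by
      refine ct_ac (fun p => ?_) (fun p _ => (ga_A hρ k p).symm)
      rw [mem_Dm, mem_Dm, sD_A, sA_A]
      omega
    have h1 := VB_rp hb Dir.A a hzy fun c t h => by
      rw [left_A] at h
      rw [hy, ct_apply, if_neg]
      rw [mem_Dm]
      omega
    have h2 := VF_inv hb Dir.A a hzy
    rw [e1, VF_add hb, h2]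
    linarith
  · have h0 : Dm u0 u1 v0 (4 * a - v0) = ∅ := by
      ext p
      rw [mem_Dm]
      simp only [Finset.notMem_empty, iff_false]
      omega
    have h1 : ct (Dm u0 u1 v0 (4 * a - v0)) (ga ρ) = 0 := by
      ext p
      rw [ct_apply, h0]
      simp
    rw [h1]
    have h2 : VF b (0 : FH) = 0 := by
      have := VF_smul hb (0 : FH) 0
      rw [zero_smul] at this
      rw [this]; ring
    rw [h2]
    have := VF_nonneg hb y
    linarith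

/-- the chessboard estimate -/
theorem chess {b : ℝ} (hb : 0 ≤ b) {ρ : ℤ} (hρ : 0 < ρ) (j i : ℤ) (n : ℕ) :
    VF b (ct (Dm (2 * ((2 * j + 1) * ρ)) (2 * ((2 * j + 1) * ρ) + 4 * ρ * 2 ^ n)
      (2 * ((2 * i + 1) * ρ)) (2 * ((2 * i + 1) * ρ) + 4 * ρ * 2 ^ n)) (ga ρ)) ≤
    4 ^ n * VF b (ct (Dm (2 * ((2 * j + 1) * ρ)) (2 * ((2 * j + 1) * ρ) + 4 * ρ)
      (2 * ((2 * i + 1) * ρ)) (2 * ((2 * i + 1) * ρ) + 4 * ρ)) (ga ρ)) := by
  induction n with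
  | zero => simp
  | succ n ih =>
    set U : ℤ := 2 * ((2 * j + 1) * ρ) with hU
    set W : ℤ := 2 * ((2 * i + 1) * ρ) with hW
    have h1 := dbl_D hb hρ (j + 2 ^ n) U W (W + 4 * ρ * 2 ^ (n + 1))
    have h2 := dbl_A hb hρ (i + 2 ^ n) U (U + 4 * ρ * 2 ^ n) W
    have e1 : 4 * ((2 * (j + 2 ^ n) + 1) * ρ) - U = U + 4 * ρ * 2 ^ (n + 1) := by
      rw [hU, pow_succ]; ring
    have e2 : 2 * ((2 * (j + 2 ^ n) + 1) * ρ) = U + 4 * ρ * 2 ^ n := by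
      rw [hU]; ring
    have e3 : 4 * ((2 * (i + 2 ^ n) + 1) * ρ) - W = W + 4 * ρ * 2 ^ (n + 1) := by
      rw [hW, pow_succ]; ring
    have e4 : 2 * ((2 * (i + 2 ^ n) + 1) * ρ) = W + 4 * ρ * 2 ^ n := by
      rw [hW]; ring
    rw [e1, e2] at h1
    rw [e3, e4] at h2
    have h3 : (4 : ℝ) ^ (n + 1) = 4 * 4 ^ n := by rw [pow_succ]; ring
    rw [h3]
    linarith

end Vale.Agent.P159.H529
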