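import Vale.Agent.P159.H529.Arr

/-!
From the pyramid to long slabs with a constant field.
-/

set_option linter.all false
set_option autoImplicit false

open MeasureTheory Filter Topology
open scoped BigOperators

namespace Vale.Agent.P159.H529

open Vale.Agent.P159 Vale.Agent.P159.UJ Vale.Agent.P159.H950

variable {b : ℝ}

theorem ct_add_of {S T U : Finset Hb} (g : Hb → ℝ)
    (h : ∀ p, (p ∈ S ∧ p ∈ T ∧ p ∉ U) ∨ (p ∈ S ∧ p ∉ T ∧ p ∈ U) ∨ (p ∉ S ∧ p ∉ T ∧ p ∉ U)) :
    ct S g = ct T g + ct U g := by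
  ext p
  rw [Finsupp.add_apply, ct_apply, ct_apply, ct_apply]
  rcases h p with ⟨h1, h2, h3⟩ | ⟨h1, h2, h3⟩ | ⟨h1, h2, h3⟩ <;> simp [h1, h2, h3]

/-- the mirror `x = 0` -/
theorem half_V (hb : 0 ≤ b) {ρ : ℤ} (hρ : 0 < ρ) {S : Finset Hb}
    (hS : ∀ p, p ∈ S ↔ im Dir.V 0 p ∈ S) :
    2 * VF b (ct (S.filter fun p => 0 ≤ p.1.1) (ga ρ)) ≤ VF b (ct S (ga ρ)) := by
  set y := ct (S.filter fun p => ¬ 0 ≤ p.1.1) (ga ρ) with hy
  set z := ct (S.filter fun p => 0 ≤ p.1.1) (ga ρ) with hz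
  have e1 : ct S (ga ρ) = y + z := by
    refine ct_add_of _ fun p => ?_
    simp only [Finset.mem_filter]
    tauto
  have e2 : ((-z : FH) : Hb → ℝ) = ac (Dir.V.refl 0) y := by
    rw [hz, ← ct_neg, hy]
    refine ct_ac (fun p => ?_) (fun p _ => ?_)
    · rw [Finset.mem_filter, Finset.mem_filter, ← hS p, im_V]
      simp only
      constructor
      · rintro ⟨h1, h2⟩; exact ⟨h1, by omega⟩
      · rintro ⟨h1, h2⟩; exact ⟨h1, by omega⟩
    · have := ga_V hρ 0 p
      rw [zero_mul] at this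
      exact this.symm
  have h1 := VB_rp hb Dir.V 0 e2 fun c t h => by
    rw [left_V] at h
    rw [hy, ct_apply, if_neg]
    rw [Finset.mem_filter]
    rintro ⟨_, h2⟩
    simp only at h2
    omega
  have h2 := VF_inv hb Dir.V 0 e2
  rw [VB_neg hb] at h1
  rw [VF_neg hb] at h2
  rw [e1, VF_add hb, ← h2]
  linarith

/-- the mirror `y = 0` -/
theorem half_H (hb : 0 ≤ b) {ρ : ℤ} (hρ : 0 < ρ) {S : Finset Hb}
    (hS : ∀ p, p ∈ S ↔ im Dir.H 0 p ∈ S) :
    2 * VF b (ct (S.filter fun p => 0 ≤ p.1.2) (ga ρ)) ≤ VF b (ct S (ga ρ)) := by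
  set y := ct (S.filter fun p => ¬ 0 ≤ p.1.2) (ga ρ) with hy
  set z := ct (S.filter fun p => 0 ≤ p.1.2) (ga ρ) with hz
  have e1 : ct S (ga ρ) = y + z := by
    refine ct_add_of _ fun p => ?_
    simp only [Finset.mem_filter]
    tauto
  have e2 : ((-z : FH) : Hb → ℝ) = ac (Dir.H.refl 0) y := by
    rw [hz, ← ct_neg, hy]
    refine ct_ac (fun p => ?_) (fun p _ => ?_)
    · rw [Finset.mem_filter, Finset.mem_filter, ← hS p, im_H]
      simp only
      constructor
      · rintro ⟨h1, h2⟩; exact ⟨h1, by omega⟩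
      · rintro ⟨h1, h2⟩; exact ⟨h1, by omega⟩
    · have := ga_H hρ 0 p
      rw [zero_mul] at this
      exact this.symm
  have h1 := VB_rp hb Dir.H 0 e2 fun c t h => by
    rw [left_H] at h
    rw [hy, ct_apply, if_neg]
    rw [Finset.mem_filter]
    rintro ⟨_, h2⟩
    simp only at h2
    omega
  have h2 := VF_inv hb Dir.H 0 e2
  rw [VB_neg hb] at h1
  rw [VF_neg hb] at h2
  rw [e1, VF_add hb, ← h2]
  linarith

/-- the mirror `x + y = N` of the square -/
theorem anti (hb : 0 ≤ b) {ρ : ℤ} (hρ : 0 < ρ) (k : ℤ) :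
    VF b (ct (hbx 0 ((2 * k + 1) * ρ) 0 ((2 * k + 1) * ρ)) (ga ρ)) ≤
      2 * VF b (ct ((hbx 0 ((2 * k + 1) * ρ) 0 ((2 * k + 1) * ρ)).filter
        fun p => sA p < 2 * ((2 * k + 1) * ρ)) (ga ρ)) := by
  set N : ℤ := (2 * k + 1) * ρ with hN
  set y := ct ((hbx 0 N 0 N).filter fun p => sA p < 2 * N) (ga ρ) with hy
  set z := ct ((hbx 0 N 0 N).filter fun p => ¬ sA p < 2 * N) (ga ρ) with hz
  have e1 : ct (hbx 0 N 0 N) (ga ρ) = y + z := by
    refine ct_add_of _ fun p => ?_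
    simp only [Finset.mem_filter]
    tauto
  have hzy : (z : Hb → ℝ) = ac (Dir.A.refl N) y := by
    refine ct_ac (fun p => ?_) (fun p _ => (ga_A hρ k p).symm)
    rw [Finset.mem_filter, Finset.mem_filter, mem_hbx, mem_hbx, sA_A, im_A]
    simp only
    obtain ⟨j, hj⟩ := sA_odd p
    omega
  have h1 := VB_rp hb Dir.A N hzy fun c t h => by
    rw [left_A] at h
    rw [hy, ct_apply, if_neg]
    rw [Finset.mem_filter]
    rintro ⟨_, h2⟩
    exact h h2
  have h2 := VF_inv hb Dir.A N hzy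
  rw [e1, VF_add hb, h2]
  linarith

/-- the two square waves decouple on a square of odd side -/
theorem decouple (hb : 0 ≤ b) {r : ℤ} (hr : 0 < r) (k : ℤ) :
    VF b (ct (hbx 0 ((2 * k + 1) * (2 * r)) 0 ((2 * k + 1) * (2 * r))) (ga (2 * r))) =
      2 * VF b (ct (hbx 0 ((2 * k + 1) * (2 * r)) 0 ((2 * k + 1) * (2 * r))) (al (2 * r))) := by
  set N : ℤ := (2 * k + 1) * (2 * r) with hN
  set Q := hbx 0 N 0 N with hQ
  set x := ct Q (al (2 * r)) with hx
  set y := ct Q (be (2 * r)) with hy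
  have hρ : 0 < 2 * r := by omega
  have e1 : ct Q (ga (2 * r)) = y - x := by
    ext p
    rw [Finsupp.sub_apply, hx, hy, ct_apply, ct_apply, ct_apply]
    split_ifs
    · unfold ga be al
      split_ifs <;> simp
    · simp
  have e2 : (x : Hb → ℝ) = ac (Dir.V.refl ((2 * k + 1) * r)) x := by
    refine ct_ac (fun p => ?_) (fun p _ => ?_)
    · rw [hQ, mem_hbx, mem_hbx, im_V, hN]
      simp only
      constructor <;> intro h <;> refine ⟨?_, ?_, h.2.2⟩ <;> nlinarith [h.1, h.2.1]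
    · obtain ⟨c, ⟨d, s⟩⟩ := p
      show (if d then sw (2 * r) c.1 else 0) = (if d then (1 : ℝ) else -1) *
        (if d then sw (2 * r) (2 * ((2 * k + 1) * r) - 1 - c.1) else 0)
      cases d
      · simp
      · simp only [if_true]
        rw [show 2 * ((2 * k + 1) * r) - 1 - c.1 = (2 * k + 1) * (2 * r) - 1 - c.1 by ring,
          sw_refl_odd hρ, one_mul]
  have e3 : ((-y : FH) : Hb → ℝ) = ac (Dir.V.refl ((2 * k + 1) * r)) y := by
    rw [hy, ← ct_neg]
    refine ct_ac (fun p => ?_) (fun p _ => ?_)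
    · rw [hQ, mem_hbx, mem_hbx, im_V, hN]
      simp only
      constructor <;> intro h <;> refine ⟨?_, ?_, h.2.2⟩ <;> nlinarith [h.1, h.2.1]
    · obtain ⟨c, ⟨d, s⟩⟩ := p
      show -(if d then (0 : ℝ) else sw (2 * r) c.2) = (if d then (1 : ℝ) else -1) *
        (if d then 0 else sw (2 * r) c.2)
      cases d <;> simp
  have h0 : VB b y x = 0 := by
    have h1 := VB_inv hb Dir.V ((2 * k + 1) * r) e3 e2
    rw [VB_neg_left hb] at h1
    linarith
  have e4 : (y : Hb → ℝ) = ac (Dir.D.refl 0) x := by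
    refine ct_ac (fun p => ?_) (fun p _ => ?_)
    · rw [hQ, mem_hbx, mem_hbx, im_D]
      simp only
      omega
    · obtain ⟨c, ⟨d, s⟩⟩ := p
      show (if d then (0 : ℝ) else sw (2 * r) c.2) = (1 : ℝ) *
        (if !d then sw (2 * r) (c.2 + 0) else 0)
      cases d <;> simp
  have h2 := VF_inv hb Dir.D 0 e4
  rw [e1, VF_sub hb, h0, h2]
  ring

/-- slabs of width `2 κ ρ` -/
theorem slabs (hb : 0 ≤ b) {ρ : ℤ} (hρ : 0 < ρ) (κ : ℕ) (hκ : 1 ≤ κ) (A : ℕ) (h : ℤ) :
    A * VF b (ct (hbx 0 (2 * κ * ρ) 0 h) (al ρ)) ≤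
      VF b (ct (hbx 0 (A * (2 * κ * ρ)) 0 h) (al ρ)) := by
  classical
  set w : ℤ := 2 * κ * ρ with hw
  have hw0 : 0 < w := by rw [hw]; positivity
  set S := hbx 0 (A * w) 0 h with hS
  have hfib := ct_fib S (Finset.range A) (fun p => (p.1.1 / w).toNat) (fun p hp => by
    rw [hS, mem_hbx] at hp
    rw [Finset.mem_range]
    have h1 : p.1.1 / w < A := Int.ediv_lt_of_lt_mul hw0 hp.2.1
    have h2 : 0 ≤ p.1.1 / w := Int.ediv_nonneg hp.1 hw0.le
    omega) (al ρ)
  have hsl : ∀ i ∈ Finset.range A, S.filter (fun p => (p.1.1 / w).toNat = i) =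
      hbx (i * w) ((i + 1) * w) 0 h := by
    intro i hi
    rw [Finset.mem_range] at hi
    ext p
    rw [Finset.mem_filter, hS, mem_hbx, mem_hbx]
    constructor
    · rintro ⟨⟨h1, h2, h3, h4⟩, h5⟩
      have h6 : 0 ≤ p.1.1 / w := Int.ediv_nonneg h1 hw0.le
      have h7 : p.1.1 / w = i := by omega
      have h8 := Int.emod_add_mul_ediv p.1.1 w
      have h9 := Int.emod_nonneg p.1.1 hw0.ne'
      have h10 := Int.emod_lt_of_pos p.1.1 hw0
      rw [h7] at h8
      refine ⟨?_, ?_, h3, h4⟩ <;> nlinarith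
    · rintro ⟨h1, h2, h3, h4⟩
      have h5 : p.1.1 / w = i := by
        rw [Int.ediv_eq_iff_of_pos hw0]
        constructor <;> nlinarith
      have hi2 : (i : ℤ) + 1 ≤ A := by omega
      refine ⟨⟨by nlinarith, by nlinarith, h3, h4⟩, by rw [h5]; simp⟩
  rw [Finset.sum_congr rfl (g := fun i : ℕ => ct (hbx (i * w) ((i + 1) * w) 0 h) (al ρ))
    (fun i hi => by rw [hsl i hi])] at hfib
  rw [← hfib]
  -- a mirror between slab `i` and slab `j`
  have hmir : ∀ i j : ℕ, ((-ct (hbx (j * w) ((j + 1) * w) 0 h) (al ρ) : FH) : Hb → ℝ) =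
      ac (Dir.V.refl ((i + j + 1) * (κ * ρ))) (ct (hbx (i * w) ((i + 1) * w) 0 h) (al ρ)) := by
    intro i j
    rw [← ct_neg]
    refine ct_ac (fun p => ?_) (fun p _ => ?_)
    · rw [mem_hbx, mem_hbx, im_V, hw]
      simp only
      constructor
      · rintro ⟨h1, h2, h3, h4⟩
        refine ⟨?_, ?_, h3, h4⟩ <;> push_cast at * <;> nlinarith
      · rintro ⟨h1, h2, h3, h4⟩
        refine ⟨?_, ?_, h3, h4⟩ <;> push_cast at * <;> nlinarith
    · obtain ⟨c, ⟨d, s⟩⟩ := p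
      show -(if d then sw ρ c.1 else 0) = (if d then (1 : ℝ) else -1) *
        (if d then sw ρ (2 * ((i + j + 1) * (κ * ρ)) - 1 - c.1) else 0)
      cases d
      · simp
      · simp only [if_true]
        rw [show 2 * (((i : ℤ) + j + 1) * (κ * ρ)) - 1 - c.1 =
          2 * ((i + j + 1) * κ) * ρ - 1 - c.1 by ring, sw_refl_even hρ, one_mul]
  have hle : ∀ i j : ℕ, i < j → 0 ≤ VB b (ct (hbx (i * w) ((i + 1) * w) 0 h) (al ρ))
      (ct (hbx (j * w) ((j + 1) * w) 0 h) (al ρ)) := by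
    intro i j hij
    have h1 := VB_rp hb Dir.V ((i + j + 1) * (κ * ρ)) (hmir i j) fun c t hl => by
      rw [left_V, not_lt] at hl
      rw [ct_apply, if_neg]
      rw [mem_hbx]
      rintro ⟨h2, h3, _⟩
      simp only at h2 h3
      have h4 : (i : ℤ) + 1 ≤ j := by exact_mod_cast hij
      have h5 : ((i : ℤ) + 1) * w ≤ (i + j + 1) * (κ * ρ) := by
        rw [hw]
        have h6 : 0 < (κ : ℤ) * ρ := by positivity
        nlinarith
      omega
    rw [VB_neg hb] at h1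
    linarith
  have hsup := VF_super hb (Finset.range A)
    (fun i : ℕ => ct (hbx (i * w) ((i + 1) * w) 0 h) (al ρ)) (fun i _ j _ hij => by
      rcases lt_or_gt_of_ne hij with h1 | h1
      · exact hle i j h1
      · rw [VB_symm hb]; exact hle j i h1)
  refine le_trans (le_of_eq ?_) hsup
  have hall : ∀ i ∈ Finset.range A, VF b (ct (hbx (i * w) ((i + 1) * w) 0 h) (al ρ)) =
      VF b (ct (hbx 0 w 0 h) (al ρ)) := by
    intro i _
    have h1 := VF_inv hb Dir.V _ (hmir 0 i)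
    rw [VF_neg hb] at h1
    rw [h1]
    simp
  rw [Finset.sum_congr rfl hall, Finset.sum_const, Finset.card_range, nsmul_eq_mul]

/-- strips of width `2 r`: signs increase the form -/
theorem strips (hb : 0 ≤ b) {r : ℤ} (hr : 0 < r) (κ : ℕ) (h : ℤ) :
    VF b (ct (hbx 0 (κ * (2 * r)) 0 h) e2) ≤ VF b (ct (hbx 0 (κ * (2 * r)) 0 h) (al (2 * r))) := by
  classical
  set w : ℤ := 2 * r with hw
  have hw0 : 0 < w := by omega
  set S := hbx 0 (κ * w) 0 h with hS
  have hτ : ∀ p ∈ S, (fun p : Hb => (p.1.1 / w).toNat) p ∈ Finset.range κ := fun p hp => by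
    rw [hS, mem_hbx] at hp
    rw [Finset.mem_range]
    have h1 : p.1.1 / w < κ := Int.ediv_lt_of_lt_mul hw0 hp.2.1
    have h2 : 0 ≤ p.1.1 / w := Int.ediv_nonneg hp.1 hw0.le
    simp only
    omega
  have hfib := ct_fib S (Finset.range κ) (fun p => (p.1.1 / w).toNat) hτ e2
  have hfib2 := ct_fib S (Finset.range κ) (fun p => (p.1.1 / w).toNat) hτ (al w)
  have hsl : ∀ i ∈ Finset.range κ, S.filter (fun p => (p.1.1 / w).toNat = i) =
      hbx (i * w) ((i + 1) * w) 0 h := by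
    intro i hi
    rw [Finset.mem_range] at hi
    ext p
    rw [Finset.mem_filter, hS, mem_hbx, mem_hbx]
    constructor
    · rintro ⟨⟨h1, h2, h3, h4⟩, h5⟩
      have h6 : 0 ≤ p.1.1 / w := Int.ediv_nonneg h1 hw0.le
      have h7 : p.1.1 / w = i := by omega
      have h8 := Int.emod_add_mul_ediv p.1.1 w
      have h9 := Int.emod_nonneg p.1.1 hw0.ne'
      have h10 := Int.emod_lt_of_pos p.1.1 hw0
      rw [h7] at h8
      refine ⟨?_, ?_, h3, h4⟩ <;> nlinarith
    · rintro ⟨h1, h2, h3, h4⟩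
      have h5 : p.1.1 / w = i := by
        rw [Int.ediv_eq_iff_of_pos hw0]
        constructor <;> nlinarith
      have hi2 : (i : ℤ) + 1 ≤ κ := by omega
      refine ⟨⟨by nlinarith, by nlinarith, h3, h4⟩, by rw [h5]; simp⟩
  have hal : ∀ i ∈ Finset.range κ, ct (S.filter (fun p => (p.1.1 / w).toNat = i)) (al w) =
      (if i % 2 = 0 then (1 : ℝ) else -1) • ct (hbx (i * w) ((i + 1) * w) 0 h) e2 := by
    intro i hi
    rw [← hsl i hi]
    ext p
    rw [Finsupp.smul_apply, ct_apply, ct_apply, smul_eq_mul]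
    by_cases hp : p ∈ S.filter (fun p => (p.1.1 / w).toNat = i)
    · rw [if_pos hp, if_pos hp]
      have h1 := (Finset.mem_filter.1 hp).2
      have h2 := (Finset.mem_filter.1 hp).1
      rw [hS, mem_hbx] at h2
      have h3 : 0 ≤ p.1.1 / w := Int.ediv_nonneg h2.1 hw0.le
      have h4 : p.1.1 / w = i := by omega
      unfold al e2 sw
      rw [h4]
      by_cases h5 : i % 2 = 0
      · have h6 : (i : ℤ) % 2 = 0 := by omega
        rw [if_pos h5, if_pos h6]; split_ifs <;> simp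
      · have h6 : ¬ (i : ℤ) % 2 = 0 := by omega
        rw [if_neg h5, if_neg h6]; split_ifs <;> simp
    · rw [if_neg hp, if_neg hp, mul_zero]
  rw [Finset.sum_congr rfl (g := fun i : ℕ => ct (hbx (i * w) ((i + 1) * w) 0 h) e2)
    (fun i hi => by rw [hsl i hi])] at hfib
  rw [Finset.sum_congr rfl hal] at hfib2
  rw [← hfib, ← hfib2]
  refine VF_signs hb (Finset.range κ) _ ?_ _ (fun i _ => by split_ifs <;> simp)
  have hle : ∀ i j : ℕ, i < j → VB b (ct (hbx (i * w) ((i + 1) * w) 0 h) e2)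
      (ct (hbx (j * w) ((j + 1) * w) 0 h) e2) ≤ 0 := by
    intro i j hij
    have hmir : (ct (hbx (j * w) ((j + 1) * w) 0 h) e2 : Hb → ℝ) =
        ac (Dir.V.refl ((i + j + 1) * r)) (ct (hbx (i * w) ((i + 1) * w) 0 h) e2) := by
      refine ct_ac (fun p => ?_) (fun p _ => ?_)
      · rw [mem_hbx, mem_hbx, im_V, hw]
        simp only
        constructor
        · rintro ⟨h1, h2, h3, h4⟩
          refine ⟨?_, ?_, h3, h4⟩ <;> nlinarith
        · rintro ⟨h1, h2, h3, h4⟩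
          refine ⟨?_, ?_, h3, h4⟩ <;> nlinarith
      · obtain ⟨c, ⟨d, s⟩⟩ := p
        show (if d then (1 : ℝ) else 0) = (if d then (1 : ℝ) else -1) * (if d then 1 else 0)
        cases d <;> simp
    refine VB_rp hb Dir.V ((i + j + 1) * r) hmir fun c t hl => ?_
    rw [left_V, not_lt] at hl
    rw [ct_apply, if_neg]
    rw [mem_hbx]
    rintro ⟨h2, h3, _⟩
    simp only at h2 h3
    have h4 : (i : ℤ) + 1 ≤ j := by exact_mod_cast hij
    have h5 : ((i : ℤ) + 1) * w ≤ (i + j + 1) * r := by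
      rw [hw]
      nlinarith
    omega
  intro i _ j _ hij
  rcases lt_or_gt_of_ne hij with h1 | h1
  · exact hle i j h1
  · rw [VB_symm hb]; exact hle j i h1

end Vale.Agent.P159.H529
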