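import Vale.Agent.P159.H856.Arr
import Vale.Agent.P159.H253.Pyr

/-!
From the bond version of the pyramid bound to the version with whole unit cells.
-/

set_option linter.all false

open MeasureTheory
open scoped BigOperators

namespace Vale.Agent.P159

namespace H529

open UJ UJ.H282 UJ.H253 H950

/-- cells where the two pyramids differ -/
def Dff (r : ℕ) (Z : ℤ × ℤ) : Prop :=
  H253.nn Z = r ∨ (H253.nn Z < r ∧ ((Z.1 = 0 ∨ Z.1 = -1) ∨ (Z.2 = 0 ∨ Z.2 = -1)))

instance (r : ℕ) (Z : ℤ × ℤ) : Decidable (Dff r Z) := by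
  unfold Dff
  infer_instance

theorem l1_le (a b p : ℤ) : |a| + |b| ≤ p ↔
    (-p ≤ a + b ∧ a + b ≤ p) ∧ (-p ≤ a - b ∧ a - b ≤ p) := by
  rcases abs_cases a with ⟨h, _⟩ | ⟨h, _⟩ <;> rcases abs_cases b with ⟨h', _⟩ | ⟨h', _⟩ <;>
    rw [h, h'] <;> constructor <;> intro _ <;> omega

/-- the two pyramids agree up to the sign off few cells -/
theorem pyr_agree (r : ℕ) (q c : ℤ × ℤ) (h : ¬ Dff r (c - q)) (t : Bool × Bool) :
    H856.pyr q.1 q.2 r t c = - H253.pyr r q t c := by
  obtain ⟨Z, hZ⟩ : ∃ Z, Z = c - q := ⟨_, rfl⟩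
  have hc : c = Z + q := by rw [hZ]; abel
  rw [← hZ] at h
  unfold H856.pyr H253.pyr
  rw [← hZ]
  subst hc
  unfold Dff at h
  push Not at h
  obtain ⟨h1, h2⟩ := h
  simp only [l1_le]
  obtain ⟨x, y⟩ := Z
  obtain ⟨q1, q2⟩ := q
  simp only at h2
  have hs : ∀ k : ℤ, 0 < k → ((Int.sign k : ℤ) : ℝ) = 1 := fun k hk => by
    rw [Int.sign_eq_one_of_pos hk]; norm_num
  have hs' : ∀ k : ℤ, k < 0 → ((Int.sign k : ℤ) : ℝ) = -1 := fun k hk => by
    rw [Int.sign_eq_neg_one_of_neg hk]; norm_num
  by_cases h3 : H253.nn (x, y) < r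
  · obtain ⟨⟨h4, h5⟩, h6, h7⟩ := h2 h3
    rcases t with ⟨_ | _, _ | _⟩
    · unfold ph H253.sg
      rw [if_pos h3]
      unfold H253.nn at h3
      simp only [hu, hv, Bool.false_eq_true, if_false, if_true, Prod.mk_add_mk, add_zero, zero_add,
        Bool.and_false, Bool.and_true, Bool.not_false, Bool.not_true, Bool.and_self] at h3 ⊢
      rw [if_pos (by split_ifs at h3 <;> omega)]
      by_cases hy : 0 ≤ y
      · rw [if_pos hy, hs _ (by omega)]; norm_num
      · rw [if_neg hy, hs' _ (by omega)]; norm_num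
    · unfold ph H253.sg
      rw [if_pos h3]
      unfold H253.nn at h3
      simp only [hu, hv, Bool.false_eq_true, if_false, if_true, Prod.mk_add_mk, add_zero, zero_add,
        Bool.and_false, Bool.and_true, Bool.not_false, Bool.not_true, Bool.and_self] at h3 ⊢
      rw [if_pos (by split_ifs at h3 <;> omega)]
      by_cases hy : 0 ≤ y
      · rw [if_pos hy, hs _ (by omega)]; norm_num
      · rw [if_neg hy, hs' _ (by omega)]; norm_num
    · unfold pv H253.sg
      rw [if_pos h3]
      unfold H253.nn at h3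
      simp only [hu, hv, Bool.false_eq_true, if_false, if_true, Prod.mk_add_mk, add_zero, zero_add,
        Bool.and_false, Bool.and_true, Bool.not_false, Bool.not_true, Bool.and_self] at h3 ⊢
      rw [if_pos (by split_ifs at h3 <;> omega)]
      by_cases hy : 0 ≤ x
      · rw [if_pos hy, hs _ (by omega)]; norm_num
      · rw [if_neg hy, hs' _ (by omega)]; norm_num
    · unfold pv H253.sg
      rw [if_pos h3]
      unfold H253.nn at h3
      simp only [hu, hv, Bool.false_eq_true, if_false, if_true, Prod.mk_add_mk, add_zero, zero_add,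
        Bool.and_false, Bool.and_true, Bool.not_false, Bool.not_true, Bool.and_self] at h3 ⊢
      rw [if_pos (by split_ifs at h3 <;> omega)]
      by_cases hy : 0 ≤ x
      · rw [if_pos hy, hs _ (by omega)]; norm_num
      · rw [if_neg hy, hs' _ (by omega)]; norm_num
  · have h8 : (r : ℤ) < H253.nn (x, y) := by omega
    have e0 : (if t.1 = true then ((pv r (x, y) : ℤ) : ℝ) else ((ph r (x, y) : ℤ) : ℝ)) = 0 := by
      unfold pv ph
      rw [if_neg h3, if_neg h3]
      simp
    rw [e0, neg_zero]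
    unfold H253.nn at h8
    rcases t with ⟨_ | _, _ | _⟩
    all_goals
      simp only [hu, hv, Bool.false_eq_true, if_false, if_true, Prod.mk_add_mk, add_zero, zero_add,
        Bool.and_false, Bool.and_true, Bool.not_false, Bool.not_true, Bool.and_self] at h8 ⊢
      rw [if_neg (by split_ifs at h8 <;> omega)]

theorem card_Dff (r : ℕ) (q : ℤ × ℤ) (R : Finset (ℤ × ℤ)) :
    (R.filter fun c => Dff r (c - q)).card ≤ 12 * r := by
  classical
  have h0 : (R.filter fun c => Dff r (c - q)).card ≤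
      ((R.image fun c => c - q).filter fun Z => Dff r Z).card := by
    rw [← Finset.card_image_of_injective (R.filter fun c => Dff r (c - q))
      (show Function.Injective fun c : ℤ × ℤ => c - q from sub_left_injective)]
    refine Finset.card_le_card fun Z hZ => ?_
    rw [Finset.mem_image] at hZ
    obtain ⟨c, hc, rfl⟩ := hZ
    rw [Finset.mem_filter] at hc ⊢
    exact ⟨Finset.mem_image_of_mem _ hc.1, hc.2⟩
  refine h0.trans ?_
  set R' := R.image fun c => c - q
  have h1 : (R'.filter fun Z => Dff r Z) ⊆ (R'.filter fun Z => H253.nn Z = r) ∪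
      ((Finset.Ico (-1 : ℤ) 1 ×ˢ Finset.Ico (-(r : ℤ)) r) ∪
        (Finset.Ico (-(r : ℤ)) r ×ˢ Finset.Ico (-1 : ℤ) 1)) := by
    intro Z hZ
    rw [Finset.mem_filter] at hZ
    rw [Finset.mem_union, Finset.mem_union, Finset.mem_filter]
    rcases hZ.2 with h | ⟨h, h2⟩
    · exact Or.inl ⟨hZ.1, h⟩
    · right
      rw [nn_n1] at h
      have a1 := n1_nonneg Z.1
      have a2 := n1_nonneg Z.2
      have b1 := n1_lt (x := Z.1) (N := r) (by omega)
      have b2 := n1_lt (x := Z.2) (N := r) (by omega)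
      rw [Finset.mem_product, Finset.mem_product, Finset.mem_Ico, Finset.mem_Ico,
        Finset.mem_Ico, Finset.mem_Ico]
      rcases h2 with h2 | h2
      · left; omega
      · right; omega
  refine (Finset.card_le_card h1).trans ((Finset.card_union_le _ _).trans ?_)
  have h2 := rim_card r R'
  have h3 : ((Finset.Ico (-1 : ℤ) 1 ×ˢ Finset.Ico (-(r : ℤ)) r) ∪
        (Finset.Ico (-(r : ℤ)) r ×ˢ Finset.Ico (-1 : ℤ) 1)).card ≤ 8 * r := by
    refine (Finset.card_union_le _ _).trans ?_
    rw [Finset.card_product, Finset.card_product, Int.card_Ico, Int.card_Ico]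
    have e1 : ((1 : ℤ) - -1).toNat = 2 := rfl
    have e2 : ((r : ℤ) - -(r : ℤ)).toNat = 2 * r := by omega
    rw [e1, e2]
    omega
  omega

theorem abs_pyr856 (x0 y0 p : ℤ) (t : Bool × Bool) (z : ℤ × ℤ) : |H856.pyr x0 y0 p t z| ≤ 1 := by
  unfold H856.pyr
  have h : ∀ k : ℤ, |((Int.sign k : ℤ) : ℝ)| ≤ 1 := by
    intro k
    rcases lt_trichotomy k 0 with h | h | h
    · rw [Int.sign_eq_neg_one_of_neg h]; norm_num
    · rw [h]; simp
    · rw [Int.sign_eq_one_of_pos h]; norm_num
  split_ifs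
  · exact h _
  · rw [abs_neg]; exact h _
  · simp

/-- the difference of the two pyramids is small -/
theorem nG_diff (r : ℕ) (q : ℤ × ℤ) (R : Finset (ℤ × ℤ)) :
    H856.nG R (H856.pyr q.1 q.2 r + H253.pyr r q) ≤ 192 * r := by
  classical
  unfold H856.nG
  rw [Fintype.sum_prod_type, Finset.sum_coe_sort R (fun z => ∑ t : HT,
    (H856.pyr q.1 q.2 r + H253.pyr r q) t z ^ 2)]
  have h1 : ∀ z ∈ R, ∑ t : HT, (H856.pyr q.1 q.2 r + H253.pyr r q) t z ^ 2 ≤
      if Dff r (z - q) then 16 else 0 := by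
    intro z _
    split_ifs with h
    · have h2 : ∀ t ∈ (Finset.univ : Finset HT),
          (H856.pyr q.1 q.2 r + H253.pyr r q) t z ^ 2 ≤ 4 := by
        intro t _
        have a1 := abs_le.1 (abs_pyr856 q.1 q.2 r t z)
        have a2 := abs_le.1 (H253.abs_pyr r q t z)
        show (H856.pyr q.1 q.2 r t z + H253.pyr r q t z) ^ 2 ≤ 4
        nlinarith
      refine (Finset.sum_le_sum h2).trans ?_
      rw [Finset.sum_const]
      have : (Finset.univ : Finset HT).card = 4 := rfl
      rw [this]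
      norm_num
    · refine le_of_eq (Finset.sum_eq_zero fun t _ => ?_)
      show (H856.pyr q.1 q.2 r t z + H253.pyr r q t z) ^ 2 = 0
      rw [pyr_agree r q z h t]
      ring
  refine (Finset.sum_le_sum h1).trans ?_
  rw [← Finset.sum_filter, Finset.sum_const, nsmul_eq_mul]
  have h2 : ((R.filter fun c => Dff r (c - q)).card : ℝ) ≤ 12 * r := by
    exact_mod_cast card_Dff r q R
  linarith

theorem qG_neg {b : ℝ} (R : Finset (ℤ × ℤ)) (y : H856.HF) :
    H856.qG b R (fun t c => -y t c) = H856.qG b R y := by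
  unfold H856.qG
  have h := Qform_smul muInf (fun _ : KR R => b / 2) (chiR R) (-1)
    (fun e : KR R => y e.2 e.1)
  have e1 : (-1 : ℝ) • (fun e : KR R => y e.2 e.1) = fun e => -y e.2 e.1 := by
    funext e
    simp
  rw [e1] at h
  rw [h]
  ring

/-- **conversion** -/
theorem rpb_of {b Y : ℝ} (hb : 0 ≤ b) (hY : 0 ≤ Y) (hYb : Y ≤ b)
    (h : ∀ (L p : ℕ) (x0 y0 : ℤ), 1 ≤ p → (p : ℤ) ≤ x0 → x0 + p ≤ L → (p : ℤ) ≤ y0 →
      y0 + p ≤ L → Y * (4 * p * (p - 1)) ≤ qc b L 0 (rs L 0 (H856.pyr x0 y0 p)) 0) :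
    RPb b Y (200 * b) := by
  intro L r q hr _ h1 h2 h3 h4
  have hk := h L r q.1 q.2 hr h1 h2 h3 h4
  rw [← H856.qG_blk_qc b 0 L _ 0] at hk ⊢
  set z := H253.pyr r q with hz
  set y := H856.pyr q.1 q.2 r with hy
  obtain ⟨x, hx⟩ : ∃ x : ℝ, x = Real.sqrt r := ⟨_, rfl⟩
  have hr0 : (1 : ℝ) ≤ r := by exact_mod_cast hr
  have hx1 : 1 ≤ x := by rw [hx]; exact Real.one_le_sqrt.2 hr0
  have hxx : x * x = r := by rw [hx]; exact Real.mul_self_sqrt (by linarith)
  have hx0 : 0 < x := by linarith
  -- the form of the bond version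
  have e1 : y = (fun t c => -z t c) + (y + z) := by
    funext t c
    simp
  have g1 := H856.qG_add_le (b := b) hb (blk 0 L) (fun t c => -z t c) (y + z) (η := 1 / x)
    (by positivity)
  rw [← e1, qG_neg] at g1
  have g2 := H856.qG_le hb (blk 0 L) (y + z)
  have g3 := nG_diff r q (blk 0 L)
  rw [← hz, ← hy] at g3
  have g4 : H856.qG b (blk 0 L) z ≤ b * (4 * (r : ℝ) ^ 2) := by
    refine (H856.qG_le hb _ _).trans ?_
    rw [H856.nG_blk]
    have g5 : ∑ c ∈ blk 0 L, ∑ t : Bool × Bool, z t c ^ 2 ≤ 8 * (r : ℝ) ^ 2 := by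
      have g6 : ∀ c ∈ blk 0 L, ∑ t : Bool × Bool, z t c ^ 2 =
          if H253.nn (c - q) < r then 4 else 0 := by
        intro c _
        rw [← pyr_sq]
        exact Finset.sum_congr rfl fun t _ => by rw [hz]; ring
      rw [Finset.sum_congr rfl g6, ← Finset.sum_filter, Finset.sum_const, nsmul_eq_mul]
      have g7 : ((blk 0 L).filter fun c => H253.nn (c - q) < r).card ≤ 2 * r ^ 2 := by
        classical
        have g8 := in_card r ((blk 0 L).image fun c => c - q)
        refine le_trans ?_ g8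
        rw [← Finset.card_image_of_injective ((blk 0 L).filter fun c => H253.nn (c - q) < r)
          (show Function.Injective fun c : ℤ × ℤ => c - q from sub_left_injective)]
        refine Finset.card_le_card fun k hk => ?_
        rw [Finset.mem_image] at hk
        obtain ⟨c, hc, hk⟩ := hk
        rw [Finset.mem_filter] at hc ⊢
        subst hk
        exact ⟨Finset.mem_image_of_mem _ hc.1, hc.2⟩
      have g9 : ((((blk 0 L).filter fun c => H253.nn (c - q) < r).card : ℕ) : ℝ) ≤
          2 * (r : ℝ) ^ 2 := by exact_mod_cast g7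
      linarith
    have := mul_le_mul_of_nonneg_left g5 (show 0 ≤ b / 2 by positivity)
    linarith
  have g5 : H856.qG b (blk 0 L) (y + z) ≤ 96 * b * r := by
    have := mul_le_mul_of_nonneg_left g3 (show 0 ≤ b / 2 by positivity)
    linarith
  have g6 : (1 + 1 / (1 / x)) * H856.qG b (blk 0 L) (y + z) ≤ (1 + x) * (96 * b * r) := by
    rw [one_div_one_div]
    exact mul_le_mul_of_nonneg_left g5 (by linarith)
  have g7 : 1 / x * H856.qG b (blk 0 L) z ≤ b * (4 * (r * x)) := by
    calc 1 / x * H856.qG b (blk 0 L) z ≤ 1 / x * (b * (4 * (r : ℝ) ^ 2)) :=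
          mul_le_mul_of_nonneg_left g4 (by positivity)
      _ = b * (4 * (r * x)) := by rw [← hxx]; field_simp
  have g8 : (1 + x) * (96 * b * r) ≤ 192 * b * (r * x) := by
    have : 0 ≤ 96 * b * r * (x - 1) := by
      have : 0 ≤ x - 1 := by linarith
      positivity
    nlinarith
  have g9 : Y * (4 * r) ≤ 4 * b * (r * x) := by
    calc Y * (4 * r) ≤ b * (4 * r) := mul_le_mul_of_nonneg_right hYb (by positivity)
      _ ≤ b * (4 * r) * x := by
          refine le_mul_of_one_le_right (by positivity) hx1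
      _ = _ := by ring
  rw [← hx]
  nlinarith

end H529

end Vale.Agent.P159
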