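import Vale.Agent.P159.H883.Prc1

/-!
P159 (helper529), module DOOR (1): **the rough part of a typical field is invisible**, abstract
part, letters of helper883's `Eng`.

`g (X + ι F) - g (ι F)` is `log Ψ(F)`; `l` is a tangent functional of `F ↦ g (X + ι F)` at `0`.
From CRUDE numbers (`g (2X) ≤ 2 c1`, `-g X ≤ A`, `R (4F) ≤ r`, `R (4 (S+1) ζ) ≤ r`, `|l F| ≤ L`,
`|l ζ| ≤ μ`):

`|log Ψ(F) - log Ψ(F - ζ)| ≤ (c1 + 2 A + 2 L + r) / S + 3 μ`.

(`Eng.door`).
-/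

open Finset

namespace Vale.Agent.P159.H883

variable {G E : Type*} [AddCommGroup G] [AddCommGroup E] [Module ℝ E] {ι : E →+ G} {g : G → ℝ}

/-- monotonicity of the real part in the amplitude -/
theorem Eng.R_smul_le (h : Eng ι g) (F : E) {c : ℝ} (h0 : 0 ≤ c) (h1 : c ≤ 1) :
    g (ι (c • F)) ≤ c * g (ι F) := by
  have h2 := h.cv 0 F 0 (a := c) (b := 1 - c) h0 (by linarith) (by ring)
  simpa [h.zero] using h2

/-- the real part of a half sum -/
theorem Eng.R_mid (h : Eng ι g) (F H : E) :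
    g (ι (F + H)) ≤ (g (ι ((2 : ℝ) • F)) + g (ι ((2 : ℝ) • H))) / 2 := by
  have h2 := h.cv 0 ((2 : ℝ) • F) ((2 : ℝ) • H) (a := 1 / 2) (b := 1 / 2) (by norm_num)
    (by norm_num) (by norm_num)
  have e : (1 / 2 : ℝ) • (2 : ℝ) • F + (1 / 2 : ℝ) • (2 : ℝ) • H = F + H := by
    rw [smul_smul, smul_smul]; norm_num
  rw [e] at h2
  simp only [zero_add] at h2
  linarith

theorem Eng.R_ng (h : Eng ι g) (F : E) : g (ι (-F)) = g (ι F) := by
  rw [map_neg, h.neg]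

/-- crude upper bound at every real background, from a tangent at `0` -/
theorem Eng.up_tangent (h : Eng ι g) (X : G) {l : E → ℝ} (hl : ∀ H, g X + l H ≤ g (X + ι H))
    (hln : ∀ H, l (-H) = -l H) {c1 A r : ℝ} (hc : g (X + X) ≤ 2 * c1) (hA : -g X ≤ A)
    (H : E) (hr : g (ι ((2 : ℝ) • H)) ≤ 2 * r) :
    g (X + ι H) ≤ c1 + A + r + l H := by
  have h1 := h.sym_le' X H
  have h2 : g X - l H ≤ g (X - ι H) := by
    have h3 := hl (-H)
    rw [hln, map_neg] at h3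
    rw [sub_eq_add_neg, sub_eq_add_neg]
    exact h3
  linarith

/-- **DOOR (abstract)** for `g` -/
theorem Eng.door_g (h : Eng ι g) (X : G) {l : E →ₗ[ℝ] ℝ} (hl : ∀ H, g X + l H ≤ g (X + ι H))
    {c1 A r L μ S : ℝ} (hS : 1 ≤ S) (hc : g (X + X) ≤ 2 * c1) (hA : -g X ≤ A) (F ζ : E)
    (hrF : g (ι ((4 : ℝ) • F)) ≤ r) (hrζ : g (ι ((4 * (S + 1)) • ζ)) ≤ r)
    (hL : |l F| ≤ L) (hμ : |l ζ| ≤ μ) :
    |g (X + ι F) - g (X + ι (F - ζ))| ≤ (c1 + 2 * A + r / 2 + 2 * L) / S + 3 * μ := by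
  have hS0 : 0 < S := by linarith
  have hln : ∀ H, l (-H) = -l H := fun H => map_neg l H
  have hr0 : 0 ≤ r := (h.R_nonneg _).trans hrF
  obtain ⟨hL1, hL2⟩ := abs_le.1 hL
  obtain ⟨hμ1, hμ2⟩ := abs_le.1 hμ
  have hμ0 : 0 ≤ μ := (abs_nonneg _).trans hμ
  -- lower bound at `F - ζ`
  have ha : -A - L - μ ≤ g (X + ι (F - ζ)) := by
    have := hl (F - ζ)
    rw [l.map_sub] at this
    linarith
  -- upper bounds at `F - ζ ± S ζ`
  have hR : ∀ c : ℝ, |c| ≤ S + 1 → g (ι ((2 : ℝ) • (F + c • ζ))) ≤ 2 * (r / 2) := by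
    intro c hc'
    have h1 := h.R_mid ((2 : ℝ) • F) ((2 * c) • ζ)
    have e1 : (2 : ℝ) • (F + c • ζ) = (2 : ℝ) • F + (2 * c) • ζ := by
      rw [smul_add, smul_smul]
    have e2 : (2 : ℝ) • (2 : ℝ) • F = (4 : ℝ) • F := by rw [smul_smul]; norm_num
    have e3 : (2 : ℝ) • (2 * c) • ζ = (4 * c) • ζ := by rw [smul_smul]; congr 1; ring
    rw [← e1, e2, e3] at h1
    have h2 : g (ι ((4 * c) • ζ)) ≤ r := by
      have hS1 : 0 < S + 1 := by linarith
      have key : g (ι ((4 * |c|) • ζ)) ≤ r := by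
        have h3 := h.R_smul_le ((4 * (S + 1)) • ζ) (c := |c| / (S + 1)) (by positivity)
          ((div_le_one hS1).2 hc')
        have e4 : (|c| / (S + 1)) • (4 * (S + 1)) • ζ = (4 * |c|) • ζ := by
          rw [smul_smul]; congr 1; field_simp
        rw [e4] at h3
        refine h3.trans ?_
        have h5 : |c| / (S + 1) ≤ 1 := (div_le_one hS1).2 hc'
        have h6 : 0 ≤ |c| / (S + 1) := by positivity
        have h7 := h.R_nonneg ((4 * (S + 1)) • ζ)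
        nlinarith
      rcases abs_cases c with ⟨h3, _⟩ | ⟨h3, _⟩
      · rwa [h3] at key
      · rw [h3] at key
        have e5 : (4 * -c) • ζ = -((4 * c) • ζ) := by rw [← neg_smul]; congr 1; ring
        rwa [e5, h.R_ng] at key
    linarith
  have hup : ∀ c : ℝ, |c| ≤ S + 1 → g (X + ι (F + c • ζ)) ≤ c1 + A + r / 2 + L + |c| * μ := by
    intro c hc'
    have h1 := h.up_tangent X hl hln hc hA (F + c • ζ) (hR c hc')
    rw [l.map_add, l.map_smul, smul_eq_mul] at h1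
    have h2 : c * l ζ ≤ |c| * μ := by
      calc c * l ζ ≤ |c * l ζ| := le_abs_self _
        _ = |c| * |l ζ| := abs_mul _ _
        _ ≤ |c| * μ := mul_le_mul_of_nonneg_left hμ (abs_nonneg _)
    linarith
  have e1 : F - ζ + S • ζ = F + (S - 1) • ζ := by rw [sub_smul, one_smul]; abel
  have e2 : F - ζ - S • ζ = F + (-(S + 1)) • ζ := by rw [neg_smul, add_smul, one_smul]; abel
  have hu1 : g (X + ι (F - ζ + S • ζ)) ≤ c1 + A + r / 2 + L + (S + 1) * μ := by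
    rw [e1]
    refine (hup (S - 1) (abs_le.2 ⟨by linarith, by linarith⟩)).trans ?_
    rw [abs_of_nonneg (by linarith)]
    nlinarith
  have hu2 : g (X + ι (F - ζ - S • ζ)) ≤ c1 + A + r / 2 + L + (S + 1) * μ := by
    rw [e2]
    refine (hup (-(S + 1)) (by rw [abs_neg, abs_of_nonneg (by linarith)])).trans ?_
    rw [abs_neg, abs_of_nonneg (by linarith : (0 : ℝ) ≤ S + 1)]
  have k1 := h.lip_le X (F - ζ) ζ hS ha hu1
  have k2 := h.lip_ge X (F - ζ) ζ hS ha hu2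
  rw [sub_add_cancel] at k1 k2
  have e3 : (c1 + A + r / 2 + L + (S + 1) * μ - (-A - L - μ)) / S =
      (c1 + 2 * A + r / 2 + 2 * L) / S + (S + 2) / S * μ := by
    field_simp
    ring
  rw [e3] at k1 k2
  have e4 : (S + 2) / S * μ ≤ 3 * μ := by
    refine mul_le_mul_of_nonneg_right ?_ hμ0
    rw [div_le_iff₀ hS0]
    linarith
  rw [abs_le]
  constructor <;> linarith

/-- DOOR for the real part -/
theorem Eng.door_R (h : Eng ι g) {r S : ℝ} (hS : 1 ≤ S) (F ζ : E)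
    (hrF : g (ι ((4 : ℝ) • F)) ≤ r) (hrζ : g (ι ((4 * (S + 1)) • ζ)) ≤ r) :
    |g (ι F) - g (ι (F - ζ))| ≤ r / S := by
  have h1 := h.door_g (X := 0) (l := 0) (fun H => by
    rw [h.zero, LinearMap.zero_apply, zero_add, zero_add]
    exact h.R_nonneg H) (c1 := 0) (A := 0) (r := r) (L := 0) (μ := 0) hS (by simp [h.zero])
    (by simp [h.zero]) F ζ hrF hrζ (by simp) (by simp)
  simp only [zero_add, mul_zero, add_zero] at h1
  refine h1.trans ?_
  have hr0 : 0 ≤ r := (h.R_nonneg _).trans hrF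
  exact div_le_div_of_nonneg_right (by linarith) (by linarith)

/-- **DOOR (abstract)** for `log Ψ` -/
theorem Eng.door (h : Eng ι g) (X : G) {l : E →ₗ[ℝ] ℝ} (hl : ∀ H, g X + l H ≤ g (X + ι H))
    {c1 A r L μ S : ℝ} (hS : 1 ≤ S) (hc : g (X + X) ≤ 2 * c1) (hA : -g X ≤ A) (F ζ : E)
    (hrF : g (ι ((4 : ℝ) • F)) ≤ r) (hrζ : g (ι ((4 * (S + 1)) • ζ)) ≤ r)
    (hL : |l F| ≤ L) (hμ : |l ζ| ≤ μ) :
    |(g (X + ι F) - g (ι F)) - (g (X + ι (F - ζ)) - g (ι (F - ζ)))| ≤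
      (c1 + 2 * A + 2 * r + 2 * L) / S + 3 * μ := by
  have hS0 : 0 < S := by linarith
  have h1 := h.door_g X hl hS hc hA F ζ hrF hrζ hL hμ
  have h2 := h.door_R hS F ζ hrF hrζ
  have hr0 : 0 ≤ r := (h.R_nonneg _).trans hrF
  have e : (c1 + 2 * A + 2 * r + 2 * L) / S =
      (c1 + 2 * A + r / 2 + 2 * L) / S + (3 / 2 * r) / S := by
    rw [← add_div]; congr 1; ring
  have h3 : r / S ≤ (3 / 2 * r) / S := div_le_div_of_nonneg_right (by linarith) hS0.le
  rw [e]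
  rw [abs_le] at h1 h2 ⊢
  constructor <;> linarith [h1.1, h1.2, h2.1, h2.2]

end Vale.Agent.P159.H883
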