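import Vale.Agent.P159.H529.Dor1
import Vale.Agent.P159.H856.Dl3
import Vale.Agent.P159.H552.Tl4

/-!
P159 (helper529), module DOOR (2): **the rough part of a typical field is invisible**, letters of
the neutral model (`gP`, `Psi`, `lD`, `Rw`).

`door_nu` : for every pair of real fields `F`, `F'` with
`R(4F) ≤ r`, `R(4(S+1)(F - F')) ≤ r`, `|lD F| ≤ L`, `|lD (F - F')| ≤ μ` :
`|log Ψ(F) - log Ψ(F')| ≤ (2 (Del - log CW) + 2 r + 2 L) / S + 3 μ`.
(`F'` = the smoothed field `T F`.)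
-/

set_option linter.unusedSectionVars false

namespace Vale.Agent.P159.H529.Dor

open Finset Matrix MeasureTheory
open Vale.Agent.P159.TM.H104 (EM nh Ex li)
open Vale.Agent.P159.H37 (qf bf Zn re gau Rs Gm)
open Vale.Agent.P159.H963 (GrI pin MF ntr GW Neu nM An)
open Vale.Agent.P159.H770 (GWF RsD DisF)
open Vale.Agent.P159.H883
open Vale.Agent.P159.H856.Dl (CW Del lD pD cD gP_split pD_nonneg lD_add lD_smul CW_pos lD_eq lin)
open Vale.Agent.P159.H552.Sm (Px Rw Gx CX)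

noncomputable section

variable {V : Type} [Fintype V] [DecidableEq V] [Nonempty V]
variable {β : Type} [AddCommGroup β] {W : β → (V → ℤ) → ℝ} {M : Matrix V V ℝ} {m : ℝ}

/-- `lD` as a linear map -/
def lDL (hW : GWF W) (hM : MF M m) (x₀ : V) (b : β) (φ : V → ℝ) : (V → ℝ) →ₗ[ℝ] ℝ where
  toFun := lD W M m x₀ b φ
  map_add' := lD_add hW hM x₀ b φ
  map_smul' := fun s F => by simpa using lD_smul x₀ b φ F s

/-- `lD` is a tangent -/
theorem lD_tan (hW : GWF W) (hM : MF M m) (x₀ : V) (b : β) (φ H : V → ℝ) :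
    gP W M m x₀ ((b, φ), 0) + lD W M m x₀ b φ H ≤ gP W M m x₀ ((b, φ), H) := by
  rw [gP_split hW hM x₀ b φ H]
  linarith [pD_nonneg hW hM x₀ b φ H]

/-- the double charge at the zero background -/
theorem gP_dbl (hW : GWF W) (hE : ∀ b x₀, EM (pin (W b) x₀)) (hM : MF M m) (x₀ : V) (b : β)
    (φ : V → ℝ) {c1 : ℝ} (hC : Real.log (CW W x₀ (b + b)) ≤ 2 * c1) :
    gP W M m x₀ ((b + b, φ + φ), 0) ≤ 2 * c1 := by
  refine le_trans ?_ hC
  rw [gP_smooth hW hM]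
  exact Real.log_le_log (div_pos (hW.Zn_pos hM _ _) (hW.Zn_pos hM _ _))
    (Psi_zero_le hW hE hM x₀ (b + b) (φ + φ))

/-- **DOOR**, letters `gP`, any tangent functional -/
theorem door_tan (hW : GWF W) (hE : ∀ b x₀, EM (pin (W b) x₀)) (hM : MF M m) (x₀ : V) (b : β)
    (φ : V → ℝ) {l : (V → ℝ) →ₗ[ℝ] ℝ}
    (hl : ∀ H, gP W M m x₀ ((b, φ), 0) + l H ≤ gP W M m x₀ ((b, φ), H))
    {c1 A r L μ S : ℝ} (hS : 1 ≤ S) (hC : Real.log (CW W x₀ (b + b)) ≤ 2 * c1)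
    (hA : -gP W M m x₀ ((b, φ), 0) ≤ A) (F F' : V → ℝ)
    (hrF : Rw W M m x₀ ((4 : ℝ) • F) ≤ r) (hrζ : Rw W M m x₀ ((4 * (S + 1)) • (F - F')) ≤ r)
    (hL : |l F| ≤ L) (hμ : |l (F - F')| ≤ μ) :
    |Real.log (Px W M (b, φ) F) - Real.log (Px W M (b, φ) F')| ≤
      (c1 + 2 * A + 2 * r + 2 * L) / S + 3 * μ := by
  have hEng := eng_neu (x₀ := x₀) hW hM
  have e0 : ∀ H : V → ℝ, (((b, φ), 0) : (β × (V → ℝ)) × (V → ℝ)) + rP β V H = ((b, φ), H) := by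
    intro H
    rw [rP_apply]
    simp
  have h := hEng.door ((b, φ), 0) (l := l) (fun H => by rw [e0]; exact hl H) hS
    (c1 := c1) (A := A) (r := r) (L := L) (μ := μ) (by
      have := gP_dbl hW hE hM x₀ b φ hC
      simpa using this) hA F (F - F')
    (by rw [gP_real hW hM]; exact hrF) (by rw [gP_real hW hM]; exact hrζ) hL hμ
  have e1 : F - (F - F') = F' := by abel
  rw [e1, e0, e0, gP_real hW hM, gP_real hW hM] at h
  rw [H552.Sm.log_Px (x₀ := x₀) hW hM, H552.Sm.log_Px (x₀ := x₀) hW hM]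
  exact h

/-- **DOOR**, letters `Del`, `CW`, `lD` -/
theorem door_nu (hW : GWF W) (hE : ∀ b x₀, EM (pin (W b) x₀)) (hM : MF M m) (x₀ : V) (b : β)
    (φ : V → ℝ) {r L μ S : ℝ} (hS : 1 ≤ S) (hC : CW W x₀ (b + b) ≤ 1) (F F' : V → ℝ)
    (hrF : Rw W M m x₀ ((4 : ℝ) • F) ≤ r) (hrζ : Rw W M m x₀ ((4 * (S + 1)) • (F - F')) ≤ r)
    (hL : |lD W M m x₀ b φ F| ≤ L) (hμ : |lD W M m x₀ b φ (F - F')| ≤ μ) :
    |Real.log (Px W M (b, φ) F) - Real.log (Px W M (b, φ) F')| ≤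
      (2 * (Del W M m x₀ b φ - Real.log (CW W x₀ b)) + 2 * r + 2 * L) / S + 3 * μ := by
  have h := door_tan hW hE hM x₀ b φ (l := lDL hW hM x₀ b φ) (fun H => lD_tan hW hM x₀ b φ H)
    (c1 := 0) (A := Del W M m x₀ b φ - Real.log (CW W x₀ b)) (r := r) (L := L) (μ := μ) hS
    (by
      rw [mul_zero]
      exact Real.log_nonpos (CW_pos hW hE x₀ _).le hC)
    (by unfold Del; linarith) F F' hrF hrζ hL hμ
  rw [zero_add] at h
  exact h

end

end Vale.Agent.P159.H529.Dor
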