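import Vale.Agent.P159.H529.Dor2
import Vale.Agent.P159.H27.Ub1

/-!
P159 (helper529), module DOOR (3): the torus. `wD = cD / t` is the mean profile of the dislocated
massive law (`lD F = t ∑ wD F`).

* `CW_le_one` : `CW ≤ 1`;
* `grad_tan` : `nrm (gr wD + η + gr φ) ≤ (b + Del - log CW)²` (crude, every dislocation, every real
  part);
* `door_tor` : DOOR on the torus.
-/

set_option linter.unusedSectionVars false

namespace Vale.Agent.P159.H529.Dor

open Finset Matrix MeasureTheory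
open Vale.Agent.P159.TM.H104 (EM nh Ex li)
open Vale.Agent.P159.H37 (qf bf Zn re gau Rs Gm)
open Vale.Agent.P159.H963 (GrI pin MF ntr GW Neu nM An nwt)
open Vale.Agent.P159.H770 (GWF RsD DisF wTD gwf_wTD wTD_zero Ed eS eT)
open Vale.Agent.P159.TM.SpecC (Tor wT)
open Vale.Agent.P159.H883
open Vale.Agent.P159.H856.Dl (CW Del lD pD cD gP_split pD_nonneg lD_add lD_smul CW_pos lD_eq lin
  sum_cD An_le_ntr)
open Vale.Agent.P159.H552.Sm (Px Rw Gx CX)
open Vale.Agent.P159.H817 (gr dv nrm parts)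
open Vale.Agent.P159.H27 (exb_one ub0_Zn' ntr_smul_dv sum_dv)

noncomputable section

variable {N : ℕ} [NeZero N] {b t : ℝ}

/-- the torus number `CW` is at most one -/
theorem CW_le_one (hN : 2 ≤ N) (hb : 0 < b) (η : Ed N → ℤ) : CW (wTD N b) 0 η ≤ 1 := by
  have h := exb_one hN hb.le η (fun _ => (0 : ℝ))
  unfold H27.EXB at h
  simp only [zero_mul, Finset.sum_const_zero, Real.exp_zero, mul_one, Real.cosh_zero, sub_self,
    mul_zero, one_mul] at h
  have hz := (gwf_bw (gwf_wTD (N := N) hb) (em_pin_wTD hb) 0).Zp_pos (0 : Tor N)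
  unfold CW
  rw [div_le_one hz, wTD_zero]
  exact h

/-- profile of the linear functional -/
def wD (N : ℕ) [NeZero N] (b t : ℝ) (η : Ed N → ℤ) (φ : Tor N → ℝ) (x : Tor N) : ℝ :=
  cD (wTD N b) (t • (1 : Matrix (Tor N) (Tor N) ℝ)) t 0 η φ x / t

theorem lD_wD (hb : 0 < b) (ht : 0 < t) (η : Ed N → ℤ) (φ F : Tor N → ℝ) :
    lD (wTD N b) (t • (1 : Matrix (Tor N) (Tor N) ℝ)) t 0 η φ F = t * ∑ x, wD N b t η φ x * F x := by
  rw [lD_eq (gwf_wTD hb) (H963.mf_smul ht)]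
  unfold lin wD
  rw [Finset.mul_sum]
  refine Finset.sum_congr rfl fun x _ => ?_
  field_simp

theorem sum_wD (hb : 0 < b) (ht : 0 < t) (η : Ed N → ℤ) (φ : Tor N → ℝ) :
    ∑ x, wD N b t η φ x = 0 := by
  unfold wD
  rw [← Finset.sum_div, sum_cD (gwf_wTD hb) (em_pin_wTD hb) (H963.mf_smul ht), zero_div]

/-- `gP` on the divergence of a flow -/
theorem gP_flow (hN : 2 ≤ N) (hb : 0 < b) (ht : 0 < t) (η : Ed N → ℤ) (φ : Tor N → ℝ)
    (j : Ed N → ℝ) :
    gP (wTD N b) (t • (1 : Matrix (Tor N) (Tor N) ℝ)) t 0 ((η, φ), t⁻¹ • dv j) ≤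
      b * ∑ e : Ed N, (Real.cosh (j e) - 1) - ∑ e : Ed N, j e * ((η e : ℝ) + gr φ e) := by
  have hW := gwf_wTD (N := N) hb
  have hM := H963.mf_smul (N := N) ht
  have h := ub0_Zn' hN hb ht η j φ (t⁻¹ • dv j) (fun _ => 0) (fun x => by
    simp only [Pi.smul_apply, smul_eq_mul, zero_add]
    field_simp)
  have e1 : (fun x => φ x + (t⁻¹ • dv j) x) = φ + t⁻¹ • dv j := rfl
  rw [e1] at h
  have z1 := hW.Zn_pos hM η (φ + t⁻¹ • dv j)
  have z0 := hW.Zn_pos hM 0 (0 : Tor N → ℝ)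
  rw [wTD_zero] at z0
  have h2 := Real.log_le_log z1 h
  rw [Real.log_mul (Real.exp_pos _).ne' z0.ne', Real.log_exp] at h2
  have h3 := An_le_ntr hW hM (0 : Tor N) (t⁻¹ • dv j)
  have h4 : qf (ntr (t • (1 : Matrix (Tor N) (Tor N) ℝ)) t) (t⁻¹ • dv j) =
      t * ∑ x, (t⁻¹ • dv j) x ^ 2 := by
    rw [H37.qf_eq, ntr_smul_dv ht]
    unfold dotProduct
    rw [Finset.mul_sum]
    refine Finset.sum_congr rfl fun x _ => ?_
    simp only [Pi.smul_apply, smul_eq_mul]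
    field_simp
  unfold gP
  simp only [wTD_zero] at h3 ⊢
  simp only [ne_eq, OfNat.ofNat_ne_zero, not_false_eq_true, zero_pow, Finset.sum_const_zero,
    zero_div, add_zero] at h2
  linarith

/-- **crude bound of the gradient of the profile** -/
theorem grad_tan (hN : 2 ≤ N) (hb : 0 < b) (ht : 0 < t) (η : Ed N → ℤ) (φ : Tor N → ℝ) :
    nrm (fun e => gr (wD N b t η φ) e + ((η e : ℝ) + gr φ e)) ≤
      (b + (Del (wTD N b) (t • (1 : Matrix (Tor N) (Tor N) ℝ)) t 0 η φ -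
        Real.log (CW (wTD N b) 0 η))) ^ 2 := by
  have hW := gwf_wTD (N := N) hb
  have hM := H963.mf_smul (N := N) ht
  set A := Del (wTD N b) (t • (1 : Matrix (Tor N) (Tor N) ℝ)) t 0 η φ -
    Real.log (CW (wTD N b) 0 η) with hA
  have hA' : gP (wTD N b) (t • (1 : Matrix (Tor N) (Tor N) ℝ)) t 0 ((η, φ), 0) = -A := by
    rw [hA]; unfold Del; ring
  have key : ∀ j : Ed N → ℝ,
      ∑ e : Ed N, j e * (gr (wD N b t η φ) e + ((η e : ℝ) + gr φ e)) ≤
        A + b * ∑ e : Ed N, (Real.cosh (j e) - 1) := by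
    intro j
    have h1 := (lD_tan hW hM (0 : Tor N) η φ (t⁻¹ • dv j)).trans (gP_flow hN hb ht η φ j)
    rw [hA', lD_wD hb ht] at h1
    have h2 : t * ∑ x, wD N b t η φ x * (t⁻¹ • dv j) x =
        ∑ e : Ed N, j e * gr (wD N b t η φ) e := by
      rw [parts, Finset.mul_sum]
      refine Finset.sum_congr rfl fun x _ => ?_
      simp only [Pi.smul_apply, smul_eq_mul]
      field_simp
    rw [h2] at h1
    have h3 : ∑ e : Ed N, j e * (gr (wD N b t η φ) e + ((η e : ℝ) + gr φ e)) =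
        ∑ e : Ed N, j e * gr (wD N b t η φ) e + ∑ e : Ed N, j e * ((η e : ℝ) + gr φ e) := by
      rw [← Finset.sum_add_distrib]
      exact Finset.sum_congr rfl fun e _ => by ring
    rw [h3]
    linarith
  set v : Ed N → ℝ := fun e => gr (wD N b t η φ) e + ((η e : ℝ) + gr φ e) with hv
  have hn : nrm v = ∑ e, v e ^ 2 := rfl
  have hn0 : 0 ≤ nrm v := Finset.sum_nonneg fun e _ => sq_nonneg _
  rcases hn0.eq_or_lt with h0 | h0
  · rw [← h0]; exact sq_nonneg _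
  set s := Real.sqrt (nrm v) with hs
  have hs0 : 0 < s := Real.sqrt_pos.2 h0
  have hs2 : s ^ 2 = nrm v := Real.sq_sqrt hn0
  have h1 := key fun e => v e / s
  have h2 : ∑ e : Ed N, v e / s * v e = s := by
    have : ∑ e : Ed N, v e / s * v e = (∑ e, v e ^ 2) / s := by
      rw [Finset.sum_div]
      exact Finset.sum_congr rfl fun e _ => by ring
    rw [this, ← hn, ← hs2]
    field_simp
  have h3 : ∑ e : Ed N, (Real.cosh (v e / s) - 1) ≤ 1 := by
    have h4 : ∀ e : Ed N, Real.cosh (v e / s) - 1 ≤ (v e / s) ^ 2 := by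
      intro e
      refine H513.cosh_sub_le_sq ?_
      rw [abs_div, abs_of_pos hs0, div_le_one hs0]
      refine abs_le_of_sq_le_sq ?_ hs0.le
      rw [hs2, hn]
      exact Finset.single_le_sum (f := fun e => v e ^ 2) (fun _ _ => sq_nonneg _)
        (Finset.mem_univ e)
    refine (Finset.sum_le_sum fun e _ => h4 e).trans (le_of_eq ?_)
    have : ∑ e : Ed N, (v e / s) ^ 2 = (∑ e, v e ^ 2) / s ^ 2 := by
      rw [Finset.sum_div]
      exact Finset.sum_congr rfl fun e _ => by rw [div_pow]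
    rw [this, hs2, ← hn, div_self h0.ne']
  have h5 : s ≤ b + A := by
    have h6 : ∑ e : Ed N, v e / s * v e ≤ A + b * ∑ e : Ed N, (Real.cosh (v e / s) - 1) := h1
    rw [h2] at h6
    have h7 := mul_le_mul_of_nonneg_left h3 hb.le
    linarith
  rw [← hs2]
  exact pow_le_pow_left₀ hs0.le h5 2

lemma grd_nrm (u : Tor N → ℝ) : TM.H764.grd u = nrm (gr u) := by
  have h1 : nrm (gr u) = ∑ x : Tor N, ∑ c : Bool, gr u (x, c) ^ 2 := by
    unfold nrm
    exact Fintype.sum_prod_type _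
  rw [h1]
  unfold TM.H764.grd TM.H764.Q
  rw [← Finset.sum_add_distrib]
  refine Finset.sum_congr rfl fun x _ => ?_
  rw [Fintype.sum_bool]
  simp only [H817.gr_true, H817.gr_false]
  rw [add_comm]
  rfl

/-- the Dirichlet energy of the profile -/
theorem grd_wD (hN : 2 ≤ N) (hb : 0 < b) (ht : 0 < t) (η : Ed N → ℤ) (φ : Tor N → ℝ) :
    TM.H764.grd (wD N b t η φ) ≤
      2 * (b + (Del (wTD N b) (t • (1 : Matrix (Tor N) (Tor N) ℝ)) t 0 η φ -
        Real.log (CW (wTD N b) 0 η))) ^ 2 + 2 * nrm (fun e => (η e : ℝ) + gr φ e) := by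
  have h := grad_tan hN hb ht η φ
  rw [grd_nrm]
  have h1 : nrm (gr (wD N b t η φ)) ≤
      2 * nrm (fun e => gr (wD N b t η φ) e + ((η e : ℝ) + gr φ e)) +
        2 * nrm (fun e => (η e : ℝ) + gr φ e) := by
    unfold nrm
    rw [Finset.mul_sum, Finset.mul_sum, ← Finset.sum_add_distrib]
    refine Finset.sum_le_sum fun e _ => ?_
    nlinarith [sq_nonneg (gr (wD N b t η φ) e + 2 * ((η e : ℝ) + gr φ e))]
  linarith

/-- **DOOR on the torus** -/
theorem door_tor (hN : 2 ≤ N) (hb : 0 < b) (ht : 0 < t) (η : Ed N → ℤ) (φ : Tor N → ℝ)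
    {r L μ S : ℝ} (hS : 1 ≤ S) (F F' : Tor N → ℝ)
    (hrF : Rs (nwt N b t 0) (ntr (t • (1 : Matrix (Tor N) (Tor N) ℝ)) t *ᵥ ((4 : ℝ) • F)) ≤ r)
    (hrζ : Rs (nwt N b t 0) (ntr (t • (1 : Matrix (Tor N) (Tor N) ℝ)) t *ᵥ
      ((4 * (S + 1)) • (F - F'))) ≤ r)
    (hL : |t * ∑ x, wD N b t η φ x * F x| ≤ L)
    (hμ : |t * ∑ x, wD N b t η φ x * (F x - F' x)| ≤ μ) :
    |Real.log (Psi (wT b N) (wTD N b η) (t • (1 : Matrix (Tor N) (Tor N) ℝ)) φ F) -
      Real.log (Psi (wT b N) (wTD N b η) (t • (1 : Matrix (Tor N) (Tor N) ℝ)) φ F')| ≤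
      (2 * (Del (wTD N b) (t • (1 : Matrix (Tor N) (Tor N) ℝ)) t 0 η φ -
        Real.log (CW (wTD N b) 0 η)) + 2 * r + 2 * L) / S + 3 * μ := by
  have hW := gwf_wTD (N := N) hb
  have hM := H963.mf_smul (N := N) ht
  have e0 : ∀ G : Tor N → ℝ, Rw (wTD N b) (t • (1 : Matrix (Tor N) (Tor N) ℝ)) t 0 G =
      Rs (nwt N b t 0) (ntr (t • (1 : Matrix (Tor N) (Tor N) ℝ)) t *ᵥ G) := by
    intro G
    unfold Rw nwt
    rw [wTD_zero]
  have h := door_nu hW (em_pin_wTD hb) hM (0 : Tor N) η φ (r := r) (L := L) (μ := μ) hS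
    (CW_le_one hN hb (η + η)) F F' (by rw [e0]; exact hrF) (by rw [e0]; exact hrζ)
    (by rw [lD_wD hb ht]; exact hL) (by
      rw [lD_wD hb ht]
      exact hμ)
  unfold Px at h
  rw [wTD_zero] at h
  exact h

end

end Vale.Agent.P159.H529.Dor
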