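import Vale.Agent.P159.H529.Til

/-!
Graded tilings: squares whose side is small compared with the distance to a core.
-/

open MeasureTheory Filter Topology
open scoped BigOperators

namespace Vale.Agent.P159

namespace H529

open UJ

/-- distance required for a square of level `k` -/
def DD (l0 a k : ℕ) : ℕ := l0 * 2 ^ a * ((k + 1) ^ 2 * 2 ^ k)

/-- the square of level `k` with corner `c` is at distance at least `DD l0 a k` of the core
of side `l0 * 2 ^ a` with corner `w` -/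
def Far (l0 a : ℕ) (w : ℤ × ℤ) (k : ℕ) (c : ℤ × ℤ) : Prop :=
  w.1 + (l0 * 2 ^ a : ℕ) + DD l0 a k ≤ c.1 ∨ c.1 + (l0 * 2 ^ k : ℕ) + DD l0 a k ≤ w.1 ∨
    w.2 + (l0 * 2 ^ a : ℕ) + DD l0 a k ≤ c.2 ∨ c.2 + (l0 * 2 ^ k : ℕ) + DD l0 a k ≤ w.2

instance (l0 a : ℕ) (w : ℤ × ℤ) (k : ℕ) (c : ℤ × ℤ) : Decidable (Far l0 a w k c) := by
  unfold Far
  infer_instance

/-- squares which are not subdivided -/
def Gd (l0 a : ℕ) (w : ℤ × ℤ) (k : ℕ) (c : ℤ × ℤ) : Prop := Far l0 a w k c ∨ (k = a ∧ c = w)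

instance (l0 a : ℕ) (w : ℤ × ℤ) (k : ℕ) (c : ℤ × ℤ) : Decidable (Gd l0 a w k c) := by
  unfold Gd
  infer_instance

/-- the graded tiling of the square of level `k` with corner `c` -/
noncomputable def gr (l0 a : ℕ) (w : ℤ × ℤ) : ℕ → ℤ × ℤ → Finset (ℕ × (ℤ × ℤ))
  | 0, c => {(l0, c)}
  | k + 1, c => if Gd l0 a w (k + 1) c then {(l0 * 2 ^ (k + 1), c)} else
      (cells 2).biUnion fun z => gr l0 a w k (c + cor (l0 * 2 ^ k) z)

theorem gr_tl {l0 a : ℕ} (hl : 1 ≤ l0) (w : ℤ × ℤ) (k : ℕ) :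
    ∀ c : ℤ × ℤ, Tl (gr l0 a w k c) (l0 * 2 ^ k) c := by
  induction k with
  | zero =>
    intro c
    rw [pow_zero, mul_one]
    exact Tl.single l0 c hl
  | succ k ih =>
    intro c
    unfold gr
    split_ifs with h
    · exact Tl.single _ c (Nat.mul_pos hl (by positivity))
    · rw [pow_succ, ← mul_assoc]
      exact Tl.split 2 (l0 * 2 ^ k) c _ (Nat.mul_pos hl (by positivity)) (by norm_num)
        fun z _ => ih _

/-- the squares of the graded tiling -/
theorem mem_gr {l0 a : ℕ} {w : ℤ × ℤ} (K : ℕ) : ∀ c : ℤ × ℤ, ∀ κ ∈ gr l0 a w K c,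
    (κ = (l0 * 2 ^ K, c) ∧ (K = 0 ∨ Gd l0 a w K c)) ∨
    ∃ k < K, ∃ c' : ℤ × ℤ, ¬ Gd l0 a w (k + 1) c' ∧ κ.1 = l0 * 2 ^ k ∧
      Sub κ (l0 * 2 ^ (k + 1)) c' ∧ (k = 0 ∨ Gd l0 a w k κ.2) := by
  induction K with
  | zero =>
    intro c κ hκ
    left
    unfold gr at hκ
    rw [Finset.mem_singleton] at hκ
    rw [pow_zero, mul_one]
    exact ⟨hκ, Or.inl rfl⟩
  | succ K ih =>
    intro c κ hκ
    unfold gr at hκ
    split_ifs at hκ with h
    · rw [Finset.mem_singleton] at hκ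
      exact Or.inl ⟨hκ, Or.inr h⟩
    · right
      rw [Finset.mem_biUnion] at hκ
      obtain ⟨z, hz, hκ⟩ := hκ
      rcases ih _ κ hκ with ⟨h1, h2⟩ | ⟨k, hk, c', h1, h2, h3, h4⟩
      · refine ⟨K, Nat.lt_succ_self K, c, h, by rw [h1], ?_, ?_⟩
        · rw [h1, pow_succ, ← mul_assoc]
          exact cor_sub hz c
        · rw [h1]; exact h2
      · exact ⟨k, by omega, c', h1, h2, h3, h4⟩

/-- the core is a square of the tiling -/
theorem core_mem {l0 a : ℕ} (hl : 1 ≤ l0) {w : ℤ × ℤ} (j : ℕ) : ∀ c z : ℤ × ℤ,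
    w = c + cor (l0 * 2 ^ a) z → z ∈ cells (2 ^ j) →
      (l0 * 2 ^ a, w) ∈ gr l0 a w (a + j) c := by
  induction j with
  | zero =>
    intro c z hw hz
    have hz0 : z = 0 := by
      rw [mem_cells] at hz
      obtain ⟨⟨h1, h2⟩, h3, h4⟩ := hz
      rw [pow_zero] at h2 h4
      ext
      · show z.1 = 0
        push_cast at h2
        omega
      · show z.2 = 0
        push_cast at h4
        omega
    have hcw : c = w := by
      rw [hw, hz0]
      unfold cor
      simp
    subst hcw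
    rw [add_zero]
    cases a with
    | zero =>
      unfold gr
      rw [pow_zero, mul_one, Finset.mem_singleton]
    | succ a =>
      unfold gr
      have hg : Gd l0 (a + 1) c (a + 1) c := Or.inr ⟨rfl, rfl⟩
      rw [if_pos hg, Finset.mem_singleton]
  | succ j ih =>
    intro c z hw hz
    have hs : 1 ≤ l0 * 2 ^ a := Nat.mul_pos hl (by positivity)
    have hw' : w ∈ clB (l0 * 2 ^ (a + (j + 1))) c ∧ Sub (l0 * 2 ^ a, w) (l0 * 2 ^ (a + (j + 1))) c := by
      have h := cor_sub hz c (l := l0 * 2 ^ a)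
      rw [← hw] at h
      have e : l0 * 2 ^ a * 2 ^ (j + 1) = l0 * 2 ^ (a + (j + 1)) := by rw [mul_assoc, ← pow_add]
      rw [e] at h
      refine ⟨?_, h⟩
      rw [mem_clB']
      unfold Sub at h
      simp only at h
      omega
    rw [mem_cells] at hz
    obtain ⟨⟨h1, h2⟩, h3, h4⟩ := hz
    push_cast at h2 h4
    have hp : (0 : ℤ) < 2 ^ j := by positivity
    have e : a + (j + 1) = (a + j) + 1 := by ring
    rw [e]
    unfold gr
    rw [if_neg]
    · rw [Finset.mem_biUnion]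
      refine ⟨(z.1 / 2 ^ j, z.2 / 2 ^ j), ?_, ?_⟩
      · rw [mem_cells]
        simp only
        refine ⟨⟨Int.ediv_nonneg h1 hp.le, ?_⟩, Int.ediv_nonneg h3 hp.le, ?_⟩
        · rw [Int.ediv_lt_iff_lt_mul hp]
          rw [pow_succ] at h2
          push_cast
          linarith
        · rw [Int.ediv_lt_iff_lt_mul hp]
          rw [pow_succ] at h4
          push_cast
          linarith
      · refine ih _ (z.1 % 2 ^ j, z.2 % 2 ^ j) ?_ ?_
        · rw [hw]
          unfold cor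
          have e1 := Int.mul_ediv_add_emod z.1 (2 ^ j)
          have e2 := Int.mul_ediv_add_emod z.2 (2 ^ j)
          ext
          · simp only [Prod.fst_add]
            push_cast
            rw [pow_add]
            nth_rw 1 [← e1]
            ring
          · simp only [Prod.snd_add]
            push_cast
            rw [pow_add]
            nth_rw 1 [← e2]
            ring
        · rw [mem_cells]
          simp only
          push_cast
          exact ⟨⟨Int.emod_nonneg _ hp.ne', Int.emod_lt_of_pos _ hp⟩,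
            Int.emod_nonneg _ hp.ne', Int.emod_lt_of_pos _ hp⟩
    · intro hg
      rcases hg with hg | hg
      · have h5 := hw'.2
        rw [e] at h5
        unfold Far at hg
        unfold Sub at h5
        simp only at h5
        omega
      · omega

/-- a square which contains the core is subdivided -/
theorem not_gd {l0 a : ℕ} (hl : 1 ≤ l0) {w c : ℤ × ℤ} {K : ℕ} (hK : a < K)
    (h : Sub (l0 * 2 ^ a, w) (l0 * 2 ^ K) c) : ¬ Gd l0 a w K c := by
  intro hg
  have hs : 1 ≤ l0 * 2 ^ a := Nat.mul_pos hl (by positivity)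
  rcases hg with hg | hg
  · unfold Far at hg
    unfold Sub at h
    simp only at h
    omega
  · omega

/-- the squares of the graded tiling of a square containing the core, other than the core -/
theorem mem_gr' {l0 a : ℕ} (hl : 1 ≤ l0) {w c : ℤ × ℤ} {K : ℕ} (hK : a < K)
    (h : Sub (l0 * 2 ^ a, w) (l0 * 2 ^ K) c) {κ : ℕ × (ℤ × ℤ)} (hκ : κ ∈ gr l0 a w K c)
    (hne : κ ≠ (l0 * 2 ^ a, w)) :
    ∃ k < K, κ.1 = l0 * 2 ^ k ∧ (k = 0 ∨ Far l0 a w k κ.2) ∧
      (w.1 - (l0 * 2 ^ (k + 1) : ℕ) - DD l0 a (k + 1) < κ.2.1 ∧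
        κ.2.1 + κ.1 < w.1 + (l0 * 2 ^ a : ℕ) + (l0 * 2 ^ (k + 1) : ℕ) + DD l0 a (k + 1)) ∧
      (w.2 - (l0 * 2 ^ (k + 1) : ℕ) - DD l0 a (k + 1) < κ.2.2 ∧
        κ.2.2 + κ.1 < w.2 + (l0 * 2 ^ a : ℕ) + (l0 * 2 ^ (k + 1) : ℕ) + DD l0 a (k + 1)) := by
  rcases mem_gr K c κ hκ with ⟨_, h2⟩ | ⟨k, hk, c', h1, h2, h3, h4⟩
  · exfalso
    rcases h2 with h2 | h2
    · omega
    · exact not_gd hl hK h h2
  · refine ⟨k, hk, h2, ?_, ?_⟩
    · rcases h4 with h4 | h4 | ⟨h4, h5⟩
      · exact Or.inl h4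
      · exact Or.inr h4
      · exfalso
        apply hne
        ext
        · simp only
          rw [h2, h4]
        · simp only; rw [h5]
        · simp only; rw [h5]
    · have h5 : ¬ Far l0 a w (k + 1) c' := fun h => h1 (Or.inl h)
      unfold Far at h5
      push Not at h5
      unfold Sub at h3
      omega

end H529

end Vale.Agent.P159
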