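import Vale.Agent.P159.H529.Reg
import Vale.Agent.P159.H529.Grad
import Vale.Agent.P159.H529.Cell
import Vale.Agent.P159.Bdl.B9

/-!
Energy of a vortex in a graded tiling.
-/

open MeasureTheory Filter Topology
open scoped BigOperators

namespace Vale.Agent.P159

namespace H529

open UJ

/-- summation by parts -/
theorem abel {ι : Type*} (T : Finset ι) (E : ι → ℝ) (lev : ι → ℕ) (S : ℕ → ℝ) (n : ℕ)
    (hS : ∀ k, S (k + 1) ≤ S k) (hSn : 0 ≤ S n) (hlev : ∀ κ ∈ T, lev κ ≤ n) (F : ℕ → ℝ)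
    (G : ℝ) (h1 : ∀ j < n, ∑ κ ∈ T.filter (fun κ => lev κ ≤ j), E κ ≤ F j)
    (h2 : ∑ κ ∈ T, E κ ≤ G) :
    ∑ κ ∈ T, S (lev κ) * E κ ≤ S n * G + ∑ j ∈ Finset.range n, (S j - S (j + 1)) * F j := by
  have key : ∀ m k : ℕ, k ≤ m → S k = S m + ∑ j ∈ Finset.range m,
      (if k ≤ j then S j - S (j + 1) else 0) := by
    intro m
    induction m with
    | zero =>
      intro k hk
      have : k = 0 := by omega
      subst this
      simp
    | succ m ih =>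
      intro k hk
      rw [Finset.sum_range_succ]
      by_cases hkm : k ≤ m
      · rw [if_pos hkm]
        have := ih k hkm
        linarith
      · have hk' : k = m + 1 := by omega
        subst hk'
        rw [if_neg hkm, Finset.sum_eq_zero]
        · ring
        · intro j hj
          rw [Finset.mem_range] at hj
          rw [if_neg (by omega)]
  have h3 : ∑ κ ∈ T, S (lev κ) * E κ = S n * ∑ κ ∈ T, E κ + ∑ j ∈ Finset.range n,
      (S j - S (j + 1)) * ∑ κ ∈ T.filter (fun κ => lev κ ≤ j), E κ := by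
    have e1 : ∀ κ ∈ T, S (lev κ) * E κ = S n * E κ + ∑ j ∈ Finset.range n,
        (if lev κ ≤ j then (S j - S (j + 1)) * E κ else 0) := by
      intro κ hκ
      rw [key n (lev κ) (hlev κ hκ), add_mul, Finset.sum_mul]
      congr 1
      refine Finset.sum_congr rfl fun j _ => ?_
      split_ifs
      · rfl
      · rw [zero_mul]
    rw [Finset.sum_congr rfl e1, Finset.sum_add_distrib, ← Finset.mul_sum, Finset.sum_comm]
    congr 1
    refine Finset.sum_congr rfl fun j _ => ?_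
    rw [Finset.mul_sum, Finset.sum_filter]
  rw [h3]
  refine add_le_add (mul_le_mul_of_nonneg_left h2 hSn) (Finset.sum_le_sum fun j hj => ?_)
  exact mul_le_mul_of_nonneg_left (h1 j (Finset.mem_range.1 hj)) (by linarith [hS j])

theorem sum_inv_sq_le (n : ℕ) : ∑ k ∈ Finset.range n, 1 / ((k : ℝ) + 1) ^ 2 ≤ 2 := by
  have key : ∀ n : ℕ, ∑ k ∈ Finset.range (n + 1), 1 / ((k : ℝ) + 1) ^ 2 ≤ 2 - 1 / ((n : ℝ) + 1) := by
    intro n
    induction n with
    | zero => simp; norm_num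
    | succ n ih =>
      rw [Finset.sum_range_succ]
      have h : 1 / (((n + 1 : ℕ) : ℝ) + 1) ^ 2 ≤ 1 / ((n : ℝ) + 1) - 1 / (((n + 1 : ℕ) : ℝ) + 1) := by
        have hn : (0 : ℝ) ≤ n := n.cast_nonneg
        push_cast
        rw [div_sub_div _ _ (by positivity) (by positivity), div_le_div_iff₀ (by positivity)
          (by positivity)]
        nlinarith only [hn]
      linarith only [ih, h]
  cases n with
  | zero => simp
  | succ n =>
    have h := key n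
    have : 0 ≤ 1 / ((n : ℝ) + 1) := by positivity
    linarith only [h, this]

/-- sums over the unit squares of a square -/
theorem sum_US (l : ℕ) (c : ℤ × ℤ) (f : ℤ × ℤ → ℝ) :
    ∑ x : Fin l × Fin l, f (c + (((x.1 : ℕ) : ℤ), ((x.2 : ℕ) : ℤ))) = ∑ z ∈ US (l, c), f z := by
  refine Finset.sum_bij' (fun x _ => c + (((x.1 : ℕ) : ℤ), ((x.2 : ℕ) : ℤ)))
    (fun z hz => (⟨(z.1 - c.1).toNat, ?_⟩, ⟨(z.2 - c.2).toNat, ?_⟩)) ?_ ?_ ?_ ?_ ?_
  · rw [mem_US] at hz; simp only at hz; omega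
  · rw [mem_US] at hz; simp only at hz; omega
  · intro x _
    have h1 := x.1.2
    have h2 := x.2.2
    rw [mem_US]
    simp only [Prod.fst_add, Prod.snd_add]
    omega
  · intro z _
    exact Finset.mem_univ _
  · intro x _
    ext
    · simp
    · simp
  · intro z hz
    rw [mem_US] at hz
    simp only at hz
    ext
    · simp only [Prod.fst_add]
      rw [Int.toNat_of_nonneg (by omega)]
      ring
    · simp only [Prod.snd_add]
      rw [Int.toNat_of_nonneg (by omega)]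
      ring
  · intro x _
    rfl

/-- corner of the core -/
def cw (s n i j : ℕ) : ℤ × ℤ := cor s ((2 ^ (n - 1) + i : ℕ), (2 ^ (n - 1) + j : ℕ))

/-- displacement of the vortex -/
noncomputable def PP (s i j : ℕ) : ℂ := ⟨(s : ℝ) / 2 + s * i, (s : ℝ) / 2 + s * j⟩

/-- the displaced vortex -/
noncomputable def alq (s n i j : ℕ) : Ginf := ang (s * 2 ^ n) (PP s i j)

/-- the graded tiling -/
noncomputable def gt (l0 a n i j : ℕ) : Finset (ℕ × (ℤ × ℤ)) :=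
  gr l0 a (cw (l0 * 2 ^ a) n i j) (a + n) 0

theorem idx_mem {n i j : ℕ} (hn : 4 ≤ n) (hi : i < 2 ^ (n - 3)) (hj : j < 2 ^ (n - 3)) :
    (((2 ^ (n - 1) + i : ℕ) : ℤ), ((2 ^ (n - 1) + j : ℕ) : ℤ)) ∈ cells (2 ^ n) := by
  have e1 : 2 ^ n = 8 * 2 ^ (n - 3) := by
    have : n = 3 + (n - 3) := by omega
    conv_lhs => rw [this, pow_add]
    norm_num
  have e2 : 2 ^ (n - 1) = 4 * 2 ^ (n - 3) := by
    have : n - 1 = 2 + (n - 3) := by omega
    rw [this, pow_add]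
    norm_num
  rw [mem_cells]
  simp only
  rw [e2, e1]
  refine ⟨⟨by positivity, ?_⟩, by positivity, ?_⟩
  · exact_mod_cast (by omega : 4 * 2 ^ (n - 3) + i < 8 * 2 ^ (n - 3))
  · exact_mod_cast (by omega : 4 * 2 ^ (n - 3) + j < 8 * 2 ^ (n - 3))

theorem side_eq (l0 a n : ℕ) : l0 * 2 ^ (a + n) = l0 * 2 ^ a * 2 ^ n := by
  rw [pow_add, mul_assoc]

theorem core_top {l0 a n i j : ℕ} (hn : 4 ≤ n) (hi : i < 2 ^ (n - 3)) (hj : j < 2 ^ (n - 3)) :
    Sub (l0 * 2 ^ a, cw (l0 * 2 ^ a) n i j) (l0 * 2 ^ (a + n)) 0 := by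
  have h := cor_sub (l := l0 * 2 ^ a) (idx_mem hn hi hj) 0
  rw [zero_add] at h
  rw [side_eq]
  exact h

theorem gt_tl {l0 a n i j : ℕ} (hl : 1 ≤ l0) : Tl (gt l0 a n i j) (l0 * 2 ^ a * 2 ^ n) 0 := by
  rw [← side_eq]
  exact gr_tl hl _ _ _

theorem core_gt {l0 a n i j : ℕ} (hl : 1 ≤ l0) (hn : 4 ≤ n) (hi : i < 2 ^ (n - 3))
    (hj : j < 2 ^ (n - 3)) : (l0 * 2 ^ a, cw (l0 * 2 ^ a) n i j) ∈ gt l0 a n i j := by
  refine core_mem hl n 0 _ ?_ (idx_mem hn hi hj)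
  rw [zero_add]
  rfl

/-- geometry of the squares of the graded tiling other than the core -/
theorem gt_geo {l0 a n i j : ℕ} (hl : 1 ≤ l0) (hn : 4 ≤ n) (hi : i < 2 ^ (n - 3))
    (hj : j < 2 ^ (n - 3)) {κ : ℕ × (ℤ × ℤ)} (hκ : κ ∈ gt l0 a n i j)
    (hne : κ ≠ (l0 * 2 ^ a, cw (l0 * 2 ^ a) n i j)) :
    ∃ k < n, κ.1 = l0 * 2 ^ k ∧ (k = 0 ∨ Far l0 a (cw (l0 * 2 ^ a) n i j) k κ.2) ∧
      (DD l0 a k ≤ l0 * 2 ^ a * 2 ^ n) ∧
      ((cw (l0 * 2 ^ a) n i j).1 - (l0 * 2 ^ (k + 1) : ℕ) - DD l0 a (k + 1) < κ.2.1 ∧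
        κ.2.1 + κ.1 < (cw (l0 * 2 ^ a) n i j).1 + (l0 * 2 ^ a : ℕ) + (l0 * 2 ^ (k + 1) : ℕ) +
          DD l0 a (k + 1)) ∧
      ((cw (l0 * 2 ^ a) n i j).2 - (l0 * 2 ^ (k + 1) : ℕ) - DD l0 a (k + 1) < κ.2.2 ∧
        κ.2.2 + κ.1 < (cw (l0 * 2 ^ a) n i j).2 + (l0 * 2 ^ a : ℕ) + (l0 * 2 ^ (k + 1) : ℕ) +
          DD l0 a (k + 1)) := by
  obtain ⟨k, hk, h1, h2, h3, h4⟩ := mem_gr' hl (by omega : a < a + n) (core_top hn hi hj) hκ hne
  have hs : 1 ≤ l0 * 2 ^ a := Nat.mul_pos hl (by positivity)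
  have hsub := ((gt_tl hl).side κ hκ).2
  have hcore := core_top (l0 := l0) (a := a) hn hi hj
  rw [side_eq] at hcore
  have hD : k ≠ 0 → DD l0 a k ≤ l0 * 2 ^ a * 2 ^ n := by
    intro hk0
    rcases h2 with h2 | h2
    · exact absurd h2 hk0
    · unfold Far at h2
      unfold Sub at hsub hcore
      simp only [Prod.fst_zero, Prod.snd_zero] at hsub hcore
      omega
  refine ⟨k, ?_, h1, h2, ?_, h3, h4⟩
  · by_cases hk0 : k = 0
    · omega
    · have h5 := hD hk0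
      unfold DD at h5
      have h6 : (k + 1) ^ 2 * 2 ^ k ≤ 2 ^ n := Nat.le_of_mul_le_mul_left h5 hs
      have h7 : 2 ^ (k + 1) ≤ (k + 1) ^ 2 * 2 ^ k := by
        rw [pow_succ, mul_comm]
        have h9 : 2 ≤ k + 1 := by omega
        exact Nat.mul_le_mul_right _ (by nlinarith only [h9])
      have h8 : k + 1 ≤ n := (Nat.pow_le_pow_iff_right (by norm_num)).1 (h7.trans h6)
      omega
  · by_cases hk0 : k = 0
    · subst hk0
      unfold DD
      exact Nat.mul_le_mul_left _ (by simpa using Nat.one_le_two_pow)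
    · exact hD hk0


theorem PP_re (s i j : ℕ) : (PP s i j).re = (s : ℝ) / 2 + s * i := rfl

theorem PP_im (s i j : ℕ) : (PP s i j).im = (s : ℝ) / 2 + s * j := rfl

theorem pow_split {n : ℕ} (hn : 4 ≤ n) : 2 ^ n = 8 * 2 ^ (n - 3) ∧ 2 ^ (n - 1) = 4 * 2 ^ (n - 3) := by
  constructor
  · have : n = 3 + (n - 3) := by omega
    conv_lhs => rw [this, pow_add]
    norm_num
  · have : n - 1 = 2 + (n - 3) := by omega
    rw [this, pow_add]
    norm_num

theorem PP_bd {s n i : ℕ} (hn : 4 ≤ n) (hi : i < 2 ^ (n - 3)) :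
    (s : ℝ) / 2 + s * i ≤ ((s * 2 ^ n : ℕ) : ℝ) / 8 := by
  have h1 : (i : ℝ) + 1 ≤ ((2 ^ (n - 3) : ℕ) : ℝ) := by exact_mod_cast hi
  have h2 : ((s * 2 ^ n : ℕ) : ℝ) = 8 * (s * ((2 ^ (n - 3) : ℕ) : ℝ)) := by
    rw [(pow_split hn).1]
    push_cast
    ring
  rw [h2]
  have hs : (0 : ℝ) ≤ s := s.cast_nonneg
  nlinarith only [h1, hs, mul_le_mul_of_nonneg_left h1 hs]

theorem ctr_eq {s n : ℕ} (hn : 4 ≤ n) : ctr (s * 2 ^ n) = (s : ℝ) * ((2 ^ (n - 1) : ℕ) : ℝ) + 1 / 2 := by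
  unfold ctr
  have e : s * 2 ^ n / 2 = s * 2 ^ (n - 1) := by
    rw [(pow_split hn).1, (pow_split hn).2]
    have : s * (8 * 2 ^ (n - 3)) = s * (4 * 2 ^ (n - 3)) * 2 := by ring
    rw [this, Nat.mul_div_cancel _ (by norm_num)]
  rw [e]
  push_cast
  ring

/-- the centre of the vortex, first coordinate -/
theorem cen1 {s n i j : ℕ} (hn : 4 ≤ n) : ctr (s * 2 ^ n) + (PP s i j).re =
    ((cw s n i j).1 : ℝ) + (s : ℝ) / 2 + 1 / 2 := by
  rw [ctr_eq hn, PP_re]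
  unfold cw cor
  push_cast
  ring

theorem cen2 {s n i j : ℕ} (hn : 4 ≤ n) : ctr (s * 2 ^ n) + (PP s i j).im =
    ((cw s n i j).2 : ℝ) + (s : ℝ) / 2 + 1 / 2 := by
  rw [ctr_eq hn, PP_im]
  unfold cw cor
  push_cast
  ring

/-- distance of the points of a square of the tiling to the centre of the vortex -/
theorem gt_dist {l0 a n i j : ℕ} (hl : 1 ≤ l0) (ha : 1 ≤ a) (hn : 4 ≤ n) (hi : i < 2 ^ (n - 3))
    (hj : j < 2 ^ (n - 3)) {κ : ℕ × (ℤ × ℤ)} (hκ : κ ∈ gt l0 a n i j)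
    (hne : κ ≠ (l0 * 2 ^ a, cw (l0 * 2 ^ a) n i j)) {k : ℕ} (hk : κ.1 = l0 * 2 ^ k)
    (h2 : k = 0 ∨ Far l0 a (cw (l0 * 2 ^ a) n i j) k κ.2) {y : ℤ × ℤ} (hy1 : 0 ≤ y.1)
    (hy2 : y.1 ≤ κ.1) (hy3 : 0 ≤ y.2) (hy4 : y.2 ≤ κ.1) :
    (DD l0 a k : ℝ) / 4 ≤ |((κ.2 + y).1 : ℝ) - (ctr (l0 * 2 ^ a * 2 ^ n) +
      (PP (l0 * 2 ^ a) i j).re)| ∨
    (DD l0 a k : ℝ) / 4 ≤ |((κ.2 + y).2 : ℝ) - (ctr (l0 * 2 ^ a * 2 ^ n) +
      (PP (l0 * 2 ^ a) i j).im)| := by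
  rw [cen1 hn, cen2 hn]
  obtain ⟨s, hs⟩ : ∃ s, s = l0 * 2 ^ a := ⟨_, rfl⟩
  have hs2 : 2 ≤ s := by
    rw [hs]
    calc 2 = 1 * 2 ^ 1 := by norm_num
      _ ≤ l0 * 2 ^ a := Nat.mul_le_mul hl (Nat.pow_le_pow_right (by norm_num) ha)
  obtain ⟨w, hw⟩ : ∃ w, w = cw s n i j := ⟨_, rfl⟩
  rw [← hs, ← hw] at hne h2 ⊢
  have hs2' : (2 : ℝ) ≤ s := by exact_mod_cast hs2
  -- the four cases
  have key : ∀ (D : ℝ) (v p : ℤ), 0 ≤ D → ((v : ℝ) + D ≤ p ∨ (p : ℝ) + s + D ≤ v) →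
      (D + (s : ℝ) / 4) ≤ |(v : ℝ) - ((p : ℝ) + (s : ℝ) / 2 + 1 / 2)| := by
    intro D v p hD h
    rcases h with h | h
    · rw [abs_sub_comm]
      refine le_trans ?_ (le_abs_self _)
      linarith
    · refine le_trans ?_ (le_abs_self _)
      linarith
  by_cases hk0 : k = 0
  · subst hk0
    have hsep := (gt_tl (l0 := l0) (a := a) (n := n) (i := i) (j := j) hl).sep κ hκ (s, w)
      (by rw [hs, hw, hs]; exact core_gt hl hn hi hj) hne
    have hDD : (DD l0 a 0 : ℝ) / 4 = 0 + (s : ℝ) / 4 := by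
      unfold DD
      rw [hs]
      push_cast
      ring
    rw [hDD]
    unfold Sep at hsep
    simp only at hsep
    rcases hsep with h | h | h | h
    · left
      refine key 0 _ _ le_rfl (Or.inl ?_)
      rw [add_zero]
      exact_mod_cast (by rw [Prod.fst_add]; omega : (κ.2 + y).1 ≤ w.1)
    · left
      refine key 0 _ _ le_rfl (Or.inr ?_)
      rw [add_zero]
      exact_mod_cast (by rw [Prod.fst_add]; omega : w.1 + s ≤ (κ.2 + y).1)
    · right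
      refine key 0 _ _ le_rfl (Or.inl ?_)
      rw [add_zero]
      exact_mod_cast (by rw [Prod.snd_add]; omega : (κ.2 + y).2 ≤ w.2)
    · right
      refine key 0 _ _ le_rfl (Or.inr ?_)
      rw [add_zero]
      exact_mod_cast (by rw [Prod.snd_add]; omega : w.2 + s ≤ (κ.2 + y).2)
  · rcases h2 with h2 | h2
    · exact absurd h2 hk0
    · have hD0 : (0 : ℝ) ≤ (DD l0 a k : ℝ) := Nat.cast_nonneg _
      have hle : (DD l0 a k : ℝ) / 4 ≤ (DD l0 a k : ℝ) + (s : ℝ) / 4 := by linarith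
      unfold Far at h2
      rw [← hs, ← hk] at h2
      rcases h2 with h | h | h | h
      · left
        refine hle.trans (key _ _ _ hD0 (Or.inr ?_))
        exact_mod_cast (by rw [Prod.fst_add]; omega : w.1 + s + DD l0 a k ≤ (κ.2 + y).1)
      · left
        refine hle.trans (key _ _ _ hD0 (Or.inl ?_))
        exact_mod_cast (by rw [Prod.fst_add]; omega : (κ.2 + y).1 + DD l0 a k ≤ w.1)
      · right
        refine hle.trans (key _ _ _ hD0 (Or.inr ?_))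
        exact_mod_cast (by rw [Prod.snd_add]; omega : w.2 + s + DD l0 a k ≤ (κ.2 + y).2)
      · right
        refine hle.trans (key _ _ _ hD0 (Or.inl ?_))
        exact_mod_cast (by rw [Prod.snd_add]; omega : (κ.2 + y).2 + DD l0 a k ≤ w.2)

end H529

end Vale.Agent.P159
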