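import Vale.Agent.P159.H529.Energy

/-!
Energy of a vortex in a graded tiling, part 2: sums over the tiling.
-/

open MeasureTheory Filter Topology
open scoped BigOperators

namespace Vale.Agent.P159

namespace H529

open UJ

/-- level of a square -/
def lev (l0 : ℕ) (κ : ℕ × (ℤ × ℤ)) : ℕ := Nat.log 2 (κ.1 / l0)

theorem lev_eq {l0 k : ℕ} (hl : 1 ≤ l0) {κ : ℕ × (ℤ × ℤ)} (h : κ.1 = l0 * 2 ^ k) :
    lev l0 κ = k := by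
  unfold lev
  rw [h, Nat.mul_div_cancel_left _ hl, Nat.log_pow (by norm_num)]

/-- the centre of the vortex as a half integer point -/
def qq0 (s n i j : ℕ) : ℤ × ℤ := ((cw s n i j).1 + (s / 2 : ℕ), (cw s n i j).2 + (s / 2 : ℕ))

theorem even_s {l0 a : ℕ} (ha : 1 ≤ a) : l0 * 2 ^ a = 2 * (l0 * 2 ^ a / 2) := by
  obtain ⟨a', rfl⟩ : ∃ a', a = a' + 1 := ⟨a - 1, by omega⟩
  have : l0 * 2 ^ (a' + 1) = l0 * 2 ^ a' * 2 := by rw [pow_succ, mul_assoc]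
  rw [this, Nat.mul_div_cancel _ (by norm_num)]
  ring

theorem cen1' {l0 a n i j : ℕ} (ha : 1 ≤ a) (hn : 4 ≤ n) :
    ctr (l0 * 2 ^ a * 2 ^ n) + (PP (l0 * 2 ^ a) i j).re =
    ((qq0 (l0 * 2 ^ a) n i j).1 : ℝ) + 1 / 2 := by
  rw [cen1 hn]
  unfold qq0
  have h := even_s (l0 := l0) ha
  obtain ⟨s, hs⟩ : ∃ s, s = l0 * 2 ^ a := ⟨_, rfl⟩
  rw [← hs] at h ⊢
  have h' : (s : ℝ) = 2 * ((s / 2 : ℕ) : ℝ) := by exact_mod_cast h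
  simp only [Int.cast_add, Int.cast_natCast]
  linarith

theorem cen2' {l0 a n i j : ℕ} (ha : 1 ≤ a) (hn : 4 ≤ n) :
    ctr (l0 * 2 ^ a * 2 ^ n) + (PP (l0 * 2 ^ a) i j).im =
    ((qq0 (l0 * 2 ^ a) n i j).2 : ℝ) + 1 / 2 := by
  rw [cen2 hn]
  unfold qq0
  have h := even_s (l0 := l0) ha
  obtain ⟨s, hs⟩ : ∃ s, s = l0 * 2 ^ a := ⟨_, rfl⟩
  rw [← hs] at h ⊢
  have h' : (s : ℝ) = 2 * ((s / 2 : ℕ) : ℝ) := by exact_mod_cast h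
  simp only [Int.cast_add, Int.cast_natCast]
  linarith

/-- the position of the unit squares of the squares of the tiling -/
theorem gt_unit {l0 a n i j : ℕ} (hl : 1 ≤ l0) (ha : 1 ≤ a) (hn : 4 ≤ n) (hi : i < 2 ^ (n - 3))
    (hj : j < 2 ^ (n - 3)) {κ : ℕ × (ℤ × ℤ)} (hκ : κ ∈ gt l0 a n i j)
    (hne : κ ≠ (l0 * 2 ^ a, cw (l0 * 2 ^ a) n i j)) {z : ℤ × ℤ} (hz : z ∈ US κ) :
    (0 ≤ z.1 ∧ z.1 < (l0 * 2 ^ a * 2 ^ n : ℕ) ∧ 0 ≤ z.2 ∧ z.2 < (l0 * 2 ^ a * 2 ^ n : ℕ)) ∧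
    z ∉ g3_bx (qq0 (l0 * 2 ^ a) n i j) (l0 * 2 ^ a / 2 - 1) ∧
    z ∈ g3_bx (qq0 (l0 * 2 ^ a) n i j) (l0 * 2 ^ a * 2 ^ n) ∧
    (∀ N : ℕ, l0 * 2 ^ a * 2 ^ (lev l0 κ + 1) * (lev l0 κ + 3) ^ 2 ≤ N →
      z ∈ g3_bx (qq0 (l0 * 2 ^ a) n i j) N) := by
  have hsub := ((gt_tl (l0 := l0) (a := a) (n := n) (i := i) (j := j) hl).side κ hκ).2
  have hcore := core_top (l0 := l0) (a := a) hn hi hj
  rw [side_eq] at hcore
  have hsep := (gt_tl (l0 := l0) (a := a) (n := n) (i := i) (j := j) hl).sep κ hκ _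
      (core_gt hl hn hi hj) hne
  obtain ⟨k, hk, h1, h2, h3, h4, h5⟩ := gt_geo hl hn hi hj hκ hne
  rw [lev_eq hl h1]
  have he := even_s (l0 := l0) ha
  have hsd0 : l0 * 2 ^ (k + 1) ≤ l0 * 2 ^ a * 2 ^ (k + 1) :=
    Nat.mul_le_mul_right _ (Nat.le_mul_of_pos_right _ (by positivity))
  have hs1 : 1 ≤ l0 * 2 ^ a := Nat.mul_pos hl (by positivity)
  have hX : 2 * (l0 * 2 ^ a) ≤ l0 * 2 ^ a * 2 ^ (k + 1) := by
    rw [mul_comm]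
    refine Nat.mul_le_mul_left _ ?_
    calc 2 = 2 ^ 1 := by norm_num
      _ ≤ 2 ^ (k + 1) := Nat.pow_le_pow_right (by norm_num) (by omega)
  have hD : DD l0 a (k + 1) = l0 * 2 ^ a * 2 ^ (k + 1) * (k + 2) ^ 2 := by
    unfold DD
    ring
  have hN : l0 * 2 ^ a * 2 ^ (k + 1) * (k + 3) ^ 2 =
      DD l0 a (k + 1) + l0 * 2 ^ a * 2 ^ (k + 1) * (2 * k + 5) := by
    rw [hD]
    ring
  have hN2 : l0 * 2 ^ a * 2 ^ (k + 1) * 5 ≤ l0 * 2 ^ a * 2 ^ (k + 1) * (2 * k + 5) :=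
    Nat.mul_le_mul_left _ (by omega)
  rw [mem_US] at hz
  unfold Sub at hsub hcore
  unfold Sep at hsep
  unfold qq0
  clear hD hne h1 h2 h3 hκ hk
  generalize DD l0 a (k + 1) = D at *
  generalize l0 * 2 ^ (k + 1) = sd at *
  generalize l0 * 2 ^ a = s at *
  generalize cw s n i j = w at *
  generalize s * 2 ^ (k + 1) = X at *
  generalize s * 2 ^ n = L at *
  generalize X * (k + 3) ^ 2 = V at *
  generalize X * (2 * k + 5) = V' at *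
  simp only [Prod.fst_zero, Prod.snd_zero] at hsub hcore hsep
  simp only [g3_bx, Finset.mem_product, Finset.mem_Icc]
  refine ⟨?_, ?_, ?_, ?_⟩
  · omega
  · omega
  · omega
  · intro N hNN
    omega

/-- energy of the squares of level at most `m` -/
theorem gt_energy : ∃ C0 s0 : ℝ, 1 ≤ C0 ∧ 2 ≤ s0 ∧ ∀ l0 a n i j : ℕ, 1 ≤ l0 → 1 ≤ a → 4 ≤ n →
    i < 2 ^ (n - 3) → j < 2 ^ (n - 3) → s0 ≤ ((l0 * 2 ^ a : ℕ) : ℝ) →
    (∑ κ ∈ (gt l0 a n i j).erase (l0 * 2 ^ a, cw (l0 * 2 ^ a) n i j),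
      1 / 4 * ∑ z ∈ US κ, g3_G4 (l0 * 2 ^ a * 2 ^ n) (PP (l0 * 2 ^ a) i j) z ≤
        Real.pi * (n * Real.log 2) + C0) ∧
    ∀ m < n, ∑ κ ∈ ((gt l0 a n i j).erase (l0 * 2 ^ a, cw (l0 * 2 ^ a) n i j)).filter
      (fun κ => lev l0 κ ≤ m),
      1 / 4 * ∑ z ∈ US κ, g3_G4 (l0 * 2 ^ a * 2 ^ n) (PP (l0 * 2 ^ a) i j) z ≤
        Real.pi * ((m + 1) * Real.log 2 + 2 * Real.log (m + 3)) + C0 := by
  obtain ⟨C0, s0, hC0, hs0, hreg⟩ := region_energy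
  refine ⟨C0, s0, hC0, hs0, ?_⟩
  intro l0 a n i j hl ha hn hi hj hs
  have hs1 : 1 ≤ l0 * 2 ^ a := Nat.mul_pos hl (by positivity)
  have hsR : (0 : ℝ) < ((l0 * 2 ^ a : ℕ) : ℝ) := by exact_mod_cast hs1
  have hsL : l0 * 2 ^ a ≤ l0 * 2 ^ a * 2 ^ n := Nat.le_mul_of_pos_right _ (by positivity)
  have hP1 : 0 ≤ (PP (l0 * 2 ^ a) i j).re := by rw [PP_re]; positivity
  have hP2 : 0 ≤ (PP (l0 * 2 ^ a) i j).im := by rw [PP_im]; positivity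
  have hP1' : (PP (l0 * 2 ^ a) i j).re ≤ ((l0 * 2 ^ a * 2 ^ n : ℕ) : ℝ) / 8 := by
    rw [PP_re]; exact PP_bd hn hi
  have hP2' : (PP (l0 * 2 ^ a) i j).im ≤ ((l0 * 2 ^ a * 2 ^ n : ℕ) : ℝ) / 8 := by
    rw [PP_im]; exact PP_bd hn hj
  have hsepT : ∀ S : Finset (ℕ × (ℤ × ℤ)), S ⊆ gt l0 a n i j →
      ∀ κ ∈ S, ∀ κ' ∈ S, κ ≠ κ' → Sep κ κ' := fun S hS κ hκ κ' hκ' hne =>
    (gt_tl (l0 := l0) (a := a) (n := n) (i := i) (j := j) hl).sep κ (hS hκ) κ' (hS hκ') hne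
  have hgen : ∀ (S : Finset (ℕ × (ℤ × ℤ))) (N : ℕ), S ⊆ gt l0 a n i j →
      l0 * 2 ^ a ≤ N → (∀ κ ∈ S, ∀ z ∈ US κ,
        (0 ≤ z.1 ∧ z.1 < (l0 * 2 ^ a * 2 ^ n : ℕ) ∧ 0 ≤ z.2 ∧ z.2 < (l0 * 2 ^ a * 2 ^ n : ℕ)) ∧
        z ∉ g3_bx (qq0 (l0 * 2 ^ a) n i j) (l0 * 2 ^ a / 2 - 1) ∧
        z ∈ g3_bx (qq0 (l0 * 2 ^ a) n i j) N) →
      ∑ κ ∈ S, 1 / 4 * ∑ z ∈ US κ, g3_G4 (l0 * 2 ^ a * 2 ^ n) (PP (l0 * 2 ^ a) i j) z ≤
        Real.pi * (Real.log N - Real.log ((l0 * 2 ^ a : ℕ) : ℝ)) + C0 := by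
    intro S N hS hN hz
    have h1 := hreg (l0 * 2 ^ a * 2 ^ n) (l0 * 2 ^ a) N (PP (l0 * 2 ^ a) i j)
      (qq0 (l0 * 2 ^ a) n i j) (S.biUnion US) hs hsL hN hP1 hP1' hP2 hP2' (cen1' ha hn)
      (cen2' ha hn) (by
        intro z hzz
        rw [Finset.mem_biUnion] at hzz
        obtain ⟨κ, hκ, hzκ⟩ := hzz
        exact hz κ hκ z hzκ)
    have h2 := sum_US_le (T := S) (hsepT S hS) (B := S.biUnion US)
      (fun κ hκ => Finset.subset_biUnion_of_mem US hκ)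
      (f := g3_G4 (l0 * 2 ^ a * 2 ^ n) (PP (l0 * 2 ^ a) i j)) (fun z _ => g3_G4_nonneg _ _ z)
    rw [← Finset.mul_sum]
    linarith only [h1, h2, hC0]
  constructor
  · have h1 := hgen ((gt l0 a n i j).erase (l0 * 2 ^ a, cw (l0 * 2 ^ a) n i j))
      (l0 * 2 ^ a * 2 ^ n) (Finset.erase_subset _ _) hsL (by
        intro κ hκ z hz
        rw [Finset.mem_erase] at hκ
        obtain ⟨a1, a2, a3, a4⟩ := gt_unit hl ha hn hi hj hκ.2 hκ.1 hz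
        exact ⟨a1, a2, a3⟩)
    have h2 : Real.log ((l0 * 2 ^ a * 2 ^ n : ℕ) : ℝ) = Real.log ((l0 * 2 ^ a : ℕ) : ℝ) +
        n * Real.log 2 := by
      rw [Nat.cast_mul, Real.log_mul hsR.ne' (by positivity), Nat.cast_pow, Nat.cast_ofNat,
        Real.log_pow]
    rw [h2] at h1
    linarith only [h1]
  · intro m hm
    have h1 := hgen (((gt l0 a n i j).erase (l0 * 2 ^ a, cw (l0 * 2 ^ a) n i j)).filter
      (fun κ => lev l0 κ ≤ m)) (l0 * 2 ^ a * 2 ^ (m + 1) * (m + 3) ^ 2)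
      ((Finset.filter_subset _ _).trans (Finset.erase_subset _ _))
      (by
        rw [mul_assoc]
        exact Nat.le_mul_of_pos_right _ (by positivity)) (by
        intro κ hκ z hz
        rw [Finset.mem_filter, Finset.mem_erase] at hκ
        obtain ⟨a1, a2, a3, a4⟩ := gt_unit hl ha hn hi hj hκ.1.2 hκ.1.1 hz
        refine ⟨a1, a2, a4 _ ?_⟩
        have := hκ.2
        gcongr
        norm_num)
    have h2 : Real.log ((l0 * 2 ^ a * 2 ^ (m + 1) * (m + 3) ^ 2 : ℕ) : ℝ) =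
        Real.log ((l0 * 2 ^ a : ℕ) : ℝ) + ((m + 1) * Real.log 2 + 2 * Real.log (m + 3)) := by
      rw [Nat.cast_mul, Nat.cast_mul (l0 * 2 ^ a), Real.log_mul (by positivity) (by positivity),
        Real.log_mul hsR.ne' (by positivity)]
      push_cast
      rw [Real.log_pow, Real.log_pow]
      push_cast
      ring
    rw [h2] at h1
    linarith only [h1]

/-- total area of the squares of level `k` -/
theorem gt_area {l0 a n i j : ℕ} (hl : 1 ≤ l0) (ha : 1 ≤ a) (hn : 4 ≤ n) (hi : i < 2 ^ (n - 3))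
    (hj : j < 2 ^ (n - 3)) (k : ℕ) :
    ∑ κ ∈ ((gt l0 a n i j).erase (l0 * 2 ^ a, cw (l0 * 2 ^ a) n i j)).filter
      (fun κ => lev l0 κ = k), ((κ.1 : ℝ)) ^ 2 ≤
      (5 * ((k : ℝ) + 2) ^ 2 * (((l0 * 2 ^ a : ℕ) : ℝ) * 2 ^ k)) ^ 2 := by
  obtain ⟨w, hw⟩ : ∃ w, w = cw (l0 * 2 ^ a) n i j := ⟨_, rfl⟩
  obtain ⟨Z, hZ⟩ : ∃ Z, Z = l0 * 2 ^ (k + 1) + DD l0 a (k + 1) := ⟨_, rfl⟩
  have hsep : ∀ κ ∈ ((gt l0 a n i j).erase (l0 * 2 ^ a, cw (l0 * 2 ^ a) n i j)).filter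
      (fun κ => lev l0 κ = k), ∀ κ' ∈ ((gt l0 a n i j).erase
      (l0 * 2 ^ a, cw (l0 * 2 ^ a) n i j)).filter (fun κ => lev l0 κ = k), κ ≠ κ' → Sep κ κ' := by
    intro κ hκ κ' hκ' hne
    rw [Finset.mem_filter, Finset.mem_erase] at hκ hκ'
    exact (gt_tl (l0 := l0) (a := a) (n := n) (i := i) (j := j) hl).sep κ hκ.1.2 κ' hκ'.1.2 hne
  have h1 := sum_US_le hsep (B := Finset.Ico (w.1 - Z) (w.1 + (l0 * 2 ^ a : ℕ) + Z) ×ˢ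
    Finset.Ico (w.2 - Z) (w.2 + (l0 * 2 ^ a : ℕ) + Z)) (by
      intro κ hκ z hz
      rw [Finset.mem_filter, Finset.mem_erase] at hκ
      obtain ⟨k', hk', h1, h2, h3, h4, h5⟩ := gt_geo hl hn hi hj hκ.1.2 hκ.1.1
      have hkk : k' = k := by
        rw [← hκ.2, lev_eq hl h1]
      subst hkk
      rw [← hw] at h4 h5
      rw [mem_US] at hz
      rw [Finset.mem_product, Finset.mem_Ico, Finset.mem_Ico, hZ]
      push_cast at *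
      omega) (f := fun _ => (1 : ℝ)) (fun _ _ => zero_le_one)
  have h2 : ∀ κ : ℕ × (ℤ × ℤ), ∑ z ∈ US κ, (1 : ℝ) = (κ.1 : ℝ) ^ 2 := by
    intro κ
    rw [Finset.sum_const, US_card, nsmul_eq_mul, mul_one]
    push_cast
    rfl
  simp only [h2] at h1
  refine h1.trans ?_
  have e1 : ∀ c : ℤ, (c + (l0 * 2 ^ a : ℕ) + Z - (c - Z) : ℤ) = ((l0 * 2 ^ a + 2 * Z : ℕ) : ℤ) := by
    intro c
    push_cast
    ring
  rw [Finset.sum_const, Finset.card_product, Int.card_Ico, Int.card_Ico, e1, e1,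
    Int.toNat_natCast, nsmul_eq_mul, mul_one, Nat.cast_mul, ← pow_two]
  have hs0 : (0 : ℝ) ≤ ((l0 * 2 ^ a : ℕ) : ℝ) := Nat.cast_nonneg _
  refine pow_le_pow_left₀ (Nat.cast_nonneg _) ?_ 2
  have hsd : l0 * 2 ^ (k + 1) ≤ l0 * 2 ^ a * 2 ^ k := by
    rw [pow_succ, ← mul_assoc, mul_right_comm]
    refine Nat.mul_le_mul_right _ (Nat.mul_le_mul_left _ ?_)
    calc 2 = 2 ^ 1 := by norm_num
      _ ≤ 2 ^ a := Nat.pow_le_pow_right (by norm_num) ha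
  have hsd' : ((l0 * 2 ^ (k + 1) : ℕ) : ℝ) ≤ ((l0 * 2 ^ a : ℕ) : ℝ) * 2 ^ k := by exact_mod_cast hsd
  have hDD : ((DD l0 a (k + 1) : ℕ) : ℝ) = 2 * ((k : ℝ) + 2) ^ 2 *
      (((l0 * 2 ^ a : ℕ) : ℝ) * 2 ^ k) := by
    unfold DD
    push_cast
    ring
  have hp : (1 : ℝ) ≤ 2 ^ k := one_le_pow₀ (by norm_num)
  have hs2 : ((l0 * 2 ^ a : ℕ) : ℝ) ≤ ((l0 * 2 ^ a : ℕ) : ℝ) * 2 ^ k := le_mul_of_one_le_right hs0 hp
  have hX0 : 0 ≤ ((l0 * 2 ^ a : ℕ) : ℝ) * 2 ^ k := by positivity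
  have hk0 : (0 : ℝ) ≤ k := k.cast_nonneg
  rw [hZ, Nat.cast_add, Nat.cast_mul 2, Nat.cast_add (l0 * 2 ^ (k + 1)), hDD]
  push_cast at *
  nlinarith only [hsd', hs2, hX0, hk0, mul_nonneg hX0 hk0, mul_nonneg (mul_nonneg hX0 hk0) hk0]

end H529

end Vale.Agent.P159
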