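import Vale.Agent.P159.Bdl.B6

/-!
Increments of the displaced vortex over a square with arbitrary corner, in terms of the distance
to the centre of the vortex.
-/

open MeasureTheory Filter Topology
open scoped BigOperators

namespace Vale.Agent.P159

namespace H529

open UJ

/-- second differences of the vortex function over a square -/
theorem wf_sd {C : ℝ} (hC1 : 1 ≤ C) (hC : ∀ x y, |kap x - kap y| ≤ C * |x - y|)
    (hC' : ∀ x y d : ℝ, |(kap x - kap (x + d)) - (kap y - kap (y + d))| ≤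
    C * |d| * |x - y|) {L : ℕ} (hL : 1 ≤ L) {P : ℂ} (hP : ‖P‖ ≤ L / 4) {l : ℕ} (c : ℤ × ℤ)
    (e e' : BI l) (hee : hh e = hh e') :
    ‖(wf L P (c + bu e) - wf L P (c + bv e)) -
      (wf L P (c + bu e') - wf L P (c + bv e'))‖ ≤ (C + C ^ 2) * l / (4 * L) := by
  have hL0 : (0 : ℝ) < L := by exact_mod_cast hL
  have hd : e.2.1 = e'.2.1 := by
    unfold hh at hee
    by_cases a : e.2.1 = true <;> by_cases b : e'.2.1 = true <;> simp_all
  obtain ⟨h1, h2, h3, h4⟩ := g2_bu e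
  obtain ⟨h1', h2', h3', h4'⟩ := g2_bu e'
  have hx : |((c.1 + (bu e).1 : ℤ) : ℝ) - ((c.1 + (bu e').1 : ℤ) : ℝ)| ≤ l := by
    rw [← Int.cast_sub, ← Int.cast_abs]
    have : |(c.1 + (bu e).1 : ℤ) - (c.1 + (bu e').1 : ℤ)| ≤ (l : ℤ) := by
      rw [abs_le]; constructor <;> linarith
    exact_mod_cast this
  have hy : |((c.2 + (bu e).2 : ℤ) : ℝ) - ((c.2 + (bu e').2 : ℤ) : ℝ)| ≤ l := by
    rw [← Int.cast_sub, ← Int.cast_abs]
    have : |(c.2 + (bu e).2 : ℤ) - (c.2 + (bu e').2 : ℤ)| ≤ (l : ℤ) := by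
      rw [abs_le]; constructor <;> linarith
    exact_mod_cast this
  have key : |(kk L (c + bu e) - kk L (c + bv e)) -
      (kk L (c + bu e') - kk L (c + bv e'))| ≤ (C + C ^ 2) * l / (L : ℝ) ^ 2 := by
    simp only [g2_kk, bv, ← hd, Prod.fst_add, Prod.snd_add]
    by_cases a : e.2.1 = true
    · simp only [a, if_true, add_zero]
      have := g2_sd hC1 hC hC' hL (c.2 + (bu e).2) (c.1 + (bu e).1)
        (c.2 + (bu e').2) (c.1 + (bu e').1) hy hx
      rw [add_assoc, add_assoc] at this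
      convert this using 2
      ring
    · simp only [Bool.not_eq_true] at a
      simp only [a, Bool.false_eq_true, if_false, add_zero]
      have := g2_sd hC1 hC hC' hL (c.1 + (bu e).1) (c.2 + (bu e).2)
        (c.1 + (bu e').1) (c.2 + (bu e').2) hx hy
      rw [add_assoc, add_assoc] at this
      convert this using 2
  have hz : (zc (c + bu e) - zc (c + bv e)) -
      (zc (c + bu e') - zc (c + bv e')) = 0 := by
    simp only [zc, bv, ← hd]
    by_cases a : e.2.1 = true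
    · apply Complex.ext <;> simp [a]
    · apply Complex.ext <;> simp [a]
  rw [g2_wf_sub_eq, g2_wf_sub_eq]
  have e3 : zc (c + bu e) - zc (c + bv e) -
      ((kk L (c + bu e) - kk L (c + bv e) : ℝ) : ℂ) * P -
      (zc (c + bu e') - zc (c + bv e') -
      ((kk L (c + bu e') - kk L (c + bv e') : ℝ) : ℂ) * P) =
      -((((kk L (c + bu e) - kk L (c + bv e)) -
      (kk L (c + bu e') - kk L (c + bv e')) : ℝ) : ℂ) * P) := by
    push_cast
    linear_combination hz
  rw [e3, norm_neg, norm_mul, Complex.norm_real, Real.norm_eq_abs]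
  calc _ ≤ ((C + C ^ 2) * l / (L : ℝ) ^ 2) * (L / 4) :=
        mul_le_mul key hP (norm_nonneg _) (by positivity)
    _ = _ := by field_simp

/-- distance of two end points of bonds of a cell -/
theorem bv_dist {l : ℕ} (c : ℤ × ℤ) (e e' : BI l) :
    |((c + bv e).1 : ℝ) - (c + bv e').1| +
      |((c + bv e).2 : ℝ) - (c + bv e').2| ≤ 2 * l := by
  obtain ⟨h1, h2, h3, h4⟩ := g2_bv e
  obtain ⟨h1', h2', h3', h4'⟩ := g2_bv e'
  have hx : |((c + bv e).1 : ℝ) - (c + bv e').1| ≤ l := by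
    rw [← Int.cast_sub, ← Int.cast_abs]
    have : |(c + bv e).1 - (c + bv e').1| ≤ (l : ℤ) := by
      rw [abs_le, Prod.fst_add, Prod.fst_add]; constructor <;> linarith
    exact_mod_cast this
  have hy : |((c + bv e).2 : ℝ) - (c + bv e').2| ≤ l := by
    rw [← Int.cast_sub, ← Int.cast_abs]
    have : |(c + bv e).2 - (c + bv e').2| ≤ (l : ℤ) := by
      rw [abs_le, Prod.snd_add, Prod.snd_add]; constructor <;> linarith
    exact_mod_cast this
  linarith

theorem bond_dist {l : ℕ} (c : ℤ × ℤ) (e : BI l) :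
    |((c + bu e).1 : ℝ) - (c + bv e).1| +
      |((c + bu e).2 : ℝ) - (c + bv e).2| = 1 := by
  simp only [bv, Prod.fst_add, Prod.snd_add]
  by_cases a : e.2.1 = true
  · simp [a]
  · simp [a]

/-- increments of the vortex over a square far from its centre -/
theorem geo_inc' : ∃ C0 s0 : ℝ, 1 ≤ C0 ∧ 2 ≤ s0 ∧ ∀ (L l : ℕ) (P : ℂ) (c : ℤ × ℤ) (r : ℝ),
    1 ≤ l → s0 ≤ r → r ≤ 8 * L → ‖P‖ ≤ L / 4 →
    (∀ y : ℤ × ℤ, 0 ≤ y.1 → y.1 ≤ l → 0 ≤ y.2 → y.2 ≤ l → r / 4 ≤ ‖wf L P (c + y)‖) →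
    ∀ e : BI l, |inc L P (c + bu e) (c + bv e)| ≤ C0 / r ∧
      ∀ e' : BI l, hh e = hh e' → |inc L P (c + bu e) (c + bv e) -
        inc L P (c + bu e') (c + bv e')| ≤ C0 * l / r ^ 2 := by
  obtain ⟨C, hC1, hC, hC'⟩ := g2_kap_lip
  have hC0 : 0 ≤ C := by linarith
  refine ⟨12 * (1 + C / 4) + 128 * (1 + C / 4) ^ 2 + 8 * (C + C ^ 2) + 32 * (1 + C / 4) ^ 2,
    8 * (1 + C / 4), by nlinarith only [hC1], by linarith, ?_⟩
  intro L l P c s hl hs hsL hP hwf e
  have hspos : 0 < s := by linarith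
  have hL0 : (0 : ℝ) < L := by linarith
  have hL : 1 ≤ L := by exact_mod_cast hL0
  have hw : ∀ e : BI l, s / 4 ≤ ‖wf L P (c + bv e)‖ := by
    intro e
    obtain ⟨h1, h2, h3, h4⟩ := g2_bv e
    exact hwf _ h1 h2 h3 h4
  have hD : ∀ e : BI l, ‖wf L P (c + bu e) - wf L P (c + bv e)‖ ≤ 1 + C / 4 := by
    intro e
    have := g2_wf_sub hC0 hC hL hP (c + bu e) (c + bv e)
    rwa [bond_dist, mul_one] at this
  have hl1 : (1 : ℝ) ≤ l := by exact_mod_cast hl
  constructor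
  · have h := (g2_inc_one hspos (hw e) (hD e) hs).1
    unfold inc
    refine h.trans ?_
    apply div_le_div_of_nonneg_right _ hspos.le
    nlinarith only [hC1]
  · intro e' hee
    have hE := wf_sd hC1 hC hC' hL hP c e e' hee
    have hF : ‖wf L P (c + bv e) - wf L P (c + bv e')‖ ≤ (1 + C / 4) * (2 * l) := by
      refine (g2_wf_sub hC0 hC hL hP _ _).trans ?_
      exact mul_le_mul_of_nonneg_left (bv_dist c e e') (by positivity)
    have h := g2_inc_two hspos (hw e) (hw e') (hD e) (hD e') hs hE hF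
    unfold inc
    refine h.trans ?_
    have h1 : 128 * (1 + C / 4) ^ 2 / s ^ 2 ≤ 128 * (1 + C / 4) ^ 2 * l / s ^ 2 := by
      apply div_le_div_of_nonneg_right _ (by positivity)
      nlinarith only [hl1, sq_nonneg (1 + C / 4)]
    have h2 : 4 * ((C + C ^ 2) * l / (4 * (L : ℝ))) / s ≤ 8 * (C + C ^ 2) * l / s ^ 2 := by
      have e1 : 4 * ((C + C ^ 2) * l / (4 * (L : ℝ))) / s = 8 * (C + C ^ 2) * l / (8 * L * s) := by
        field_simp
      rw [e1]
      apply div_le_div_of_nonneg_left (by positivity) (by positivity)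
      rw [pow_two]
      exact mul_le_mul_of_nonneg_right hsL hspos.le
    have h3 : 16 * (1 + C / 4) * ((1 + C / 4) * (2 * l)) / s ^ 2 =
        32 * (1 + C / 4) ^ 2 * l / s ^ 2 := by ring
    rw [h3]
    have h4 : (0 : ℝ) ≤ 12 * (1 + C / 4) * l / s ^ 2 := by positivity
    calc _ ≤ 128 * (1 + C / 4) ^ 2 * l / s ^ 2 + 8 * (C + C ^ 2) * l / s ^ 2 +
          32 * (1 + C / 4) ^ 2 * l / s ^ 2 := by gcongr
      _ ≤ 12 * (1 + C / 4) * l / s ^ 2 + (128 * (1 + C / 4) ^ 2 * l / s ^ 2 +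
          8 * (C + C ^ 2) * l / s ^ 2 + 32 * (1 + C / 4) ^ 2 * l / s ^ 2) := by linarith only [h4]
      _ = _ := by ring

/-- lower bound of the vortex function in terms of the distance `ρ` to the centre -/
theorem wf_low {L : ℕ} {P : ℂ} (hP1 : 0 ≤ P.re) (hP1' : P.re ≤ L / 8) (hP2 : 0 ≤ P.im)
    (hP2' : P.im ≤ L / 8) (hL : 32 ≤ (L : ℝ)) {v : ℤ × ℤ} {ρ : ℝ} (hρL : ρ ≤ L)
    (h : ρ ≤ |(v.1 : ℝ) - (ctr L + P.re)| ∨ ρ ≤ |(v.2 : ℝ) - (ctr L + P.im)|) :
    ρ / 16 ≤ ‖wf L P v‖ := by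
  have hL0 : (0 : ℝ) < L := by linarith
  by_cases hfar : (L : ℝ) / 4 - 2 ≤ |(v.1 : ℝ) - ctr L| ∨ (L : ℝ) / 4 - 2 ≤ |(v.2 : ℝ) - ctr L|
  · have := g3_wf_low hP1 hP1' hP2 hP2' hL hfar
    linarith
  · push Not at hfar
    have hone : ∀ x : ℝ, |x| < L / 4 - 2 → kap (x / L) = 1 := by
      intro x hx
      apply g3_kap_one
      rw [abs_div, abs_of_pos hL0, div_le_iff₀ hL0]
      linarith
    have e : wf L P v = zc v - cc L - P := by
      unfold wf kk
      rw [hone _ hfar.1, hone _ hfar.2]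
      simp
    have hre : (wf L P v).re = (v.1 : ℝ) - (ctr L + P.re) := by
      rw [e]; simp only [zc, cc, Complex.sub_re]; ring
    have him : (wf L P v).im = (v.2 : ℝ) - (ctr L + P.im) := by
      rw [e]; simp only [zc, cc, Complex.sub_im]; ring
    have h16 : ∀ x : ℝ, ρ ≤ |x| → ρ / 16 ≤ |x| := by
      intro x hx
      rcases le_or_gt 0 ρ with h0 | h0
      · linarith
      · have := abs_nonneg x
        linarith
    rcases h with h | h
    · rw [← hre] at h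
      exact (h16 _ h).trans (Complex.abs_re_le_norm _)
    · rw [← him] at h
      exact (h16 _ h).trans (Complex.abs_im_le_norm _)

/-- the increments represent the differences of the vortex configuration -/
theorem inc_coe {L : ℕ} {P : ℂ} {u v : ℤ × ℤ} (hu : wf L P u ≠ 0) (hv : wf L P v ≠ 0) :
    ((inc L P u v : ℝ) : T) = ang L P u - ang L P v := by
  unfold inc ang
  exact Complex.arg_div_coe_angle hu hv

/-- the sum over the bonds of a cell as a sum over its unit squares -/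
theorem sum_cell (L : ℕ) (P : ℂ) (l : ℕ) (c : ℤ × ℤ) :
    ∑ e : BI l, inc L P (c + bu e) (c + bv e) ^ 2 =
    ∑ x : Fin l × Fin l, g3_G4 L P (c + (((x.1 : ℕ) : ℤ), ((x.2 : ℕ) : ℤ))) := by
  rw [sum_BI, Fintype.sum_prod_type]
  refine Finset.sum_congr rfl fun a _ => Finset.sum_congr rfl fun b _ => ?_
  have e1 : c + (((a : ℕ) : ℤ), ((b : ℕ) : ℤ)) + (0, 1) =
      c + (((a : ℕ) : ℤ), ((b : ℕ) : ℤ) + 1) := by ext <;> (simp; try ring)
  have e2 : c + (((a : ℕ) : ℤ), ((b : ℕ) : ℤ)) + (1, 0) =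
      c + (((a : ℕ) : ℤ) + 1, ((b : ℕ) : ℤ)) := by ext <;> simp <;> ring
  have e3 : c + (((a : ℕ) : ℤ), ((b : ℕ) : ℤ) + 1) + (1, 0) =
      c + (((a : ℕ) : ℤ) + 1, ((b : ℕ) : ℤ) + 1) := by ext <;> simp <;> ring
  have e4 : c + (((a : ℕ) : ℤ) + 1, ((b : ℕ) : ℤ)) + (0, 1) =
      c + (((a : ℕ) : ℤ) + 1, ((b : ℕ) : ℤ) + 1) := by ext <;> simp <;> ring
  unfold g3_G4
  rw [e1, e2, e3, e4]
  have f1 : bu (l := l) ((a, b), (false, false)) = (((a : ℕ) : ℤ), ((b : ℕ) : ℤ)) := by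
    simp only [bu, Bool.and_self, Bool.false_eq_true, ↓reduceIte, add_zero, Bool.not_false, Bool.and_false]
  have f2 : bv (l := l) ((a, b), (false, false)) = (((a : ℕ) : ℤ) + 1, ((b : ℕ) : ℤ)) := by
    simp only [bv, bu, Bool.and_self, Bool.false_eq_true, ↓reduceIte, add_zero, Bool.not_false, Bool.and_false, Prod.mk_add_mk]
  have f3 : bu (l := l) ((a, b), (false, true)) = (((a : ℕ) : ℤ), ((b : ℕ) : ℤ) + 1) := by
    simp [bu]
  have f4 : bv (l := l) ((a, b), (false, true)) = (((a : ℕ) : ℤ) + 1, ((b : ℕ) : ℤ) + 1) := by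
    simp only [bv, bu, Bool.and_true, Bool.false_eq_true, ↓reduceIte, add_zero, Bool.not_false, Bool.and_self, Prod.mk_add_mk]
  have f5 : bu (l := l) ((a, b), (true, false)) = (((a : ℕ) : ℤ), ((b : ℕ) : ℤ)) := by
    simp only [bu, Bool.and_false, Bool.false_eq_true, ↓reduceIte, add_zero, Bool.not_true, Bool.and_self]
  have f6 : bv (l := l) ((a, b), (true, false)) = (((a : ℕ) : ℤ), ((b : ℕ) : ℤ) + 1) := by
    simp only [bv, bu, Bool.and_false, Bool.false_eq_true, ↓reduceIte, add_zero, Bool.not_true, Bool.and_self, Prod.mk_add_mk]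
  have f7 : bu (l := l) ((a, b), (true, true)) = (((a : ℕ) : ℤ) + 1, ((b : ℕ) : ℤ)) := by
    simp [bu]
  have f8 : bv (l := l) ((a, b), (true, true)) = (((a : ℕ) : ℤ) + 1, ((b : ℕ) : ℤ) + 1) := by
    simp only [bv, bu, Bool.and_self, ↓reduceIte, Bool.not_true, Bool.and_true, Bool.false_eq_true, add_zero, Prod.mk_add_mk]
  rw [f1, f2, f3, f4, f5, f6, f7, f8]

end H529

end Vale.Agent.P159
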