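import Vale.Agent.P159.H529.Energy2

/-!
Energy of a vortex in a graded tiling, part 3: the product of the weights of the squares.
-/

open MeasureTheory Filter Topology
open scoped BigOperators

namespace Vale.Agent.P159

namespace H529

open UJ

/-- increments of the vortex over the squares of the tiling -/
theorem gt_inc : ∃ C0 s0 : ℝ, 1 ≤ C0 ∧ 2 ≤ s0 ∧ ∀ l0 a n i j : ℕ, 1 ≤ l0 → 1 ≤ a → 4 ≤ n →
    i < 2 ^ (n - 3) → j < 2 ^ (n - 3) → s0 ≤ ((l0 * 2 ^ a : ℕ) : ℝ) →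
    ∀ κ ∈ gt l0 a n i j, κ ≠ (l0 * 2 ^ a, cw (l0 * 2 ^ a) n i j) → ∀ e : BI κ.1,
      (((inc (l0 * 2 ^ a * 2 ^ n) (PP (l0 * 2 ^ a) i j) (κ.2 + bu e) (κ.2 + bv e) : ℝ)) : T) =
        alq (l0 * 2 ^ a) n i j (κ.2 + bu e) - alq (l0 * 2 ^ a) n i j (κ.2 + bv e) ∧
      |inc (l0 * 2 ^ a * 2 ^ n) (PP (l0 * 2 ^ a) i j) (κ.2 + bu e) (κ.2 + bv e)| ≤
        C0 / (DD l0 a (lev l0 κ) : ℝ) ∧
      ∀ e' : BI κ.1, hh e = hh e' →
        |inc (l0 * 2 ^ a * 2 ^ n) (PP (l0 * 2 ^ a) i j) (κ.2 + bu e) (κ.2 + bv e) -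
          inc (l0 * 2 ^ a * 2 ^ n) (PP (l0 * 2 ^ a) i j) (κ.2 + bu e') (κ.2 + bv e')| ≤
        C0 * κ.1 / (DD l0 a (lev l0 κ) : ℝ) ^ 2 := by
  obtain ⟨C0, s0, hC0, hs0, hinc⟩ := geo_inc'
  refine ⟨256 * C0, 32 * s0, by linarith, by linarith, ?_⟩
  intro l0 a n i j hl ha hn hi hj hs κ hκ hne e
  have hs1 : 1 ≤ l0 * 2 ^ a := Nat.mul_pos hl (by positivity)
  have hsR : (0 : ℝ) < ((l0 * 2 ^ a : ℕ) : ℝ) := by exact_mod_cast hs1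
  have hsL : l0 * 2 ^ a ≤ l0 * 2 ^ a * 2 ^ n := Nat.le_mul_of_pos_right _ (by positivity)
  have hsL' : ((l0 * 2 ^ a : ℕ) : ℝ) ≤ ((l0 * 2 ^ a * 2 ^ n : ℕ) : ℝ) := by exact_mod_cast hsL
  have hP1 : 0 ≤ (PP (l0 * 2 ^ a) i j).re := by rw [PP_re]; positivity
  have hP2 : 0 ≤ (PP (l0 * 2 ^ a) i j).im := by rw [PP_im]; positivity
  have hP1' : (PP (l0 * 2 ^ a) i j).re ≤ ((l0 * 2 ^ a * 2 ^ n : ℕ) : ℝ) / 8 := by
    rw [PP_re]; exact PP_bd hn hi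
  have hP2' : (PP (l0 * 2 ^ a) i j).im ≤ ((l0 * 2 ^ a * 2 ^ n : ℕ) : ℝ) / 8 := by
    rw [PP_im]; exact PP_bd hn hj
  have hPn : ‖PP (l0 * 2 ^ a) i j‖ ≤ ((l0 * 2 ^ a * 2 ^ n : ℕ) : ℝ) / 4 := by
    refine (Complex.norm_le_abs_re_add_abs_im _).trans ?_
    rw [abs_of_nonneg hP1, abs_of_nonneg hP2]
    linarith only [hP1', hP2']
  have hL32 : (32 : ℝ) ≤ ((l0 * 2 ^ a * 2 ^ n : ℕ) : ℝ) := by linarith only [hs, hs0, hsL']
  obtain ⟨k, hk, h1, h2, h3, -⟩ := gt_geo hl hn hi hj hκ hne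
  rw [lev_eq hl h1]
  have hDs : l0 * 2 ^ a ≤ DD l0 a k := by
    unfold DD
    exact Nat.le_mul_of_pos_right _ (by positivity)
  have hDs' : ((l0 * 2 ^ a : ℕ) : ℝ) ≤ (DD l0 a k : ℝ) := by exact_mod_cast hDs
  have hDL : (DD l0 a k : ℝ) ≤ ((l0 * 2 ^ a * 2 ^ n : ℕ) : ℝ) := by exact_mod_cast h3
  have hD0 : (0 : ℝ) < (DD l0 a k : ℝ) := lt_of_lt_of_le hsR hDs'
  have hk1 : 1 ≤ κ.1 := by
    rw [h1]
    exact Nat.mul_pos hl (by positivity)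
  have hlow : ∀ y : ℤ × ℤ, 0 ≤ y.1 → y.1 ≤ κ.1 → 0 ≤ y.2 → y.2 ≤ κ.1 →
      (DD l0 a k : ℝ) / 16 / 4 ≤ ‖wf (l0 * 2 ^ a * 2 ^ n) (PP (l0 * 2 ^ a) i j) (κ.2 + y)‖ := by
    intro y y1 y2 y3 y4
    have h := wf_low hP1 hP1' hP2 hP2' hL32 (v := κ.2 + y) (ρ := (DD l0 a k : ℝ) / 4)
      (by linarith only [hDL, hD0]) (gt_dist hl ha hn hi hj hκ hne h1 h2 y1 y2 y3 y4)
    linarith only [h]
  have hne0 : ∀ y : ℤ × ℤ, 0 ≤ y.1 → y.1 ≤ κ.1 → 0 ≤ y.2 → y.2 ≤ κ.1 →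
      wf (l0 * 2 ^ a * 2 ^ n) (PP (l0 * 2 ^ a) i j) (κ.2 + y) ≠ 0 := by
    intro y y1 y2 y3 y4 h0
    have h := hlow y y1 y2 y3 y4
    rw [h0, norm_zero] at h
    linarith only [h, hD0]
  have h := hinc (l0 * 2 ^ a * 2 ^ n) κ.1 (PP (l0 * 2 ^ a) i j) κ.2 ((DD l0 a k : ℝ) / 16) hk1
    (by linarith only [hs, hDs']) (by linarith only [hDL, hD0]) hPn hlow e
  obtain ⟨u1, u2, u3, u4⟩ := g2_bu e
  obtain ⟨v1, v2, v3, v4⟩ := g2_bv e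
  refine ⟨inc_coe (hne0 _ u1 u2 u3 u4) (hne0 _ v1 v2 v3 v4), ?_, ?_⟩
  · refine h.1.trans ?_
    rw [div_div_eq_mul_div]
    apply div_le_div_of_nonneg_right _ hD0.le
    linarith only [hC0]
  · intro e' he
    refine (h.2 e' he).trans (le_of_eq ?_)
    field_simp
    ring

/-- **the energy of a vortex in a graded tiling** -/
theorem graded_energy (B : ℝ) (hB : 0 < B) : ∃ C s0 : ℝ, 0 ≤ C ∧ 2 ≤ s0 ∧ ∀ b : ℝ, 0 < b →
    b ≤ B → ∀ l0 a n i j : ℕ, 1 ≤ l0 → 1 ≤ a → 4 ≤ n → i < 2 ^ (n - 3) → j < 2 ^ (n - 3) →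
    s0 ≤ ((l0 * 2 ^ a : ℕ) : ℝ) →
    Real.exp (-(Real.pi * Real.log 2 * ∑ k ∈ Finset.range n, stiff (l0 * 2 ^ k) b +
      2 * Real.pi * ∑ k ∈ Finset.range n, (stiff (l0 * 2 ^ k) b - stiff (l0 * 2 ^ (k + 1)) b) *
        Real.log ((k : ℝ) + 3) + C)) ≤
    ∏ κ ∈ (gt l0 a n i j).erase (l0 * 2 ^ a, cw (l0 * 2 ^ a) n i j),
      WB b κ.1 κ.2 (alq (l0 * 2 ^ a) n i j) / WB b κ.1 κ.2 0 := by
  obtain ⟨C1, s1, hC1, hs1, hinc⟩ := gt_inc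
  obtain ⟨C2, s2, hC2, hs2, hen⟩ := gt_energy
  refine ⟨12800 * B * C1 ^ 2 + B * C2, max s1 s2, by positivity, hs1.trans (le_max_left _ _), ?_⟩
  intro b hb hbB l0 a n i j hl ha hn hi hj hs
  have hsa : s1 ≤ ((l0 * 2 ^ a : ℕ) : ℝ) := (le_max_left _ _).trans hs
  have hsb : s2 ≤ ((l0 * 2 ^ a : ℕ) : ℝ) := (le_max_right _ _).trans hs
  have hs1' : 1 ≤ l0 * 2 ^ a := Nat.mul_pos hl (by positivity)
  have hsR : (0 : ℝ) < ((l0 * 2 ^ a : ℕ) : ℝ) := by exact_mod_cast hs1'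
  have hl0R : (0 : ℝ) < (l0 : ℝ) := by exact_mod_cast hl
  obtain ⟨Tn, hTn⟩ : ∃ Tn, Tn = (gt l0 a n i j).erase (l0 * 2 ^ a, cw (l0 * 2 ^ a) n i j) :=
    ⟨_, rfl⟩
  obtain ⟨Ek, hEk⟩ : ∃ Ek : ℕ × (ℤ × ℤ) → ℝ, Ek = fun κ =>
    1 / 4 * ∑ z ∈ US κ, g3_G4 (l0 * 2 ^ a * 2 ^ n) (PP (l0 * 2 ^ a) i j) z := ⟨_, rfl⟩
  obtain ⟨S, hS⟩ : ∃ S : ℕ → ℝ, S = fun k => stiff (l0 * 2 ^ k) b := ⟨_, rfl⟩
  -- properties of the stiffness
  have hpos : ∀ k, 1 ≤ l0 * 2 ^ k := fun k => Nat.mul_pos hl (by positivity)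
  have hS0 : ∀ k, 0 ≤ S k := fun k => by rw [hS]; exact stiff_nonneg' hb.le (hpos k)
  have hSb : ∀ k, S k ≤ b := fun k => by rw [hS]; exact h3_stiff_le hb (hpos k)
  have hSm : ∀ k, S (k + 1) ≤ S k := by
    intro k
    rw [hS]
    have h := stiff_mono hb.le (hpos k) (show 1 ≤ 2 by norm_num)
    simp only
    rw [pow_succ, ← mul_assoc]
    exact h
  -- levels
  have hlevT : ∀ κ ∈ Tn, lev l0 κ < n ∧ κ.1 = l0 * 2 ^ (lev l0 κ) := by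
    intro κ hκ
    rw [hTn, Finset.mem_erase] at hκ
    obtain ⟨k, hk, h1, -⟩ := gt_geo hl hn hi hj hκ.2 hκ.1
    rw [lev_eq hl h1]
    exact ⟨hk, h1⟩
  -- one square
  obtain ⟨g, hg⟩ : ∃ g : ℕ → ℝ, g = fun k => 8 * b * C1 ^ 2 * ((l0 * 2 ^ k : ℕ) : ℝ) /
    (DD l0 a k : ℝ) ^ 3 := ⟨_, rfl⟩
  have hDpos : ∀ k, (0 : ℝ) < (DD l0 a k : ℝ) := by
    intro k
    have : 0 < DD l0 a k := by
      unfold DD
      exact Nat.mul_pos hs1' (by positivity)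
    exact_mod_cast this
  have hDl : ∀ k, ((l0 * 2 ^ k : ℕ) : ℝ) ≤ (DD l0 a k : ℝ) := by
    intro k
    have : l0 * 2 ^ k ≤ DD l0 a k := by
      unfold DD
      calc l0 * 2 ^ k ≤ (l0 * 2 ^ a) * 2 ^ k :=
            Nat.mul_le_mul_right _ (Nat.le_mul_of_pos_right _ (by positivity))
        _ ≤ (l0 * 2 ^ a) * ((k + 1) ^ 2 * 2 ^ k) :=
            Nat.mul_le_mul_left _ (Nat.le_mul_of_pos_left _ (by positivity))
    exact_mod_cast this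
  have hone : ∀ κ ∈ Tn, Real.exp (-(S (lev l0 κ) * Ek κ) - (κ.1 : ℝ) ^ 2 * g (lev l0 κ)) ≤
      WB b κ.1 κ.2 (alq (l0 * 2 ^ a) n i j) / WB b κ.1 κ.2 0 := by
    intro κ hκ
    obtain ⟨hk, hκ1⟩ := hlevT κ hκ
    have hκ' := hκ
    rw [hTn, Finset.mem_erase] at hκ'
    have hI := hinc l0 a n i j hl ha hn hi hj hsa κ hκ'.2 hκ'.1
    have hκpos : 1 ≤ κ.1 := by rw [hκ1]; exact hpos _
    have hD := hDpos (lev l0 κ)
    have hlD := hDl (lev l0 κ)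
    rw [← hκ1] at hlD
    have hkR : (0 : ℝ) < κ.1 := by exact_mod_cast hκpos
    have h1 := cell_weight' hb.le hκpos κ.2 (alq (l0 * 2 ^ a) n i j)
      (fun e => inc (l0 * 2 ^ a * 2 ^ n) (PP (l0 * 2 ^ a) i j) (κ.2 + bu e) (κ.2 + bv e))
      (C1 / (DD l0 a (lev l0 κ) : ℝ)) (C1 * κ.1 / (DD l0 a (lev l0 κ) : ℝ) ^ 2)
      (by positivity) (by positivity) (fun e => (hI e).1) (fun e => (hI e).2.1)
      (fun e e' he => (hI e).2.2 e' he)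
    refine le_trans ?_ h1
    rw [Real.exp_le_exp, sum_cell, sum_US]
    have e1 : S (lev l0 κ) * Ek κ = stiff κ.1 b / 4 *
        ∑ z ∈ US (κ.1, κ.2), g3_G4 (l0 * 2 ^ a * 2 ^ n) (PP (l0 * 2 ^ a) i j) z := by
      rw [hS, hEk]
      simp only
      rw [← hκ1]
      ring
    rw [e1]
    have e2 : 4 * b * (κ.1 : ℝ) ^ 2 * (C1 / (DD l0 a (lev l0 κ) : ℝ) *
        (C1 * κ.1 / (DD l0 a (lev l0 κ) : ℝ) ^ 2) +
        (C1 * κ.1 / (DD l0 a (lev l0 κ) : ℝ) ^ 2) ^ 2) ≤ (κ.1 : ℝ) ^ 2 * g (lev l0 κ) := by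
      rw [hg]
      simp only
      rw [← hκ1]
      have e3 : C1 / (DD l0 a (lev l0 κ) : ℝ) * (C1 * κ.1 / (DD l0 a (lev l0 κ) : ℝ) ^ 2) +
        (C1 * κ.1 / (DD l0 a (lev l0 κ) : ℝ) ^ 2) ^ 2 =
        C1 ^ 2 * κ.1 / (DD l0 a (lev l0 κ) : ℝ) ^ 3 * (1 + κ.1 / (DD l0 a (lev l0 κ) : ℝ)) := by
        field_simp
      have e4 : (1 + κ.1 / (DD l0 a (lev l0 κ) : ℝ)) ≤ 2 := by
        have : κ.1 / (DD l0 a (lev l0 κ) : ℝ) ≤ 1 := by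
          rw [div_le_one hD]; exact hlD
        linarith
      rw [e3]
      calc _ ≤ 4 * b * (κ.1 : ℝ) ^ 2 * (C1 ^ 2 * κ.1 / (DD l0 a (lev l0 κ) : ℝ) ^ 3 * 2) := by
            gcongr
        _ = _ := by ring
    linarith only [e2]
  have hprod : ∏ κ ∈ Tn, Real.exp (-(S (lev l0 κ) * Ek κ) - (κ.1 : ℝ) ^ 2 * g (lev l0 κ)) ≤
      ∏ κ ∈ Tn, WB b κ.1 κ.2 (alq (l0 * 2 ^ a) n i j) / WB b κ.1 κ.2 0 :=
    Finset.prod_le_prod (fun κ _ => (Real.exp_pos _).le) hone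
  rw [← hTn]
  refine le_trans ?_ hprod
  rw [← Real.exp_sum, Real.exp_le_exp, Finset.sum_sub_distrib, Finset.sum_neg_distrib]
  -- main term
  obtain ⟨hE1, hE2⟩ := hen l0 a n i j hl ha hn hi hj hsb
  have hmain := abel Tn Ek (lev l0) S n hSm (hS0 n) (fun κ hκ => (hlevT κ hκ).1.le)
    (fun m => Real.pi * (((m : ℝ) + 1) * Real.log 2 + 2 * Real.log ((m : ℝ) + 3)) + C2)
    (Real.pi * (n * Real.log 2) + C2)
    (by
      intro m hm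
      rw [hEk, hTn]
      exact hE2 m hm)
    (by rw [hEk, hTn]; exact hE1)
  have hsp : ∀ m : ℕ, ∑ j ∈ Finset.range m, (S j - S (j + 1)) * ((j : ℝ) + 1) =
      ∑ j ∈ Finset.range m, S j - m * S m := by
    intro m
    induction m with
    | zero => simp
    | succ m ih =>
      rw [Finset.sum_range_succ, Finset.sum_range_succ, ih]
      push_cast
      ring
  have hspl : ∑ m ∈ Finset.range n, (S m - S (m + 1)) *
      (Real.pi * (((m : ℝ) + 1) * Real.log 2 + 2 * Real.log ((m : ℝ) + 3)) + C2) =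
      Real.pi * Real.log 2 * ∑ m ∈ Finset.range n, (S m - S (m + 1)) * ((m : ℝ) + 1) +
      2 * Real.pi * ∑ m ∈ Finset.range n, (S m - S (m + 1)) * Real.log ((m : ℝ) + 3) +
      C2 * ∑ m ∈ Finset.range n, (S m - S (m + 1)) := by
    rw [Finset.mul_sum, Finset.mul_sum, Finset.mul_sum, ← Finset.sum_add_distrib,
      ← Finset.sum_add_distrib]
    exact Finset.sum_congr rfl fun m _ => by ring
  have htel : ∑ m ∈ Finset.range n, (S m - S (m + 1)) = S 0 - S n := by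
    exact Finset.sum_range_sub' S n
  rw [hspl, hsp, htel] at hmain
  -- error term
  have herr : ∑ κ ∈ Tn, (κ.1 : ℝ) ^ 2 * g (lev l0 κ) ≤ 12800 * B * C1 ^ 2 := by
    have h1 : ∑ κ ∈ Tn, (κ.1 : ℝ) ^ 2 * g (lev l0 κ) =
        ∑ k ∈ Finset.range n, ∑ κ ∈ Tn.filter (fun κ => lev l0 κ = k), (κ.1 : ℝ) ^ 2 *
          g (lev l0 κ) := by
      rw [Finset.sum_fiberwise_of_maps_to]
      intro κ hκ
      rw [Finset.mem_range]
      exact (hlevT κ hκ).1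
    rw [h1]
    have h2 : ∀ k ∈ Finset.range n, ∑ κ ∈ Tn.filter (fun κ => lev l0 κ = k), (κ.1 : ℝ) ^ 2 *
          g (lev l0 κ) ≤ 6400 * B * C1 ^ 2 * (1 / ((k : ℝ) + 1) ^ 2) := by
      intro k _
      have h3 : ∑ κ ∈ Tn.filter (fun κ => lev l0 κ = k), (κ.1 : ℝ) ^ 2 * g (lev l0 κ) =
          (∑ κ ∈ Tn.filter (fun κ => lev l0 κ = k), (κ.1 : ℝ) ^ 2) * g k := by
        rw [Finset.sum_mul]
        refine Finset.sum_congr rfl fun κ hκ => ?_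
        rw [Finset.mem_filter] at hκ
        rw [hκ.2]
      rw [h3]
      have h4 := gt_area hl ha hn hi hj k
      rw [← hTn] at h4
      have hg0 : 0 ≤ g k := by
        rw [hg]
        have := hDpos k
        positivity
      refine (mul_le_mul_of_nonneg_right h4 hg0).trans ?_
      rw [hg]
      simp only
      have hk0 : (0 : ℝ) ≤ k := k.cast_nonneg
      have hDk : (DD l0 a k : ℝ) = ((l0 * 2 ^ a : ℕ) : ℝ) * 2 ^ k * ((k : ℝ) + 1) ^ 2 := by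
        unfold DD
        push_cast
        ring
      have hlk : ((l0 * 2 ^ k : ℕ) : ℝ) ≤ ((l0 * 2 ^ a : ℕ) : ℝ) * 2 ^ k / 2 := by
        have : 2 * (l0 * 2 ^ k) ≤ l0 * 2 ^ a * 2 ^ k := by
          rw [← mul_assoc, mul_comm 2 l0]
          refine Nat.mul_le_mul_right _ (Nat.mul_le_mul_left _ ?_)
          calc 2 = 2 ^ 1 := by norm_num
            _ ≤ 2 ^ a := Nat.pow_le_pow_right (by norm_num) ha
        have h' : (2 : ℝ) * ((l0 * 2 ^ k : ℕ) : ℝ) ≤ ((l0 * 2 ^ a : ℕ) : ℝ) * 2 ^ k := by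
          exact_mod_cast this
        linarith only [h']
      rw [hDk]
      obtain ⟨X, hX⟩ : ∃ X : ℝ, X = ((l0 * 2 ^ a : ℕ) : ℝ) * 2 ^ k := ⟨_, rfl⟩
      rw [← hX] at hlk ⊢
      have hX0 : 0 < X := by rw [hX]; positivity
      have hk2 : ((k : ℝ) + 2) ^ 4 ≤ 16 * ((k : ℝ) + 1) ^ 4 := by
        have h5 : (k : ℝ) + 2 ≤ 2 * ((k : ℝ) + 1) := by linarith only [hk0]
        calc ((k : ℝ) + 2) ^ 4 ≤ (2 * ((k : ℝ) + 1)) ^ 4 := by gcongr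
          _ = _ := by ring
      calc (5 * ((k : ℝ) + 2) ^ 2 * X) ^ 2 * (8 * b * C1 ^ 2 * ((l0 * 2 ^ k : ℕ) : ℝ) /
            (X * ((k : ℝ) + 1) ^ 2) ^ 3)
          ≤ (5 * ((k : ℝ) + 2) ^ 2 * X) ^ 2 * (8 * B * C1 ^ 2 * (X / 2) /
            (X * ((k : ℝ) + 1) ^ 2) ^ 3) := by gcongr
        _ = 100 * B * C1 ^ 2 * (((k : ℝ) + 2) ^ 4 / ((k : ℝ) + 1) ^ 6) := by
            field_simp
            ring
        _ ≤ 100 * B * C1 ^ 2 * (16 * ((k : ℝ) + 1) ^ 4 / ((k : ℝ) + 1) ^ 6) := by gcongr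
        _ = 1600 * B * C1 ^ 2 * (1 / ((k : ℝ) + 1) ^ 2) := by
            field_simp
            ring
        _ ≤ _ := by
            have : 0 ≤ B * C1 ^ 2 * (1 / ((k : ℝ) + 1) ^ 2) := by positivity
            linarith only [this]
    refine (Finset.sum_le_sum h2).trans ?_
    rw [← Finset.mul_sum]
    have h5 := sum_inv_sq_le n
    have h6 : 0 ≤ 6400 * B * C1 ^ 2 := by positivity
    have h7 := mul_le_mul_of_nonneg_left h5 h6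
    linarith only [h7]
  have hC2b : C2 * (S 0 - S n) + S n * C2 ≤ B * C2 := by
    have h1 := hSb 0
    have h2 : C2 * (S 0 - S n) + S n * C2 = C2 * S 0 := by ring
    rw [h2, mul_comm B C2]
    exact mul_le_mul_of_nonneg_left (h1.trans hbB) (by linarith only [hC2])
  have hSS : ∑ k ∈ Finset.range n, stiff (l0 * 2 ^ k) b = ∑ k ∈ Finset.range n, S k := by rw [hS]
  have hSS' : ∑ k ∈ Finset.range n, (stiff (l0 * 2 ^ k) b - stiff (l0 * 2 ^ (k + 1)) b) *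
        Real.log ((k : ℝ) + 3) = ∑ m ∈ Finset.range n, (S m - S (m + 1)) *
        Real.log ((m : ℝ) + 3) := by rw [hS]
  rw [hSS, hSS']
  have hfin : S n * (Real.pi * (n * Real.log 2) + C2) = Real.pi * Real.log 2 * (n * S n) +
      S n * C2 := by ring
  rw [hfin] at hmain
  have hmain2 : Real.pi * Real.log 2 * (∑ j ∈ Finset.range n, S j - n * S n) =
      Real.pi * Real.log 2 * ∑ j ∈ Finset.range n, S j - Real.pi * Real.log 2 * (n * S n) := by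
    ring
  rw [hmain2] at hmain
  linarith only [hmain, herr, hC2b]

end H529

end Vale.Agent.P159
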