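import Vale.Agent.P159.H27.Ub2
import Vale.Agent.P159.H276.Fo4
import Vale.Agent.P159.H280.Prk
import Vale.Agent.P159.H474.Cb15
import Vale.Agent.P159.H856.Dl3
import Vale.Agent.P159.H529.Dor3

/-!
P159 (helper529), module PR, part 1: the price of an edge field (helper280's `PRS`).

* `prs_C` : the price of decorated data, general constants: `2 log C + 2 B + ∑ K² / t + 2 b ∑ (cosh j - 1)`;
* `base_num` : the base number `B = 2 Del - log CW + A` (every dislocation), `A` for a real field;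
* `prs_real`, `prs_rdec` : real fields, decorated real fields;
* `prs_dis` : dislocated data.
-/

set_option linter.unusedSectionVars false

namespace Vale.Agent.P159.H529.Pr

open Finset
open Vale.Agent.P159.H37 (ZM Zn qf re)
open Vale.Agent.P159.H770 (Ed eS eT wTD grd gwf_wTD wTD_zero)
open Vale.Agent.P159.TM.SpecC (Tor wT)
open Vale.Agent.P159.TM.Spec (V)
open Vale.Agent.P159.TM.H459 (sd sn)
open Vale.Agent.P159.H474.Cb (GE GOK QB Qc Qc_congr Qc_nonneg)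
open Vale.Agent.P159.H817 (eF gr dv nrm e1 e2 eb sz)
open Vale.Agent.P159.H27 (EXB exb_one prC_Zn pr_div UE)
open Vale.Agent.P159.H276 (Uex Dcr QB_dec)
open Vale.Agent.P159.H280.Hs (PRS cstK GOKK QBK gokK_iff qbK_iff)
open Vale.Agent.P159.H883
open Vale.Agent.P159.H963 (gw_wT)
open Vale.Agent.P159.H856.Dl (CW Del lD pD gP_split pD_nonneg lD_sq CW_pos Del_nonneg)

noncomputable section

section base

variable {N : ℕ} [NeZero N] {b t : ℝ}

lemma gr_addc (φ : Tor N → ℝ) (c : ℝ) (e : Ed N) : gr (fun x => φ x + c) e = gr φ e := by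
  obtain ⟨x, o⟩ := e
  cases o
  · simp only [H817.gr_false]; ring
  · simp only [H817.gr_true]; ring

/-- **the base number** : `log Zn 0 - log Zn(η, φ + h) ≤ 2 Del - log CW + A` -/
theorem base_num (hb : 0 < b) (ht : 0 < t) (η : Ed N → ℤ) (φ h : Tor N → ℝ) {A : ℝ}
    (hA : qf (H963.An (wT b N) (t • (1 : Matrix (Tor N) (Tor N) ℝ)) t 0) h ≤ A) :
    Zn (wT b N) (t • (1 : Matrix (Tor N) (Tor N) ℝ)) 0 ≤
      Real.exp (2 * Del (wTD N b) (t • (1 : Matrix (Tor N) (Tor N) ℝ)) t 0 η φ -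
        Real.log (CW (wTD N b) 0 η) + A) *
      Zn (wTD N b η) (t • (1 : Matrix (Tor N) (Tor N) ℝ)) (φ + h) := by
  have hW := gwf_wTD (N := N) hb
  have hM := H963.mf_smul (N := N) ht
  have hE := em_pin_wTD (N := N) hb
  set D := Del (wTD N b) (t • (1 : Matrix (Tor N) (Tor N) ℝ)) t 0 η φ with hD
  have h1 := gP_split hW hM (0 : Tor N) η φ h
  have h2 := pD_nonneg hW hM (0 : Tor N) η φ h
  have h3 := lD_sq hW hE hM (0 : Tor N) η φ h
  have h4 := Del_nonneg hW hE hM (0 : Tor N) η φ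
  rw [← hD] at h3 h4
  have z1 := hW.Zn_pos hM η (φ + h)
  have z0 := hW.Zn_pos hM 0 (0 : Tor N → ℝ)
  set q := qf (H963.An (wTD N b 0) (t • (1 : Matrix (Tor N) (Tor N) ℝ)) t 0) h with hq
  have hqA : q ≤ A := by
    rw [hq, wTD_zero]
    exact hA
  have hq0 : 0 ≤ q := by
    rw [hq, wTD_zero]
    exact (gw_wT (N := N) hb.le).qf_An_nonneg hM (0 : Tor N) h
  have h5 : -(D + q / 2) ≤ lD (wTD N b) (t • (1 : Matrix (Tor N) (Tor N) ℝ)) t 0 η φ h := by
    refine (abs_le.1 (abs_le_of_sq_le_sq ?_ (by linarith))).1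
    refine h3.trans ?_
    nlinarith [sq_nonneg (D - q / 2)]
  have h6 : gP (wTD N b) (t • (1 : Matrix (Tor N) (Tor N) ℝ)) t 0 ((η, φ), 0) =
      Real.log (CW (wTD N b) 0 η) - D := by
    rw [hD]; unfold Del; ring
  have h7 : gP (wTD N b) (t • (1 : Matrix (Tor N) (Tor N) ℝ)) t 0 ((η, φ), h) =
      Real.log (Zn (wTD N b η) (t • (1 : Matrix (Tor N) (Tor N) ℝ)) (φ + h)) -
        Real.log (Zn (wTD N b 0) (t • (1 : Matrix (Tor N) (Tor N) ℝ)) 0) + q / 2 := by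
    unfold gP
    rw [hq]
  rw [← wTD_zero]
  have h8 : Real.log (Zn (wTD N b 0) (t • (1 : Matrix (Tor N) (Tor N) ℝ)) 0) ≤
      (2 * D - Real.log (CW (wTD N b) 0 η) + A) +
        Real.log (Zn (wTD N b η) (t • (1 : Matrix (Tor N) (Tor N) ℝ)) (φ + h)) := by
    linarith
  rw [← Real.exp_log z0]
  refine (Real.exp_le_exp.2 h8).trans (le_of_eq ?_)
  rw [Real.exp_add, Real.exp_log z1]

/-- the base number of a real field -/
theorem base_real (hb : 0 < b) (ht : 0 < t) (h : Tor N → ℝ) {A : ℝ}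
    (hA : qf (H963.An (wT b N) (t • (1 : Matrix (Tor N) (Tor N) ℝ)) t 0) h ≤ A) :
    Zn (wT b N) (t • (1 : Matrix (Tor N) (Tor N) ℝ)) 0 ≤
      Real.exp A * Zn (wTD N b 0) (t • (1 : Matrix (Tor N) (Tor N) ℝ)) h := by
  have hW := gwf_wTD (N := N) hb
  have hE := em_pin_wTD (N := N) hb
  have h1 := base_num hb ht (0 : Ed N → ℤ) 0 h hA
  have hz := (gwf_bw hW hE 0).Zp_pos (0 : Tor N)
  have h2 : CW (wTD N b) (0 : Tor N) 0 = 1 := by
    unfold CW
    exact div_self hz.ne'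
  have h3 : Del (wTD N b) (t • (1 : Matrix (Tor N) (Tor N) ℝ)) t 0 0 0 = 0 := by
    unfold Del gP
    rw [h2]
    simp only [Real.log_one, add_zero, H37.qf_zero_vec, zero_div, sub_self]
  rw [h3, h2, Real.log_one, mul_zero, sub_zero, zero_add, zero_add] at h1
  exact h1

end base

section prs

variable {m n : ℕ} [NeZero ((m + 1) * (n + 2))] [NeZero ((m + 1) * 2)] {b t : ℝ}
  {f K : V ((m + 1) * (n + 2)) → ℝ} {j : V ((m + 1) * (n + 2)) × Bool → ℝ} {κ ρ : ℕ}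
  {Pc Kc : Finset (V ((m + 1) * (n + 2)))}

lemma Uex_addc (η : V ((m + 1) * (n + 2)) × Bool → ℤ) (φ : V ((m + 1) * (n + 2)) → ℝ) (c : ℝ) :
    Uex b t η (fun x => φ x + c) f K j = Uex b t η φ f K j := by
  unfold Uex
  simp only [gr_addc]

lemma Uex_UE (η : V ((m + 1) * (n + 2)) × Bool → ℤ) (φ : V ((m + 1) * (n + 2)) → ℝ) :
    Uex b t η φ f K j = UE b t η j φ f K := by
  unfold Uex UE
  ring

/-- **the price of decorated data**, general constants -/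
theorem prs_C (hb : 0 < b) (ht : 0 < t) (η : V ((m + 1) * (n + 2)) × Bool → ℤ)
    (φ : V ((m + 1) * (n + 2)) → ℝ) (h : Dcr t ρ Pc f K j) (hρ : ρ + 2 ≤ κ) (hKc : Kc ⊆ Pc)
    {r : V ((m + 1) * (n + 2)) → ℕ} (hr : ∀ z ∈ Kc, r z + 1 ≤ κ)
    (hsep : ∀ z ∈ Kc, ∀ z' ∈ Kc, z ≠ z' → r z + r z' + 2 ≤ sd z z')
    (hjr : ∀ z ∈ Kc, ∀ e : V ((m + 1) * (n + 2)) × Bool, sz (e.1 - z) ≤ r z + 1 → j e = 0)
    {C B : ℝ} (hC : 0 < C)
    (hQ : ∏ z ∈ Kc, Qc b ((η, φ) : GE ((m + 1) * (n + 2))) z (r z) ≤ C)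
    (hX : EXB ((m + 1) * (n + 2)) b η (fun e => -j e) C)
    (hB : Zn (wT b ((m + 1) * (n + 2))) (t • (1 : Matrix (Tor ((m + 1) * (n + 2)))
      (Tor ((m + 1) * (n + 2))) ℝ)) 0 ≤
      Real.exp B * Zn (wTD ((m + 1) * (n + 2)) b η) (t • (1 : Matrix (Tor ((m + 1) * (n + 2)))
      (Tor ((m + 1) * (n + 2))) ℝ)) φ) :
    PRS m n κ b t Pc (eF η fun x => φ x + f x)
      (2 * (Real.log C + B) + (2 * (b * ∑ e, (Real.cosh (j e) - 1)) + (∑ x, K x ^ 2) / t)) := by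
  have hM := H963.mf_smul (N := (m + 1) * (n + 2)) ht
  have hp : ∀ (η : Ed ((m + 1) * (n + 2)) → ℤ) (G : Tor ((m + 1) * (n + 2)) → ℝ),
      0 < Zn (wTD ((m + 1) * (n + 2)) b η) (t • (1 : Matrix (Tor ((m + 1) * (n + 2)))
        (Tor ((m + 1) * (n + 2))) ℝ)) G :=
    fun η G => (gwf_wTD (N := (m + 1) * (n + 2)) hb).Zn_pos hM η G
  have z0 := hp 0 0
  rw [wTD_zero] at z0
  refine PRS.of_one hb (Y := (η, fun x => φ x + f x)) rfl
    (Q := C * Real.exp (Uex b t η φ f K j)) (by positivity) (fun c s hs => ?_) ?_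
  · rw [gokK_iff] at hs
    rw [qbK_iff]
    have h1 := QB_dec hb ht η (fun x => φ x + c) h hρ hKc hs hr hsep hjr
    rw [Uex_addc] at h1
    have e1 : ((η, fun x => φ x + f x) : GE ((m + 1) * (n + 2))) + cstK ((m + 1) * (n + 2)) c =
        (η, fun x => (φ x + c) + f x) := by
      refine Prod.ext ?_ ?_
      · show η + 0 = η
        rw [add_zero]
      · funext x
        show (φ x + f x) + c = (φ x + c) + f x
        ring
    rw [e1]
    obtain ⟨q, a1, a2, a3⟩ := h1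
    refine ⟨q, a1, a2, a3.trans (mul_le_mul_of_nonneg_right ?_ (Real.exp_pos _).le)⟩
    refine (Finset.prod_congr rfl fun z _ => ?_).trans_le hQ
    exact Qc_congr (X := ((η, fun x => (φ x + c) + f x) : GE ((m + 1) * (n + 2)))) (Y := (η, φ))
      rfl z (r z)
  · have h2 := prC_Zn hb ht hC.le hX φ f K h.eq
    have h3 := pr_div z0 (hp η φ) (hp η _).le hC.le h2 hB
    rw [wTD_zero, Uex_UE]
    refine h3.trans (mul_le_mul_of_nonneg_right (le_of_eq ?_) (hp η _).le)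
    have e2 : C ^ 2 = Real.exp (2 * Real.log C) := by
      rw [two_mul, Real.exp_add, Real.exp_log hC, pow_two]
    rw [e2, ← Real.exp_add]
    congr 1
    ring

lemma prs_mono {β : V ((m + 1) * (n + 2)) × Bool → ℝ} {pr pr' : ℝ} (hb : 0 < b) (ht : 0 < t)
    (h : PRS m n κ b t Pc β pr) (hp : pr ≤ pr') : PRS m n κ b t Pc β pr' := by
  intro Y hY
  obtain ⟨Q, q0, q1, q2⟩ := h Y hY
  refine ⟨Q, q0, q1, q2.trans (mul_le_mul_of_nonneg_right (Real.exp_le_exp.2 hp) ?_)⟩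
  exact ((gwf_wTD (N := (m + 1) * (n + 2)) hb).Zn_pos (H963.mf_smul ht) Y.1 Y.2).le

lemma eF_zero (F : V ((m + 1) * (n + 2)) → ℝ) : eF 0 F = gr F := by
  funext e
  unfold eF
  simp only [Pi.zero_apply, Int.cast_zero, zero_add]

lemma dcr_zero (ρ : ℕ) (Pc : Finset (V ((m + 1) * (n + 2)))) :
    Dcr t ρ Pc (fun _ => 0) (fun _ => 0) fun _ => 0 where
  f0 := fun x hx => absurd rfl hx
  K0 := fun x hx => absurd rfl hx
  j0 := fun e he => absurd rfl he
  eq := fun x => by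
    unfold dv
    ring

/-- **decorated real fields** -/
theorem prs_rdec (hb : 0 < b) (ht : 0 < t) (h : Dcr t ρ Pc f K j) (hρ : ρ + 2 ≤ κ)
    (g : V ((m + 1) * (n + 2)) → ℝ) {A Ks J : ℝ}
    (hA : qf (H963.An (wT b ((m + 1) * (n + 2))) (t • (1 : Matrix (Tor ((m + 1) * (n + 2)))
      (Tor ((m + 1) * (n + 2))) ℝ)) t 0) g ≤ A)
    (hK : ∑ x, K x ^ 2 ≤ t * Ks) (hJ : ∑ e, (Real.cosh (j e) - 1) ≤ J) :
    PRS m n κ b t Pc (gr fun x => g x + f x) (2 * (A + b * J) + Ks) := by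
  have h1 := prs_C (Kc := ∅) (C := 1) (B := A) (κ := κ) hb ht 0 g h hρ (Finset.empty_subset _)
    (r := fun _ => 0) (fun z hz => absurd hz (Finset.notMem_empty z))
    (fun z hz => absurd hz (Finset.notMem_empty z)) (fun z hz => absurd hz (Finset.notMem_empty z))
    one_pos (by rw [Finset.prod_empty]) (exb_one (by
      have : 1 * 2 ≤ (m + 1) * (n + 2) := Nat.mul_le_mul (by omega) (by omega)
      omega) hb.le _ _) (base_real hb ht g hA)
  rw [eF_zero] at h1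
  refine prs_mono hb ht h1 ?_
  have h2 : (∑ x, K x ^ 2) / t ≤ Ks := by
    rw [div_le_iff₀ ht]
    linarith
  have h3 := mul_le_mul_of_nonneg_left hJ hb.le
  rw [Real.log_one]
  linarith

/-- **real fields** -/
theorem prs_real (hb : 0 < b) (ht : 0 < t) (hκ : 2 ≤ κ) (Pc : Finset (V ((m + 1) * (n + 2))))
    (g : V ((m + 1) * (n + 2)) → ℝ) {A : ℝ}
    (hA : qf (H963.An (wT b ((m + 1) * (n + 2))) (t • (1 : Matrix (Tor ((m + 1) * (n + 2)))
      (Tor ((m + 1) * (n + 2))) ℝ)) t 0) g ≤ A) :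
    PRS m n κ b t Pc (gr g) (2 * A) := by
  have h := prs_rdec (κ := κ) (Ks := 0) (J := 0) hb ht (dcr_zero 0 Pc) (by omega) g hA
    (by simp) (by simp)
  simp only [add_zero, mul_zero] at h
  exact h

/-- **dislocated data**: `C` is the wired correlation of the two cores -/
theorem prs_dis (hb : 0 < b) (ht : 0 < t) (η : V ((m + 1) * (n + 2)) × Bool → ℤ)
    (φ g : V ((m + 1) * (n + 2)) → ℝ) (h : Dcr t ρ Pc f K j) (hρ : ρ + 2 ≤ κ) (hKc : Kc ⊆ Pc)
    {r : V ((m + 1) * (n + 2)) → ℕ} (hr : ∀ z ∈ Kc, r z + 1 ≤ κ)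
    (hsep : ∀ z ∈ Kc, ∀ z' ∈ Kc, z ≠ z' → r z + r z' + 2 ≤ sd z z')
    (hjr : ∀ z ∈ Kc, ∀ e : V ((m + 1) * (n + 2)) × Bool, sz (e.1 - z) ≤ r z + 1 → j e = 0)
    {C A Ks J Δ c : ℝ} (hC : 0 < C)
    (hQ : ∏ z ∈ Kc, Qc b ((η, φ) : GE ((m + 1) * (n + 2))) z (r z) ≤ C)
    (hX : EXB ((m + 1) * (n + 2)) b η (fun e => -j e) C)
    (hA : qf (H963.An (wT b ((m + 1) * (n + 2))) (t • (1 : Matrix (Tor ((m + 1) * (n + 2)))
      (Tor ((m + 1) * (n + 2))) ℝ)) t 0) g ≤ A)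
    (hΔ : Del (wTD ((m + 1) * (n + 2)) b) (t • (1 : Matrix (Tor ((m + 1) * (n + 2)))
      (Tor ((m + 1) * (n + 2))) ℝ)) t 0 η φ ≤ Δ)
    (hc : C ≤ Real.exp c * CW (wTD ((m + 1) * (n + 2)) b) 0 η)
    (hK : ∑ x, K x ^ 2 ≤ t * Ks) (hJ : ∑ e, (Real.cosh (j e) - 1) ≤ J) :
    PRS m n κ b t Pc (fun e => eF η φ e + gr (fun x => g x + f x) e)
      (2 * (c + 2 * Δ + A + b * J) + Ks) := by
  have h1 := prs_C (κ := κ) hb ht η (φ + g) h hρ hKc hr hsep hjr hC (by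
      refine (Finset.prod_congr rfl fun z _ => ?_).trans_le hQ
      exact Qc_congr (X := ((η, φ + g) : GE ((m + 1) * (n + 2)))) (Y := (η, φ)) rfl z (r z)) hX
    (base_num hb ht η φ g hA)
  have e1 : (eF η fun x => (φ + g) x + f x) = fun e => eF η φ e + gr (fun x => g x + f x) e := by
    funext e
    obtain ⟨x, o⟩ := e
    unfold eF
    cases o
    · simp only [H817.gr_false, Pi.add_apply]; ring
    · simp only [H817.gr_true, Pi.add_apply]; ring
  rw [e1] at h1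
  refine prs_mono hb ht h1 ?_
  have h2 : (∑ x, K x ^ 2) / t ≤ Ks := by
    rw [div_le_iff₀ ht]
    linarith
  have h3 := mul_le_mul_of_nonneg_left hJ hb.le
  have hz : 0 < CW (wTD ((m + 1) * (n + 2)) b) 0 η :=
    CW_pos (gwf_wTD (N := (m + 1) * (n + 2)) hb) (em_pin_wTD hb) _ η
  have h4 : Real.log C ≤ c + Real.log (CW (wTD ((m + 1) * (n + 2)) b) 0 η) := by
    have h5 := Real.log_le_log hC hc
    rw [Real.log_mul (Real.exp_pos _).ne' hz.ne', Real.log_exp] at h5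
    exact h5
  linarith

end prs

end

end Vale.Agent.P159.H529.Pr
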