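import Vale.Agent.P159.H529.Pr1
import Vale.Agent.P159.H276.Fo5
import Vale.Agent.P159.H856.Dlb

/-!
P159 (helper529), module PR, part 2: the price of a far pair in helper817's letters (`cfg`, `edec`,
`dec`), decorations in helper276's class `FlD`.

* `exb_pair`, `Qc_pair` : the two cores;
* `mm_CT` : `mm b r ^ 2 ≤ e^c CT`, `c = C (1 + log (N / r))`;
* `prs_cfg` : decorated far pairs with a smooth change;
* `prs_edec`, `prs_dec1` : decorated real fields.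
-/

set_option linter.unusedSectionVars false

namespace Vale.Agent.P159.H529.Pr

open Finset
open Vale.Agent.P159.H37 (ZM Zn qf re)
open Vale.Agent.P159.H770 (Ed eS eT wTD grd gwf_wTD wTD_zero)
open Vale.Agent.P159.TM.SpecC (Tor wT)
open Vale.Agent.P159.TM.Spec (V)
open Vale.Agent.P159.TM.H459 (sd sn)
open Vale.Agent.P159.H474.Cb (GE GOK QB Qc Qc_congr Qc_nonneg Qc_one chg)
open Vale.Agent.P159.H817 (eF gr dv nrm e1 e2 eb sz bD v1 v2 IsPath dec edec cfg GB)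
open Vale.Agent.P159.H27 (EXB exb_one prC_Zn pr_div UE)
open Vale.Agent.P159.H276 (Uex Dcr QB_dec FlD Dcs dcs_dec dcs_edec)
open Vale.Agent.P159.H280.Hs (PRS cstK GOKK QBK gokK_iff qbK_iff)
open Vale.Agent.P159.H883
open Vale.Agent.P159.H253.Rec (RecAt ga ua)
open Vale.Agent.P159.H253.Sm (cz dsp dsp_spec nm_dsp)
open Vale.Agent.P159.H513 (cuZ)
open Vale.Agent.P159.H773 (mm)
open Vale.Agent.P159.H856.Dl (CW Del EXD cS exd_pair0 XD kap_pair)

noncomputable section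

section pair

variable {N : ℕ} [NeZero N] {b t : ℝ} {p q : V N} {L r : ℕ} {η : Ed N → ℤ}

/-- (EXP-D) at a pair, the sign of 27's `prC_Zn` -/
theorem exb_pair (hN : 2 ≤ N) (hb : 0 ≤ b) (hpath : IsPath p q (v1 p q) (v2 p q) L η)
    (h1 : 2 * r + 2 ≤ sz (q - p)) (h2 : 4 * sz (q - p) ≤ N) {j : Ed N → ℝ}
    (hjp : ∀ e : Ed N, sz (e.1 - p) ≤ r + 1 → j e = 0)
    (hjq : ∀ e : Ed N, sz (e.1 - q) ≤ r + 1 → j e = 0) :
    EXB N b η (fun e => -j e) (mm b r ^ 2) := by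
  obtain ⟨M, rfl⟩ : ∃ M, N = M + 2 := ⟨N - 2, by omega⟩
  have h := exd_pair0 (d := dsp p q) hb hpath (dsp_spec p q) (ρ := r)
    (by rw [nm_dsp]; exact h1) (by rw [nm_dsp]; exact h2)
  have h3 := (h (fun e => -j e) fun e he => by
    unfold cS at he
    rw [Finset.mem_filter] at he
    rcases he.2 with h4 | h4
    · rw [hjp e h4, neg_zero]
    · rw [hjq e h4, neg_zero]).2
  unfold EXB
  rw [wTD_zero] at h3
  exact h3

lemma cz_zero_of {r : ℕ} (hr : r < N) {v : ℤ × ℤ} (hv : v ∈ box r) (h : cz N v = 0) : v = 0 := by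
  rw [XY.mem_box] at hv
  have h1 : ((v.1 : ℤ) : ZMod N) = 0 := congrArg Prod.fst h
  have h2 : ((v.2 : ℤ) : ZMod N) = 0 := congrArg Prod.snd h
  rw [ZMod.intCast_zmod_eq_zero_iff_dvd] at h1 h2
  have h3 := Int.eq_zero_of_abs_lt_dvd h1 (by rw [Int.abs_eq_natAbs]; omega)
  have h4 := Int.eq_zero_of_abs_lt_dvd h2 (by rw [Int.abs_eq_natAbs]; omega)
  exact Prod.ext h3 h4

/-- the wired correlations of the two cores -/
theorem Qc_pair (hb : 0 ≤ b) (hpath : IsPath p q (v1 p q) (v2 p q) L η)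
    (h1 : r < sz (q - p)) (h2 : r < N) (φ : V N → ℝ) :
    ∏ z ∈ ({p, q} : Finset (V N)), Qc b ((η, φ) : GE N) z r ≤ mm b r ^ 2 := by
  have hpq : p ≠ q := by
    intro h
    rw [h, sub_self, H817.sz_zero] at h1
    omega
  have hc : ∀ x, cuZ η x = (if x = p then 1 else 0) - if x = q then 1 else 0 :=
    H37.Fp.path_cuZ hpath
  have hcz : ∀ v : ℤ × ℤ, (((v.1 : ℤ) : ZMod N), ((v.2 : ℤ) : ZMod N)) = cz N v := fun v => rfl
  have hnp : ∀ v ∈ box r, p + cz N v ≠ q := by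
    intro v hv h
    have h3 := H856.Dl.sz_cz (N := N) v
    rw [XY.mem_box_iff_nm] at hv
    have h4 : q - p = cz N v := by
      rw [← h]; abel
    rw [h4] at h1
    omega
  have hnq : ∀ v ∈ box r, q + cz N v ≠ p := by
    intro v hv h
    have h3 := H856.Dl.sz_cz (N := N) v
    rw [XY.mem_box_iff_nm] at hv
    have h4 : p - q = cz N v := by
      rw [← h]; abel
    rw [H817.sz_sub_comm, h4] at h1
    omega
  have h0 : (0 : ℤ × ℤ) ∈ box 0 := by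
    rw [XY.mem_box]
    simp
  have h0r : (0 : ℤ × ℤ) ∈ box r := by
    rw [XY.mem_box]
    simp
  have c0 : cz N 0 = 0 := by
    unfold cz
    simp
  have a1 : Qc b ((η, φ) : GE N) p r ≤ mm b r := by
    refine (Qc_one hb h0 (Nat.zero_le r) (Or.inl ?_) fun v hv hv0 => ?_).trans (le_of_eq (by simp))
    · unfold chg
      rw [hcz, hc, if_pos (by rw [c0, add_zero]), if_neg (hnp 0 h0r)]
      norm_num
    · unfold chg
      rw [hcz, hc, if_neg (fun h => hv0 (cz_zero_of h2 hv (add_eq_left.1 h))), if_neg (hnp v hv)]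
      norm_num
  have a2 : Qc b ((η, φ) : GE N) q r ≤ mm b r := by
    refine (Qc_one hb h0 (Nat.zero_le r) (Or.inr ?_) fun v hv hv0 => ?_).trans (le_of_eq (by simp))
    · unfold chg
      rw [hcz, hc, if_neg (hnq 0 h0r), if_pos (by rw [c0, add_zero])]
      norm_num
    · unfold chg
      rw [hcz, hc, if_neg (hnq v hv), if_neg (fun h => hv0 (cz_zero_of h2 hv (add_eq_left.1 h)))]
      norm_num
  rw [Finset.prod_pair hpq, pow_two]
  exact mul_le_mul a1 a2 (Qc_nonneg hb _ _ _) ((Qc_nonneg hb _ _ _).trans a1)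

/-- **the number of the cores** : `mm b r ^ 2 ≤ e^c CT` with `c = C (1 + log (N / r))` -/
theorem mm_CT {α C1 : ℝ} (hb : 0 < b) (hα0 : 0 ≤ α) (hα1 : α ≤ 1) (hC1 : 1 ≤ C1) :
    ∃ C A0 : ℝ, 1 ≤ C ∧ 16 ≤ A0 ∧ ∀ (N : ℕ) [NeZero N] (L r R : ℕ) (η : Ed N → ℤ) (p q : V N),
      RecAt b α C1 R → 32 ≤ R → R ≤ 2 * sz (q - p) → sz (q - p) ≤ 4 * R → A0 * R ≤ N →
      IsPath p q (v1 p q) (v2 p q) L η → 1 ≤ r → 8 * r ≤ R →
      mm b r ^ 2 ≤ Real.exp (C * (1 + Real.log (N / r))) * CT N b η := by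
  set k : ℝ := (12 * C1) ^ (-(8 * (4 : ℝ) + 1)) / 2 with hk
  have hpw : (0 : ℝ) < (12 * C1) ^ (-(8 * (4 : ℝ) + 1)) := Real.rpow_pos_of_pos (by linarith) _
  have hpw1 : (12 * C1) ^ (-(8 * (4 : ℝ) + 1)) ≤ 1 :=
    Real.rpow_le_one_of_one_le_of_nonpos (by linarith) (by norm_num)
  have hk0 : 0 < k := half_pos hpw
  have hk1 : k ≤ 1 := (half_le_self hpw.le).trans hpw1
  obtain ⟨A1, hA1, hCT⟩ := H37.Fp.far_CT (α := α) (C1 := C1) hb.le hα0 hα1 hC1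
    (B := 4) (by norm_num)
  have hlk : Real.log k ≤ 0 := Real.log_nonpos hk0.le hk1
  have hlC : 0 ≤ Real.log C1 := Real.log_nonneg hC1
  refine ⟨1 + Real.log C1 - Real.log k, max A1 16, by linarith, le_max_right _ _, ?_⟩
  intro N _ L r R η p q hrec hR32 hfar1 hfar2 hAN hpath hr1 hrR
  have hRpos : (0 : ℝ) < R := by
    have : 0 < R := by omega
    exact_mod_cast this
  have h16N : 16 * R ≤ N := by
    have h1 : (16 : ℝ) * R ≤ max A1 16 * R :=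
      mul_le_mul_of_nonneg_right (le_max_right _ _) hRpos.le
    have h2 := h1.trans hAN
    exact_mod_cast h2
  obtain ⟨M, rfl⟩ : ∃ M, N = M + 2 := ⟨N - 2, by omega⟩
  have hlow : k * ga b R ≤ CT (M + 2) b η := by
    have b1 : 8 * (4 : ℝ) ≤ R := by
      have : (32 : ℝ) ≤ R := by exact_mod_cast hR32
      linarith
    have b2 : ((XY.nm (v1 p q, v2 p q) : ℕ) : ℝ) ≤ 4 * R := by
      have : XY.nm (v1 p q, v2 p q) ≤ 4 * R := hfar2
      exact_mod_cast this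
    have b3 : (R : ℝ) ≤ 4 * ((XY.nm (v1 p q, v2 p q) : ℕ) : ℝ) := by
      have h5 : R ≤ 2 * XY.nm (v1 p q, v2 p q) := hfar1
      have h6 : (R : ℝ) ≤ 2 * ((XY.nm (v1 p q, v2 p q) : ℕ) : ℝ) := by exact_mod_cast h5
      have h7 : (0 : ℝ) ≤ ((XY.nm (v1 p q, v2 p q) : ℕ) : ℝ) := Nat.cast_nonneg _
      linarith
    have b4 : A1 * R ≤ (M : ℝ) + 2 := by
      have h5 : A1 * R ≤ max A1 16 * R := mul_le_mul_of_nonneg_right (le_max_left _ _) hRpos.le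
      have h6 := h5.trans hAN
      push_cast at h6
      exact h6
    exact (hCT M R L p q (v1 p q) (v2 p q) η hpath b1 hrec b2 b3 b4).1
  obtain ⟨_, hm, _, _, _, h6⟩ := kap_pair (M := M) (n := max 1 (-Real.log (ga b R))) hb hα0 hα1 hC1
    hk0 hk1 hrec hfar1 hfar2 h16N hpath hr1 hrR hlow (le_max_left _ _) (le_max_right _ _)
  have hc := CT_pos hb η
  rw [Real.log_le_iff_le_exp (div_pos hm hc), div_le_iff₀ hc] at h6
  exact h6

/-- the base data of the pair `(p, q)` : zero background number at most `Δ`, number of the cores `c`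
(core radius `r`) -/
def PrN (N : ℕ) [NeZero N] (b t : ℝ) (r : ℕ) (p q : V N) (Δ c : ℝ) : Prop :=
  ∃ (L : ℕ) (η : Ed N → ℤ) (φ : V N → ℝ), IsPath p q (v1 p q) (v2 p q) L η ∧
    (∀ e, eF η φ e = bD p q e) ∧
    Del (wTD N b) (t • (1 : Matrix (V N) (V N) ℝ)) t 0 η φ ≤ Δ ∧
    mm b r ^ 2 ≤ Real.exp c * CT N b η

/-- `PrN` from the zero background number of the canonical representative -/
theorem prN_of {c Δ : ℝ} (hΔ : ∀ (L : ℕ) (η : Ed N → ℤ) (φ : V N → ℝ),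
      IsPath p q (v1 p q) (v2 p q) L η → (∀ e, eF η φ e = bD p q e) →
      Del (wTD N b) (t • (1 : Matrix (V N) (V N) ℝ)) t 0 η φ ≤ Δ)
    (hc : ∀ (L : ℕ) (η : Ed N → ℤ), IsPath p q (v1 p q) (v2 p q) L η →
      mm b r ^ 2 ≤ Real.exp c * CT N b η) : PrN N b t r p q Δ c := by
  obtain ⟨η, hη⟩ := H817.exists_path' p q
  have h1 : ∀ e, eF η (H817.pot fun e => (η e : ℝ)) e = bD p q e := fun e => (hη.bD_eq e).symm
  exact ⟨_, η, _, hη, h1, hΔ _ η _ hη h1, hc _ η hη⟩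

end pair

section inst

variable {m n : ℕ} [NeZero ((m + 1) * (n + 2))] [NeZero ((m + 1) * 2)] {b t : ℝ}
  {κ ρ r : ℕ} {F0 F1 : ℤ → ℤ → ℝ} {A A' J J' : ℝ} {p q : V ((m + 1) * (n + 2))}

/-- **decorated far pairs with a smooth change** -/
theorem prs_cfg (hb : 0 < b) (ht : 0 < t) {Δ c : ℝ}
    (hP : PrN ((m + 1) * (n + 2)) b t r p q Δ c)
    (h0 : FlD t ρ r A J F0) (h1 : FlD t ρ r A' J' F1) (hN : 2 * ρ + 4 < (m + 1) * (n + 2))
    (hs1 : 2 * ρ < sz (q - p)) (hs2 : 2 * r + 2 ≤ sz (q - p)) (hs3 : ρ + r + 1 < sz (q - p))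
    (h4 : 4 * sz (q - p) ≤ (m + 1) * (n + 2)) (hρ : ρ + 2 ≤ κ) (hr : r + 1 ≤ κ)
    (g : V ((m + 1) * (n + 2)) → ℝ) {B : ℝ}
    (hB : qf (H963.An (wT b ((m + 1) * (n + 2))) (t • (1 : Matrix (Tor ((m + 1) * (n + 2)))
      (Tor ((m + 1) * (n + 2))) ℝ)) t 0) g ≤ B) :
    PRS m n κ b t {p, q} (cfg F0 F1 p q g)
      (2 * (c + 2 * Δ + B + b * (J + J')) + (A + A')) := by
  obtain ⟨K, j, hD⟩ := dcs_edec h0 h1 hN hs1 hs3
  obtain ⟨L, η, φ, hpath, hφ, hΔ, hc⟩ := hP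
  have hK2 : 2 ≤ (m + 1) * (n + 2) := by
    have : 1 * 2 ≤ (m + 1) * (n + 2) := Nat.mul_le_mul (by omega) (by omega)
    omega
  have hmm : 0 < mm b r := H253.Sm.mm_pos hb r
  have hjp : ∀ e : Ed ((m + 1) * (n + 2)), sz (e.1 - p) ≤ r + 1 → j e = 0 := fun e he =>
    hD.jr p (by simp) e he
  have hjq : ∀ e : Ed ((m + 1) * (n + 2)), sz (e.1 - q) ≤ r + 1 → j e = 0 := fun e he =>
    hD.jr q (by simp) e he
  have h := prs_dis (κ := κ) (Kc := {p, q}) (r := fun _ => r) hb ht η φ g hD.dcr hρ subset_rfl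
    (fun _ _ => hr) (fun z hz z' hz' hne => by
      rw [Finset.mem_insert, Finset.mem_singleton] at hz hz'
      have h5 : sd p q = sz (q - p) := rfl
      rcases hz with rfl | rfl <;> rcases hz' with rfl | rfl
      · exact absurd rfl hne
      · rw [h5]; omega
      · rw [Vale.Agent.P159.TM.H459.sd_symm, h5]; omega
      · exact absurd rfl hne) (fun z hz e he => hD.jr z hz e he) (C := mm b r ^ 2) (by positivity)
    (Qc_pair hb.le hpath (by omega) (by omega) φ)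
    (exb_pair hK2 hb.le hpath hs2 h4 hjp hjq) hB hΔ hc hD.K2 hD.cosh
  have e1 : (fun e => eF η φ e + gr (fun x => g x + edec F0 F1 p q x) e) = cfg F0 F1 p q g := by
    funext e
    rw [hφ, H817.gr_add, H817.gr_edec]
    unfold cfg
    ring
  rw [e1] at h
  exact h

/-- **decorated real fields, two decorations** -/
theorem prs_edec (hb : 0 < b) (ht : 0 < t) (h0 : FlD t ρ r A J F0) (h1 : FlD t ρ r A' J' F1)
    (hN : 2 * ρ + 4 < (m + 1) * (n + 2)) (hs1 : 2 * ρ < sz (q - p))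
    (hs3 : ρ + r + 1 < sz (q - p)) (hρ : ρ + 2 ≤ κ) :
    PRS m n κ b t {p, q} (gr (edec F0 F1 p q)) (2 * (b * (J + J')) + (A + A')) := by
  obtain ⟨K, j, hD⟩ := dcs_edec h0 h1 hN hs1 hs3
  have h := prs_rdec (κ := κ) hb ht hD.dcr hρ (fun _ => 0) (A := 0) (by
    have := H37.qf_zero_vec (H963.An (wT b ((m + 1) * (n + 2))) (t • (1 : Matrix
      (Tor ((m + 1) * (n + 2))) (Tor ((m + 1) * (n + 2))) ℝ)) t 0)
    exact this.le) hD.K2 hD.cosh
  simp only [zero_add] at h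
  exact h

/-- **decorated real fields, one decoration** -/
theorem prs_dec1 (hb : 0 < b) (ht : 0 < t) (h0 : FlD t ρ r A J F0)
    (hN : 2 * ρ + 4 < (m + 1) * (n + 2)) (hρ : ρ + 2 ≤ κ) (p : V ((m + 1) * (n + 2))) :
    PRS m n κ b t {p} (gr (dec F0 p)) (2 * (b * J) + A) := by
  obtain ⟨K, j, hD⟩ := dcs_dec h0 hN p
  have h := prs_rdec (κ := κ) hb ht hD.dcr hρ (fun _ => 0) (A := 0) (by
    have := H37.qf_zero_vec (H963.An (wT b ((m + 1) * (n + 2))) (t • (1 : Matrix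
      (Tor ((m + 1) * (n + 2))) (Tor ((m + 1) * (n + 2))) ℝ)) t 0)
    exact this.le) hD.K2 hD.cosh
  simp only [zero_add] at h
  exact h

/-! ### the fields `pr0`, `pr1` of helper612's `locK` -/

lemma nrm_GB {N : ℕ} [NeZero N] {s : ℝ} {h : V N → ℝ} (hh : GB s h) :
    nrm (gr h) ≤ 2 * (N : ℝ) ^ 2 * s ^ 2 := by
  unfold nrm
  have h1 : ∀ e : V N × Bool, gr h e ^ 2 ≤ s ^ 2 := fun e => by
    rw [← sq_abs]
    exact pow_le_pow_left₀ (abs_nonneg _) (hh e) 2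
  refine (Finset.sum_le_sum fun e _ => h1 e).trans (le_of_eq ?_)
  rw [Finset.sum_const, nsmul_eq_mul]
  have h2 : (Finset.univ : Finset (V N × Bool)).card = N * N * 2 := by
    rw [Finset.card_univ, Fintype.card_prod, Fintype.card_bool]
    congr 1
    rw [show Fintype.card (V N) = Fintype.card (ZMod N × ZMod N) from rfl, Fintype.card_prod,
      ZMod.card]
  rw [h2]
  push_cast
  ring

/-- the energy form in helper859's shape -/
def AnB (N : ℕ) [NeZero N] (b t Ca : ℝ) : Prop := ∀ g : V N → ℝ,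
  qf (H963.An (wT b N) (t • (1 : Matrix (V N) (V N) ℝ)) t 0) g ≤ Ca * nrm (gr g)

/-- **`pr0`** -/
theorem pr0_GB (hb : 0 < b) (ht : 0 < t) (hκ : 2 ≤ κ) {Ca s : ℝ} (hCa : 0 ≤ Ca)
    (hAn : AnB ((m + 1) * (n + 2)) b t Ca) (Pc : Finset (V ((m + 1) * (n + 2))))
    {h : V ((m + 1) * (n + 2)) → ℝ} (hh : GB s h) :
    PRS m n κ b t Pc (gr h) (4 * Ca * (((m + 1) * (n + 2) : ℕ) : ℝ) ^ 2 * s ^ 2) := by
  have h1 := prs_real hb ht hκ Pc h
    ((hAn h).trans (mul_le_mul_of_nonneg_left (nrm_GB hh) hCa))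
  refine prs_mono hb ht h1 (le_of_eq ?_)
  ring

/-- **`pr1`** -/
theorem pr1_GB (hb : 0 < b) (ht : 0 < t) {R : ℕ} {Δ c Ca s : ℝ} (hCa : 0 ≤ Ca)
    (hAn : AnB ((m + 1) * (n + 2)) b t Ca) {D0 D1 : Set (ℤ → ℤ → ℝ)}
    (hD0 : ∀ F ∈ D0, FlD t ρ r A J F) (hD1 : ∀ F ∈ D1, FlD t ρ r A J F)
    (hP : ∀ p q, H817.Far R p q → PrN ((m + 1) * (n + 2)) b t r p q Δ c)
    (h1 : 4 * (ρ + 1) ≤ R) (h2 : 4 * (r + 1) ≤ R) (h3 : 2 * (ρ + r + 2) ≤ R)
    (h4 : 16 * R ≤ (m + 1) * (n + 2)) (hρ : ρ + 2 ≤ κ) (hr : r + 1 ≤ κ) :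
    ∀ F0 ∈ D0, ∀ F1 ∈ D1, ∀ (p q : V ((m + 1) * (n + 2))) (h : V ((m + 1) * (n + 2)) → ℝ),
      H817.Far R p q → GB s h → PRS m n κ b t {p, q} (cfg F0 F1 p q h)
        (2 * (c + 2 * Δ + Ca * (2 * (((m + 1) * (n + 2) : ℕ) : ℝ) ^ 2 * s ^ 2) + b * (J + J)) +
          (A + A)) := by
  intro F0 hF0 F1 hF1 p q h hf hh
  obtain ⟨f1, f2⟩ := hf
  exact prs_cfg hb ht (hP p q ⟨f1, f2⟩) (hD0 F0 hF0) (hD1 F1 hF1) (by omega) (by omega) (by omega)
    (by omega) (by omega) hρ hr h ((hAn h).trans (mul_le_mul_of_nonneg_left (nrm_GB hh) hCa))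

end inst

end

end Vale.Agent.P159.H529.Pr
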