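import Vale.Agent.P159.H529.Pr2
import Vale.Agent.P159.H859.Idl4

/-!
P159 (helper529), module PR, part 3: the price on a torus of side `N = (m + 1) (n + 2)` (helper612's
`LocI`), the energy form from `FL`.
-/

set_option linter.unusedSectionVars false

namespace Vale.Agent.P159.H529.Pr

open Finset
open Vale.Agent.P159.H37 (ZM Zn qf re)
open Vale.Agent.P159.H770 (Ed eS eT wTD grd gwf_wTD wTD_zero)
open Vale.Agent.P159.TM.SpecC (Tor wT)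
open Vale.Agent.P159.TM.Spec (V)
open Vale.Agent.P159.H817 (eF gr dv nrm e1 e2 eb sz bD v1 v2 IsPath dec edec cfg GB Dec)
open Vale.Agent.P159.H276 (FlD)
open Vale.Agent.P159.H280.Hs (PRS)

noncomputable section

/-- the energy form along the flow (helper859) -/
theorem anB_FL {N : ℕ} [NeZero N] {b t a η₀ A : ℝ} (hb : 0 < b) (ht : 0 < t)
    (h : H972.FL b t a η₀ N) (ha : a ≤ A) (hη : η₀ ≤ 1) (hA : 0 ≤ A) : AnB N b t (A + 4) :=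
  fun g => H859.Idl.An_le_nrm hb ht h ha hη hA g

section tor

variable {N m n : ℕ} [NeZero N] [NeZero ((m + 1) * (n + 2))] [NeZero ((m + 1) * 2)] {b t : ℝ}
  {κ ρ r : ℕ} {F0 F1 : ℤ → ℤ → ℝ} {A A' J J' : ℝ}

/-- `pr0` of `LocI` -/
theorem pr0_N (hN : (m + 1) * (n + 2) = N) (hb : 0 < b) (ht : 0 < t) (hκ : 2 ≤ κ) {Ca s : ℝ}
    (hCa : 0 ≤ Ca) (hAn : AnB N b t Ca) {pr : ℝ} (hpr : 4 * Ca * (N : ℝ) ^ 2 * s ^ 2 ≤ pr)
    (Pc : Finset (V N)) {h : V N → ℝ} (hh : GB s h) : PRS m n κ b t Pc (gr h) pr := by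
  subst hN
  exact prs_mono hb ht (pr0_GB hb ht hκ hCa hAn Pc hh) hpr

/-- `pr1` of `LocI` -/
theorem pr1_N (hN : (m + 1) * (n + 2) = N) (hb : 0 < b) (ht : 0 < t) {R : ℕ} {Δ c Ca s : ℝ}
    (hCa : 0 ≤ Ca) (hAn : AnB N b t Ca) {D0 D1 : Dec}
    (hD0 : ∀ F ∈ D0, FlD t ρ r A J F) (hD1 : ∀ F ∈ D1, FlD t ρ r A J F)
    (hP : ∀ p q, H817.Far R p q → PrN N b t r p q Δ c)
    (h1 : 4 * (ρ + 1) ≤ R) (h2 : 4 * (r + 1) ≤ R) (h3 : 2 * (ρ + r + 2) ≤ R)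
    (h4 : 16 * R ≤ N) (hρ : ρ + 2 ≤ κ) (hr : r + 1 ≤ κ) {pr : ℝ}
    (hpr : 2 * (c + 2 * Δ + Ca * (2 * (N : ℝ) ^ 2 * s ^ 2) + b * (J + J)) + (A + A) ≤ pr) :
    ∀ F0 ∈ D0, ∀ F1 ∈ D1, ∀ (p q : V N) (h : V N → ℝ),
      H817.Far R p q → GB s h → PRS m n κ b t {p, q} (cfg F0 F1 p q h) pr := by
  subst hN
  intro F0 hF0 F1 hF1 p q h hf hh
  exact prs_mono hb ht (pr1_GB hb ht hCa hAn hD0 hD1 hP h1 h2 h3 h4 hρ hr F0 hF0 F1 hF1 p q h hf hh)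
    hpr

/-- decorated real fields, two decorations -/
theorem prs_edecN (hN : (m + 1) * (n + 2) = N) (hb : 0 < b) (ht : 0 < t)
    (h0 : FlD t ρ r A J F0) (h1 : FlD t ρ r A' J' F1) (h2 : 2 * ρ + 4 < N) {p q : V N}
    (hs1 : 2 * ρ < sz (q - p)) (hs3 : ρ + r + 1 < sz (q - p)) (hρ : ρ + 2 ≤ κ) {pr : ℝ}
    (hpr : 2 * (b * (J + J')) + (A + A') ≤ pr) :
    PRS m n κ b t {p, q} (gr (edec F0 F1 p q)) pr := by
  subst hN
  exact prs_mono hb ht (prs_edec hb ht h0 h1 h2 hs1 hs3 hρ) hpr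

/-- decorated real fields, one decoration -/
theorem prs_dec1N (hN : (m + 1) * (n + 2) = N) (hb : 0 < b) (ht : 0 < t)
    (h0 : FlD t ρ r A J F0) (h2 : 2 * ρ + 4 < N) (hρ : ρ + 2 ≤ κ) (p : V N) {pr : ℝ}
    (hpr : 2 * (b * J) + A ≤ pr) : PRS m n κ b t {p} (gr (dec F0 p)) pr := by
  subst hN
  exact prs_mono hb ht (prs_dec1 hb ht h0 h2 hρ p) hpr

end tor

end

end Vale.Agent.P159.H529.Pr
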