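import Vale.Agent.P159.H883.Twr3

/-!
P159 (helper529), q numbers, part 1: for a family of gradient weights `W` and every real field `φ`
(rough or not), the integer model and the neutral model satisfy
`Z_M (W b) φ ≤ (Zp (W b) / Zp (W 0)) Z_M (W 0) 0`.
-/

set_option linter.unusedSectionVars false

namespace Vale.Agent.P159.H529.Qf

open Finset Matrix MeasureTheory
open Vale.Agent.P159.TM.H104 (EM nh Gr li)
open Vale.Agent.P159.H37 (wM ZM qf bf Zn Zs re gau)
open Vale.Agent.P159.H963 (GrI pin MF ntr)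
open Vale.Agent.P159.H145 (cs Per)
open Vale.Agent.P159.H770 (GWF)
open Vale.Agent.P159.H883

noncomputable section

variable {V : Type} [Fintype V] [DecidableEq V] [Nonempty V]
variable {M : Matrix V V ℝ} {m : ℝ}
variable {β : Type} [AddCommGroup β] {W : β → (V → ℤ) → ℝ}

/-- **Ginibre for the integer partition functions** -/
theorem ginZM (hW : GWF W) (hM : MF M m) (b c : β) (F H : V → ℝ) :
    (ZM (W b) M F * ZM (W c) M H) ^ 2 ≤
      ZM (W 0) M 0 ^ 2 * (ZM (W (b + c)) M (F + H) * ZM (W (b - c)) M (F - H)) := by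
  have hs := hM.symm
  have h := (hW.disF_wM hM).gin b c (M *ᵥ F) (M *ᵥ H)
  rw [H37.ZM_eq _ hs, H37.ZM_eq _ hs, H37.ZM_eq _ hs, H37.ZM_eq _ hs, H37.ZM_eq _ hs,
    Matrix.mulVec_add, Matrix.mulVec_sub, Matrix.mulVec_zero, H37.qf_zero_vec]
  have e1 : Real.exp (-(qf M (F + H) / 2)) * Real.exp (-(qf M (F - H) / 2)) =
      (Real.exp (-(qf M F / 2)) * Real.exp (-(qf M H / 2))) ^ 2 := by
    rw [← Real.exp_add, ← Real.exp_add, ← Real.exp_nat_mul, H37.qf_add_vec hs, H37.qf_sub_vec hs]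
    congr 1
    push_cast
    ring
  have e3 : Real.exp (-((0 : ℝ) / 2)) = 1 := by simp
  rw [e3, one_mul]
  set x := Zs (wM (W b) M) (M *ᵥ F)
  set y := Zs (wM (W c) M) (M *ᵥ H)
  set z := Zs (wM (W 0) M) 0
  set u := Zs (wM (W (b + c)) M) (M *ᵥ F + M *ᵥ H)
  set v := Zs (wM (W (b - c)) M) (M *ᵥ F - M *ᵥ H)
  set A := Real.exp (-(qf M F / 2)) * Real.exp (-(qf M H / 2))
  calc (Real.exp (-(qf M F / 2)) * x * (Real.exp (-(qf M H / 2)) * y)) ^ 2 =
        A ^ 2 * (x * y) ^ 2 := by simp only [A]; ring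
    _ ≤ A ^ 2 * (z ^ 2 * (u * v)) := mul_le_mul_of_nonneg_left h (sq_nonneg _)
    _ = z ^ 2 * (Real.exp (-(qf M (F + H) / 2)) * Real.exp (-(qf M (F - H) / 2)) * (u * v)) := by
        rw [e1]; ring
    _ = _ := by ring

/-- symmetrised lower bound -/
theorem ZM_pair (hW : GWF W) (hM : MF M m) (b : β) (φ H : V → ℝ) :
    2 * (ZM (W b) M φ / ZM (W 0) M 0 * ZM (W 0) M H) ≤
      ZM (W b) M (φ + H) + ZM (W b) M (φ - H) := by
  have h1 := ginZM hW hM b 0 φ H
  have em : ∀ c, EM (wM (W c) M) := (hW.disF_wM hM).em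
  have z0 := H37.ZM_pos hM.symm (em 0) 0
  have zH := H37.ZM_pos hM.symm (em 0) H
  have a1 := H37.ZM_pos hM.symm (em b) (φ + H)
  have a2 := H37.ZM_pos hM.symm (em b) (φ - H)
  have ab := H37.ZM_pos hM.symm (em b) φ
  rw [add_zero, sub_zero] at h1
  set x := ZM (W b) M (φ + H)
  set y := ZM (W b) M (φ - H)
  set z := ZM (W 0) M H
  set a := ZM (W b) M φ
  set c := ZM (W 0) M 0
  have h2 : (a / c * z) ^ 2 ≤ x * y := by
    have h3 : (a / c * z) ^ 2 = (a * z) ^ 2 / c ^ 2 := by field_simp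
    rw [h3, div_le_iff₀ (by positivity)]
    linarith
  have h4 : (a / c * z) ^ 2 ≤ ((x + y) / 2) ^ 2 := by nlinarith [sq_nonneg (x - y)]
  have h5 := abs_le_of_sq_le_sq h4 (by positivity)
  have h6 := le_abs_self (a / c * z)
  linarith

lemma per_of_grI {w : (V → ℤ) → ℝ} (h : GrI w) : Per w := fun k => by
  have := h k 1
  exact this

/-- the integer ratio against the neutral partition functions -/
theorem ZM_pairn (hW : GWF W) (hM : MF M m) (b : β) (φ H : V → ℝ) :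
    2 * (ZM (W b) M φ / ZM (W 0) M 0 * Zn (W 0) M H) ≤
      Zn (W b) M (φ + H) + Zn (W b) M (φ + -H) := by
  have em : ∀ c, EM (wM (W c) M) := (hW.disF_wM hM).em
  have hs := hM.symm
  have hper : ∀ c, Per (W c) := fun c => per_of_grI (hW.grd c)
  set r := ZM (W b) M φ / ZM (W 0) M 0 with hr
  have hc : ∀ (d : β) (F : V → ℝ), Continuous fun c : ℝ => ZM (W d) M (cs F c) := fun d F =>
    (H145.continuous_ZM hs (em d)).comp (H145.continuous_cs F)
  have i0 : IntervalIntegrable (fun c : ℝ => ZM (W 0) M (cs H c)) volume 0 1 :=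
    (hc 0 H).intervalIntegrable _ _
  have i1 : IntervalIntegrable (fun c : ℝ => ZM (W b) M (cs (φ + H) c)) volume 0 1 :=
    (hc b _).intervalIntegrable _ _
  have i2 : IntervalIntegrable (fun c : ℝ => ZM (W b) M (cs (φ + -H) (-c))) volume 0 1 :=
    ((hc b (φ + -H)).comp continuous_neg).intervalIntegrable _ _
  have e2 : ∫ c in (0 : ℝ)..1, ZM (W b) M (cs (φ + -H) (-c)) = Zn (W b) M (φ + -H) := by
    have h1 := intervalIntegral.integral_comp_neg (a := (0 : ℝ)) (b := 1)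
      (fun c => ZM (W b) M (cs (φ + -H) c))
    rw [h1, neg_zero]
    have h2 := (H145.ZM_periodic (M := M) (hper b) (φ + -H)).intervalIntegral_add_eq (-1) 0
    simp only [neg_add_cancel, zero_add] at h2
    rw [h2]
    rfl
  have key : ∫ c in (0 : ℝ)..1, 2 * (r * ZM (W 0) M (cs H c)) ≤
      ∫ c in (0 : ℝ)..1, (ZM (W b) M (cs (φ + H) c) + ZM (W b) M (cs (φ + -H) (-c))) := by
    refine intervalIntegral.integral_mono_on zero_le_one ((i0.const_mul r).const_mul 2)
      (i1.add i2) fun c _ => ?_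
    have h1 := ZM_pair hW hM b φ (cs H c)
    have e3 : φ + cs H c = cs (φ + H) c := by
      funext x
      simp only [cs, Pi.add_apply]
      ring
    have e4 : φ - cs H c = cs (φ + -H) (-c) := by
      funext x
      simp only [cs, Pi.sub_apply, Pi.add_apply, Pi.neg_apply]
      ring
    rw [e3, e4] at h1
    exact h1
  rw [intervalIntegral.integral_const_mul, intervalIntegral.integral_const_mul,
    intervalIntegral.integral_add i1 i2, e2] at key
  exact key

/-- the constant -/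
def Cp (W : β → (V → ℤ) → ℝ) (b : β) (x₀ : V) : ℝ := Zp (W b) x₀ / Zp (W 0) x₀

lemma le_Cp_of_pair (hW : GWF W) (hE : ∀ b x₀, EM (pin (W b) x₀)) (hM : MF M m) (x₀ : V) (b : β)
    (φ : V → ℝ) {r : ℝ} (hr : ∀ H : V → ℝ, 2 * (r * Zn (W 0) M H) ≤
      Zn (W b) M (φ + H) + Zn (W b) M (φ + -H)) : r ≤ Cp W b x₀ := by
  have hw := gwf_bw hW hE 0
  have hD := gwf_bw hW hE b
  have hci : CI fun F : V → ℝ => Zn (W b) M (φ + F) := by
    have h1 := (hD.ci M).shift φ
    have e : (fun F : V → ℝ => Zn (W b) M (F + φ)) = fun F => Zn (W b) M (φ + F) :=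
      funext fun F => by rw [add_comm]
    rwa [e] at h1
  have i1 : IntegrableOn (fun F : V → ℝ => Zn (W b) M (φ + F)) (slab x₀) := by
    have h1 := SI_shift_int (hD.ci M) x₀ φ (hD.SI_Zn hM x₀).1
    refine h1.congr (Filter.Eventually.of_forall fun F => ?_)
    simp only
    rw [add_comm]
  have e1 : SI x₀ (fun F : V → ℝ => Zn (W b) M (φ + F)) = SI x₀ (Zn (W b) M) := by
    have h1 := SI_shift (hD.ci M) x₀ φ
    have e : (fun F : V → ℝ => Zn (W b) M (F + φ)) = fun F => Zn (W b) M (φ + F) :=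
      funext fun F => by rw [add_comm]
    rwa [e] at h1
  have e2 := SI_neg hci x₀
  have i2 : IntegrableOn (fun F : V → ℝ => Zn (W b) M (φ + -F)) (slab x₀) := by
    by_contra hcon
    have h2 : SI x₀ (fun F : V → ℝ => Zn (W b) M (φ + -F)) = 0 := integral_undef hcon
    rw [h2, e1] at e2
    exact absurd e2 (hD.SI_Zn_pos hM x₀).ne
  have h1 : ∫ F in slab x₀, 2 * (r * Zn (W 0) M F) ≤
      ∫ F in slab x₀, (Zn (W b) M (φ + F) + Zn (W b) M (φ + -F)) :=
    integral_mono (((hw.SI_Zn hM x₀).1.const_mul r).const_mul 2) (i1.add i2) fun F => hr F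
  rw [integral_add i1 i2, integral_const_mul, integral_const_mul] at h1
  have h3 : 2 * (r * SI x₀ (Zn (W 0) M)) ≤ SI x₀ (fun F : V → ℝ => Zn (W b) M (φ + F)) +
      SI x₀ (fun F : V → ℝ => Zn (W b) M (φ + -F)) := h1
  rw [e2, e1, (hw.SI_Zn hM x₀).2, (hD.SI_Zn hM x₀).2] at h3
  unfold Cp
  rw [le_div_iff₀ (hw.Zp_pos x₀)]
  have h4 : cI M m x₀ * (r * Zp (W 0) x₀) ≤ cI M m x₀ * Zp (W b) x₀ := by linarith
  exact le_of_mul_le_mul_left h4 (cI_pos hM x₀)

/-- **(Q1) integer model** -/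
theorem ZM_le (hW : GWF W) (hE : ∀ b x₀, EM (pin (W b) x₀)) (hM : MF M m) (x₀ : V) (b : β)
    (φ : V → ℝ) : ZM (W b) M φ ≤ Cp W b x₀ * ZM (W 0) M 0 := by
  have em : ∀ c, EM (wM (W c) M) := (hW.disF_wM hM).em
  have z0 := H37.ZM_pos hM.symm (em 0) 0
  rw [← div_le_iff₀ z0]
  exact le_Cp_of_pair hW hE hM x₀ b φ fun H => ZM_pairn hW hM b φ H

/-- **(Q1) neutral model** -/
theorem Zn_le (hW : GWF W) (hE : ∀ b x₀, EM (pin (W b) x₀)) (hM : MF M m) (x₀ : V) (b : β)
    (φ : V → ℝ) : Zn (W b) M φ ≤ Cp W b x₀ * Zn (W 0) M 0 := by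
  have z0 := hW.Zn_pos hM 0 (0 : V → ℝ)
  rw [← div_le_iff₀ z0]
  have h := Psi_zero_le hW hE hM x₀ b φ
  unfold Psi at h
  rwa [add_zero] at h

end

end Vale.Agent.P159.H529.Qf
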