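import Vale.Agent.P159.H773.TorDual
import Vale.Agent.P159.H773.Rat2
import Vale.Agent.P159.H883.Twr1

/-!
P159 (helper529), q numbers, part 2: duality on the neutral torus for any charges.
-/

open MeasureTheory Filter Topology
open scoped BigOperators

set_option linter.all false

namespace Vale.Agent.P159.H529.Qf

open Vale.Agent.P159 Vale.Agent.P159.H353 Vale.Agent.P159.T1.H42 Vale.Agent.P159.TM.H389
open Vale.Agent.P159.TM.H331 Vale.Agent.P159.H773
open Vale.Agent.P159.H770 (wTD Ed)

section gen

variable {V ι : Type} [Fintype V] [DecidableEq V] [Fintype ι]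

/-- the phase of the charges `q` -/
noncomputable def chq (q : V → ℤ) (θ : V → T) : T := ∑ v, q v • θ v

omit [DecidableEq V] in
lemma chq_add (q q' : V → ℤ) (θ : V → T) : chq (q + q') θ = chq q θ + chq q' θ := by
  unfold chq
  rw [← Finset.sum_add_distrib]
  exact Finset.sum_congr rfl fun v _ => add_zsmul _ _ _

omit [DecidableEq V] in
lemma chq_neg (q : V → ℤ) (θ : V → T) : chq (-q) θ = -chq q θ := by
  unfold chq
  rw [← Finset.sum_neg_distrib]
  exact Finset.sum_congr rfl fun v _ => neg_zsmul _ _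

omit [DecidableEq V] in
lemma chq_add_arg (q : V → ℤ) (x y : V → T) : chq q (x + y) = chq q x + chq q y := by
  unfold chq
  rw [← Finset.sum_add_distrib]
  exact Finset.sum_congr rfl fun v _ => by rw [Pi.add_apply, smul_add]

omit [DecidableEq V] in
lemma chq_neg_arg (q : V → ℤ) (x : V → T) : chq q (-x) = -chq q x := by
  unfold chq
  rw [← Finset.sum_neg_distrib]
  exact Finset.sum_congr rfl fun v _ => by rw [Pi.neg_apply, smul_neg]

omit [DecidableEq V] in
lemma chq_cont (q : V → ℤ) : Continuous (chq q) := by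
  unfold chq
  exact continuous_finsetSum _ fun v _ => (continuous_apply v).zsmul _

/-- the character of the charges `q` -/
noncomputable def chQ (q : V → ℤ) : Chr (V → T) where
  c θ := cosT (chq q θ)
  s θ := sinT (chq q θ)
  cont_c := cont_cos.comp (chq_cont q)
  cont_s := cont_sin.comp (chq_cont q)
  c_add x y := by rw [chq_add_arg]; exact Real.Angle.cos_add _ _
  s_add x y := by rw [chq_add_arg]; exact Real.Angle.sin_add _ _
  norm_sq x := Real.Angle.cos_sq_add_sin_sq _

/-- the phase of a current is the phase of its divergence -/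
lemma ph_chq (s t : ι → V) (n : ι → ℤ) (θ : V → T) : ph s t n θ = chq (dvg s t n) θ := by
  unfold ph chq dvg
  simp_rw [Finset.sum_smul]
  rw [Finset.sum_comm]
  refine Finset.sum_congr rfl fun i _ => ?_
  have e : ∀ (x v : V), (if x = v then n i else 0) • θ v = if x = v then n i • θ v else 0 := by
    intro x v
    split_ifs
    · rfl
    · exact zero_smul _ _
  simp_rw [sub_smul, e]
  rw [Finset.sum_sub_distrib, Finset.sum_ite_eq, Finset.sum_ite_eq, if_pos (Finset.mem_univ _),
    if_pos (Finset.mem_univ _), smul_sub]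

lemma fourier_chq (q : V → ℤ) (θ : V → T) :
    (fourier 1 (chq q θ) : ℂ) = ∏ v, (fourier (q v) (θ v) : ℂ) := by
  have h1 : ∀ (F : Finset V), (fourier 1 (∑ v ∈ F, q v • θ v) : ℂ) =
      ∏ v ∈ F, (fourier (q v) (θ v) : ℂ) := by
    intro F
    induction F using Finset.induction_on with
    | empty => simp [fourier_zero_arg']
    | insert i F hi ih =>
      rw [Finset.sum_insert hi, Finset.prod_insert hi, fourier_add_arg, ih]
      congr 1
      rw [fourier_apply, fourier_apply, one_zsmul]
  exact h1 Finset.univ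

lemma int_chq (q : V → ℤ) :
    ∫ θ, cosT (chq q θ) ∂(torusHaar V) = if ∀ v, q v = 0 then 1 else 0 := by
  have h2 := Vale.Agent.P159.T1.H857.integral_prod_fourierA q
  have hc : Continuous fun θ : V → T => (fourier 1 (chq q θ) : ℂ) :=
    (fourier 1).continuous.comp (chq_cont q)
  have h3 : ∫ θ, cosT (chq q θ) ∂(torusHaar V) =
      (∫ θ, (fourier 1 (chq q θ) : ℂ) ∂(torusHaar V)).re := by
    have hi : Integrable (fun θ : V → T => (fourier 1 (chq q θ) : ℂ))
        (torusHaar V) :=
      hc.integrable_of_hasCompactSupport (HasCompactSupport.of_compactSpace _)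
    have := integral_re (𝕜 := ℂ) hi
    rw [← RCLike.re_eq_complex_re, ← this]
    refine integral_congr_ae (Eventually.of_forall fun θ => ?_)
    exact cosT_re _
  rw [h3]
  simp_rw [fourier_chq]
  rw [h2]
  by_cases h : ∀ v, q v = 0
  · rw [if_pos h, if_pos h]
    simp
  · rw [if_neg h, if_neg h]
    simp

lemma cos_mul_cos' (a c : T) : cosT c * cosT a = (cosT (a + -c) + cosT (a + c)) / 2 := by
  have h1 : cosT (a + c) = cosT a * cosT c - sinT a * sinT c := Real.Angle.cos_add _ _
  have h3 : cosT (a + -c) = cosT a * cosT (-c) - sinT a * sinT (-c) := Real.Angle.cos_add _ _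
  have h4 : cosT (-c) = cosT c := Real.Angle.cos_neg _
  have h5 : sinT (-c) = -sinT c := Real.Angle.sin_neg _
  rw [h3, h1, h4, h5]
  ring

lemma dvg_neg (s t : ι → V) (n : ι → ℤ) (v : V) : dvg s t (-n) v = -dvg s t n v := by
  unfold dvg
  rw [← Finset.sum_neg_distrib]
  refine Finset.sum_congr rfl fun i _ => ?_
  simp only [Pi.neg_apply]
  split_ifs <;> ring

lemma int_chq_ph (s t : ι → V) (q : V → ℤ) (n : ι → ℤ) :
    ∫ θ, cosT (chq q θ) * cosT (ph s t n θ) ∂(torusHaar V) =
      ((if ∀ v, dvg s t n v = q v then 1 else 0) +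
        (if ∀ v, dvg s t (-n) v = q v then 1 else 0)) / 2 := by
  have e1 : ∀ θ : V → T, cosT (chq q θ) * cosT (ph s t n θ) =
      (cosT (chq (dvg s t n + -q) θ) + cosT (chq (dvg s t n + q) θ)) / 2 := by
    intro θ
    rw [ph_chq, cos_mul_cos', chq_add, chq_add, chq_neg]
  simp_rw [e1]
  have hi : ∀ r : V → ℤ, Integrable (fun θ : V → T => cosT (chq r θ)) (torusHaar V) := fun r =>
    cint (cont_cos.comp (chq_cont _))
  rw [integral_div, integral_add (hi _) (hi _), int_chq, int_chq]
  have c1 : (∀ v, (dvg s t n + -q) v = 0) ↔ ∀ v, dvg s t n v = q v := by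
    refine forall_congr' fun v => ?_
    rw [Pi.add_apply, Pi.neg_apply]
    constructor <;> intro h <;> linarith
  have c2 : (∀ v, (dvg s t n + q) v = 0) ↔ ∀ v, dvg s t (-n) v = q v := by
    refine forall_congr' fun v => ?_
    rw [Pi.add_apply, dvg_neg]
    constructor <;> intro h <;> linarith
  congr 2
  · exact if_congr c1 rfl rfl
  · exact if_congr c2 rfl rfl

/-- **the correlation of the charges `q` of a modified weight** -/
theorem UU_int_q (s t : ι → V) {J : ι → ℝ} (hJ : ∀ i, 0 ≤ J i) {Φ : (ι → ℤ) → ℝ} {C : ℝ}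
    (hΦ : ∀ n, |Φ n| ≤ C) (he : ∀ n, Φ (-n) = Φ n) (q : V → ℤ) :
    HasSum (fun n : ι → ℤ => if ∀ v, dvg s t n v = q v then wJ J n * Φ n else 0)
      (∫ θ, cosT (chq q θ) * UU s t J Φ θ ∂(torusHaar V)) := by
  have hcc : Continuous fun θ : V → T => cosT (chq q θ) := cont_cos.comp (chq_cont q)
  have hcont : Continuous fun f : C(V → T, ℝ) =>
      ∫ θ, cosT (chq q θ) * f θ ∂(torusHaar V) := by
    have h1 : Continuous fun f : C(V → T, ℝ) =>
        (⟨fun θ => cosT (chq q θ), hcc⟩ : C(V → T, ℝ)) * f := continuous_const.mul continuous_id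
    exact (continuous_int (torusHaar V)).comp h1
  set L : C(V → T, ℝ) →+ ℝ :=
    { toFun := fun f => ∫ θ, cosT (chq q θ) * f θ ∂(torusHaar V)
      map_zero' := by simp
      map_add' := by
        intro f g
        have e : ∀ θ, cosT (chq q θ) * (f + g) θ =
            cosT (chq q θ) * f θ + cosT (chq q θ) * g θ := fun θ => by
          rw [ContinuousMap.add_apply, mul_add]
        simp_rw [e]
        exact integral_add (cint (hcc.mul f.continuous)) (cint (hcc.mul g.continuous)) } with hL
  have h := (UU_hasSum s t hJ hΦ).map L hcont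
  have e : ∀ n : ι → ℤ, (L ∘ fun n : ι → ℤ =>
      ContinuousMap.const (V → T) (wJ J n * Φ n) * cc (chN s t n)) n =
      (if ∀ v, dvg s t n v = q v then wJ J n * Φ n else 0) / 2 +
        (if ∀ v, dvg s t (-n) v = q v then wJ J n * Φ n else 0) / 2 := by
    intro n
    show ∫ θ, cosT (chq q θ) * ((wJ J n * Φ n) * cosT (ph s t n θ)) ∂(torusHaar V) = _
    have e2 : ∀ θ : V → T, cosT (chq q θ) * ((wJ J n * Φ n) * cosT (ph s t n θ)) =
        (wJ J n * Φ n) * (cosT (chq q θ) * cosT (ph s t n θ)) := fun θ => by ring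
    simp_rw [e2]
    rw [integral_const_mul, int_chq_ph]
    split_ifs <;> ring
  rw [funext e] at h
  -- the two halves are equal
  have hab : Summable fun n : ι → ℤ => |wJ J n * Φ n| := wJΦ_summable hJ hΦ
  have s1 : Summable fun n : ι → ℤ =>
      if ∀ v, dvg s t n v = q v then wJ J n * Φ n else 0 := by
    refine Summable.of_norm_bounded hab fun n => ?_
    split_ifs
    · exact le_of_eq (Real.norm_eq_abs _)
    · rw [norm_zero]
      exact abs_nonneg _
  obtain ⟨a, ha⟩ := s1
  have ha' : HasSum (fun n : ι → ℤ =>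
      if ∀ v, dvg s t (-n) v = q v then wJ J n * Φ n else 0) a := by
    have h1 := (Equiv.neg (ι → ℤ)).hasSum_iff.2 ha
    convert h1 using 1
    funext n
    simp only [Function.comp_apply, Equiv.neg_apply]
    have e3 : wJ J (-n) = wJ J n := by
      unfold wJ
      exact Finset.prod_congr rfl fun i _ => by rw [Pi.neg_apply, wI_neg]
    rw [e3, he]
  have h2 : L (UU s t J Φ) = a := by
    have h3 := h.unique ((ha.div_const 2).add (ha'.div_const 2))
    rw [h3]
    ring
  have h4 : ∫ θ, cosT (chq q θ) * UU s t J Φ θ ∂(torusHaar V) = a := h2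
  rw [h4]
  exact ha

end gen

variable {M : ℕ}

/-- neutral dislocations with charges `q` -/
structure DsQ (η : (Fin (M + 2) × Fin (M + 2)) × Bool → ℤ) (q : St M → ℤ) : Prop where
  curl : ∀ v, curl η v = q v
  row : ∑ j : Fin (M + 2), η ((0, j), true) = 0
  col : ∑ i : Fin (M + 2), η ((i, 0), false) = 0

/-- **duality, any charges** -/
theorem tor_dual_q {b : ℝ} (hb : 0 ≤ b) {η : (Fin (M + 2) × Fin (M + 2)) × Bool → ℤ}
    {q : St M → ℤ} (hη : DsQ η q) :
    HasSum (fun h : {h : Fin (M + 2) × Fin (M + 2) → ℤ // h 0 = 0} => wTD (M + 2) b η h.1)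
      (∫ θ, cosT (chq q θ) * WT M b θ ∂(torusHaar (St M))) := by
  rw [WT_eq hb]
  have h := UU_int_q (sA (M := M)) tA (J := fun _ => b) (fun _ => hb) (C := 1)
    (Φ := fun n => PhT wu (n ∘ Sum.inl)) (fun n => PhT_abs wu _)
    (fun n => PhT_neg wu (n ∘ Sum.inl)) q
  set φ : {h : Fin (M + 2) × Fin (M + 2) → ℤ // h 0 = 0} → (BB M → ℤ) :=
    fun h => cuT η h.1 ∘ eA with hφ
  have hinj : Function.Injective φ := by
    intro h h' hh
    have h1 : cuT η h.1 = cuT η h'.1 := by
      funext c
      have h2 := congrFun hh (eA.symm c)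
      simpa [hφ] using h2
    have h3 : ∀ x : Fin (M + 2) × Fin (M + 2), h.1 x - h'.1 x = h.1 0 - h'.1 0 := by
      intro x
      refine fin_const (fun x => h.1 x - h'.1 x) ?_ ?_ x 0
      · intro x
        have h4 := congrFun h1 (x, true)
        simp only [cuT, if_true] at h4
        linarith
      · intro x
        have h4 := congrFun h1 (x, false)
        simp only [cuT, Bool.false_eq_true, if_false] at h4
        linarith
    refine Subtype.ext (funext fun x => ?_)
    have h5 := h3 x
    rw [h.2, h'.2, sub_zero] at h5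
    linarith
  have hz : ∀ n, n ∉ Set.range φ →
      (if ∀ v, dvg (sA (M := M)) tA n v = q v then
        wJ (fun _ => b) n * PhT wu (n ∘ Sum.inl) else 0) = 0 := by
    intro n hn
    by_contra hne
    have h1 : ∀ v, dvg (sA (M := M)) tA n v = q v := by
      by_contra h2
      exact hne (if_neg h2)
    rw [if_pos h1] at hne
    have h2 : ∀ k, tot wu (n ∘ Sum.inl) k = 0 := by
      by_contra h3
      apply hne
      unfold PhT
      rw [if_neg h3, mul_zero]
    apply hn
    set m : (Fin (M + 2) × Fin (M + 2)) × Bool → ℤ := n ∘ eA.symm with hm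
    have hnm : n = m ∘ eA := by
      funext e
      simp [hm]
    have hcurl : ∀ x : Fin (M + 2) × Fin (M + 2),
        (-m (x, true) - η (x, false)) + (m (x + (1, 0), false) - η (x + (1, 0), true)) -
          (-m (x + (0, 1), true) - η (x + (0, 1), false)) - (m (x, false) - η (x, true)) = 0 := by
      intro x
      have h3 := h1 x
      rw [hnm, dvg_tor, ← hη.curl x] at h3
      unfold curl at h3
      linarith
    have hA : ∑ i : Fin (M + 2), (-m ((i, 0), true) - η ((i, 0), false)) = 0 := by
      have h3 := h2 true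
      unfold tot at h3
      rw [Fintype.sum_sum_type] at h3
      have e1 : ∀ j : Fin (M + 2), (if wu (Sum.inl j) = true then
          (n ∘ Sum.inl) (Sum.inl j : Fin (M + 2) ⊕ Fin (M + 2)) else 0) = 0 := by
        intro i
        rw [if_neg (by simp [wu])]
      have e2 : ∀ i : Fin (M + 2), (if wu (Sum.inr i) = true then
          (n ∘ Sum.inl) (Sum.inr i : Fin (M + 2) ⊕ Fin (M + 2)) else 0) = m ((i, 0), true) := by
        intro i
        rw [if_pos (show wu (Sum.inr i : Fin (M + 2) ⊕ Fin (M + 2)) = true from rfl), hnm]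
        rfl
      rw [Finset.sum_congr rfl fun j _ => e1 j, Finset.sum_congr rfl fun j _ => e2 j,
        Finset.sum_const_zero, zero_add] at h3
      have h4 : ∑ i : Fin (M + 2), (-m ((i, 0), true) - η ((i, 0), false)) = 0 := by
        rw [Finset.sum_sub_distrib, Finset.sum_neg_distrib, h3, hη.col]
        ring
      exact h4
    have hB : ∑ j : Fin (M + 2), (m ((0, j), false) - η ((0, j), true)) = 0 := by
      have h3 := h2 false
      unfold tot at h3
      rw [Fintype.sum_sum_type] at h3
      have e1 : ∀ j : Fin (M + 2), (if wu (Sum.inl j) = false then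
          (n ∘ Sum.inl) (Sum.inl j : Fin (M + 2) ⊕ Fin (M + 2)) else 0) = m ((0, j), false) := by
        intro i
        rw [if_pos (show wu (Sum.inl i : Fin (M + 2) ⊕ Fin (M + 2)) = false from rfl), hnm]
        rfl
      have e2 : ∀ i : Fin (M + 2), (if wu (Sum.inr i) = false then
          (n ∘ Sum.inl) (Sum.inr i : Fin (M + 2) ⊕ Fin (M + 2)) else 0) = 0 := by
        intro i
        rw [if_neg (by simp [wu])]
      rw [Finset.sum_congr rfl fun j _ => e1 j, Finset.sum_congr rfl fun j _ => e2 j,
        Finset.sum_const_zero, add_zero] at h3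
      have h4 : ∑ j : Fin (M + 2), (m ((0, j), false) - η ((0, j), true)) = 0 := by
        rw [Finset.sum_sub_distrib, h3, hη.row]
        ring
      exact h4
    obtain ⟨h0, hh0⟩ := fin_pot (fun x => -m (x, true) - η (x, false))
      (fun x => m (x, false) - η (x, true)) hcurl hA hB
    refine ⟨⟨fun x => h0 x - h0 0, sub_self _⟩, ?_⟩
    rw [hnm]
    simp only [hφ]
    congr 1
    funext c
    obtain ⟨x, k⟩ := c
    have h5 := hh0 x
    rcases k with _ | _
    · simp only [cuT, Bool.false_eq_true, if_false]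
      linarith [h5.2]
    · simp only [cuT, if_true]
      linarith [h5.1]
  have h1 := (hinj.hasSum_iff hz).2 h
  convert h1 using 1
  funext k
  simp only [Function.comp_apply, hφ]
  rw [if_pos fun v => by rw [dvg_cuT, hη.curl], wJ_cuT]
  have h2 : PhT wu ((cuT η k.1 ∘ eA) ∘ Sum.inl) = 1 := by
    unfold PhT
    rw [if_pos]
    rintro (_ | _)
    · rw [tot_cuT_false, hη.row]
    · rw [tot_cuT_true, hη.col, neg_zero]
  rw [h2, mul_one]

/-- the pinned sum -/
theorem Zp_dual {b : ℝ} (hb : 0 ≤ b) {η : H770.Ed (M + 2) → ℤ} {q : St M → ℤ} (hη : DsQ (M := M) η q) :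
    H883.Zp (wTD (M + 2) b η) (0 : Vale.Agent.P159.TM.SpecC.Tor (M + 2)) =
      ∫ θ, cosT (chq q θ) * WT M b θ ∂(torusHaar (St M)) := by
  have h := (tor_dual_q hb hη).tsum_eq
  rw [← h]
  have h2 := tsum_subtype
    {h : Vale.Agent.P159.TM.SpecC.Tor (M + 2) → ℤ | h 0 = 0} (wTD (M + 2) b η)
  refine Eq.trans ?_ h2.symm
  unfold H883.Zp
  refine tsum_congr fun h => ?_
  unfold H963.pin
  rw [Set.indicator_apply]
  rfl

theorem dsQ_zero : DsQ (M := M) 0 0 := by
  refine ⟨fun v => ?_, ?_, ?_⟩
  · unfold curl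
    simp
  · simp
  · simp

/-- the ratio of the pinned sums is a correlation of the neutral torus -/
theorem Zp_ratio {b : ℝ} (hb : 0 ≤ b) {η : H770.Ed (M + 2) → ℤ} {q : St M → ℤ}
    (hη : DsQ (M := M) η q) :
    H883.Zp (wTD (M + 2) b η) (0 : Vale.Agent.P159.TM.SpecC.Tor (M + 2)) /
      H883.Zp (wTD (M + 2) b 0) (0 : Vale.Agent.P159.TM.SpecC.Tor (M + 2)) =
      eP (WT M b) ∅ (fun θ => cosT (chq q θ)) := by
  have h0 : H883.Zp (wTD (M + 2) b 0) (0 : Vale.Agent.P159.TM.SpecC.Tor (M + 2)) = _ :=
    Zp_dual hb (dsQ_zero (M := M))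
  rw [Zp_dual hb hη, h0]
  unfold eP
  simp only [pin_empty]
  congr 1
  · refine integral_congr_ae (Eventually.of_forall fun θ => ?_)
    exact mul_comm _ _
  · refine integral_congr_ae (Eventually.of_forall fun θ => ?_)
    show cosT (chq 0 θ) * WT M b θ = WT M b θ
    have e : chq (0 : St M → ℤ) θ = 0 := by
      unfold chq
      simp
    rw [e, cosT_zero, one_mul]

end Vale.Agent.P159.H529.Qf
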