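import Vale.Agent.P159.H529.Geo

/-!
Energy of the displaced vortex in a region around its core.
-/

open MeasureTheory Filter Topology
open scoped BigOperators

namespace Vale.Agent.P159

namespace H529

open UJ

/-- energy of the displaced vortex at distances between `s / 2` and `N` of the centre -/
theorem region_energy : ∃ C0 s0 : ℝ, 1 ≤ C0 ∧ 2 ≤ s0 ∧ ∀ (L s N : ℕ) (P : ℂ) (q : ℤ × ℤ)
    (B : Finset (ℤ × ℤ)), s0 ≤ s → s ≤ L → s ≤ N → 0 ≤ P.re → P.re ≤ L / 8 → 0 ≤ P.im →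
    P.im ≤ L / 8 → ctr L + P.re = (q.1 : ℝ) + 1 / 2 → ctr L + P.im = (q.2 : ℝ) + 1 / 2 →
    (∀ z ∈ B, (0 ≤ z.1 ∧ z.1 < L ∧ 0 ≤ z.2 ∧ z.2 < L) ∧ z ∉ g3_bx q (s / 2 - 1) ∧
      z ∈ g3_bx q N) →
    1 / 2 * ∑ z ∈ B, g3_G4 L P z ≤ 2 * Real.pi * (Real.log N - Real.log s) + C0 := by
  obtain ⟨C, hC0, hC⟩ := g3_kap_lip
  have hpi := Real.pi_pos
  have hlog4 : 0 ≤ Real.log 4 := Real.log_nonneg (by norm_num)
  refine ⟨2 * Real.pi * Real.log 4 + 2300 + 2048 * (1 + C) ^ 2, 64 * (1 + C), ?_, by linarith, ?_⟩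
  · have : 0 ≤ 2 * Real.pi * Real.log 4 := by positivity
    nlinarith only [this, sq_nonneg (1 + C)]
  intro L s N P q B hs hsL hsN hP1 hP1' hP2 hP2' hp1 hp2 hmem
  have hs64 : 64 ≤ s := by
    have : (64 : ℝ) ≤ s := by linarith only [hC0, hs]
    exact_mod_cast this
  have hLs' : (s : ℝ) ≤ L := by exact_mod_cast hsL
  have hL32 : 32 * (1 + C) ≤ (L : ℝ) := by linarith only [hs, hLs', hC0]
  have hL0 : (0 : ℝ) < L := by linarith only [hC0, hs, hLs']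
  have hL1 : 1 ≤ L := by omega
  have hbound : ∀ z ∈ B, 1 / 2 * g3_G4 L P z ≤
      g3_gg q z + 2048 * (1 + C) ^ 2 / (L : ℝ) ^ 2 := by
    intro z hz
    obtain ⟨_, hz2, _⟩ := hmem z hz
    have hF : 0 ≤ 2048 * (1 + C) ^ 2 / (L : ℝ) ^ 2 := by positivity
    have hdd := g3_dd_ring hz2
    have h16 : 16 ≤ g3_dd q z := by
      refine le_trans ?_ hdd
      have : (4 : ℝ) ≤ ((s / 2 - 1 : ℕ) : ℝ) := by exact_mod_cast (by omega : 4 ≤ s / 2 - 1)
      nlinarith only [this]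
    by_cases hfar : (L : ℝ) / 4 - 1 ≤ |(z.1 : ℝ) - ctr L| ∨ (L : ℝ) / 4 - 1 ≤ |(z.2 : ℝ) - ctr L|
    · have h5 := g3_sq_far hC0 hC hL32 hP1 hP1' hP2 hP2' hfar
      have h6 := g3_gg_nonneg q z
      linarith only [h5, h6]
    · push Not at hfar
      obtain ⟨h1, h2⟩ := hfar
      have h3 : |(z.1 : ℝ) + 1 - ctr L| ≤ L / 4 := by
        have e : (z.1 : ℝ) + 1 - ctr L = ((z.1 : ℝ) - ctr L) + 1 := by ring
        rw [e]
        refine (abs_add_le _ _).trans ?_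
        rw [abs_one]
        linarith only [h1]
      have h4 : |(z.2 : ℝ) + 1 - ctr L| ≤ L / 4 := by
        have e : (z.2 : ℝ) + 1 - ctr L = ((z.2 : ℝ) - ctr L) + 1 := by ring
        rw [e]
        refine (abs_add_le _ _).trans ?_
        rw [abs_one]
        linarith only [h2]
      have := g3_sq_near hp1 hp2 (by linarith only [h1]) h3 (by linarith only [h2]) h4 hL1 h16
      linarith only [hF, this]
  have hsub1 : B ⊆ g3_bx q N \ g3_bx q (s / 2 - 1) := by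
    intro z hz
    obtain ⟨_, hz2, hz3⟩ := hmem z hz
    rw [Finset.mem_sdiff]
    exact ⟨hz3, hz2⟩
  have hsub2 : B ⊆ Finset.Ico 0 (L : ℤ) ×ˢ Finset.Ico 0 (L : ℤ) := by
    intro z hz
    obtain ⟨⟨z1, z2, z3, z4⟩, _⟩ := hmem z hz
    simp only [Finset.mem_product, Finset.mem_Ico]
    exact ⟨⟨z1, z2⟩, z3, z4⟩
  have hcard : (B.card : ℝ) ≤ (L : ℝ) ^ 2 := by
    have h := Finset.card_le_card hsub2
    rw [Finset.card_product, Int.card_Ico] at h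
    simp only [sub_zero, Int.toNat_natCast] at h
    have h' : (B.card : ℝ) ≤ ((L * L : ℕ) : ℝ) := by exact_mod_cast h
    rw [Nat.cast_mul, ← pow_two] at h'
    exact h'
  rw [Finset.mul_sum]
  refine (Finset.sum_le_sum hbound).trans ?_
  rw [Finset.sum_add_distrib, Finset.sum_const, nsmul_eq_mul]
  have t1 : ∑ z ∈ B, g3_gg q z ≤ ∑ z ∈ g3_bx q N \ g3_bx q (s / 2 - 1), g3_gg q z :=
    Finset.sum_le_sum_of_subset_of_nonneg hsub1 fun z _ _ => g3_gg_nonneg q z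
  have t2 := g3_sum q (k0 := s / 2 - 1) (by omega) N (by omega)
  have t3 : (B.card : ℝ) * (2048 * (1 + C) ^ 2 / (L : ℝ) ^ 2) ≤ 2048 * (1 + C) ^ 2 := by
    calc (B.card : ℝ) * (2048 * (1 + C) ^ 2 / (L : ℝ) ^ 2) ≤
        (L : ℝ) ^ 2 * (2048 * (1 + C) ^ 2 / (L : ℝ) ^ 2) := by gcongr
      _ = 2048 * (1 + C) ^ 2 := by field_simp
  have hk0 : (s : ℝ) / 4 ≤ ((s / 2 - 1 : ℕ) : ℝ) := by
    have h : s ≤ 4 * (s / 2 - 1) := by omega
    have h' : (s : ℝ) ≤ 4 * ((s / 2 - 1 : ℕ) : ℝ) := by exact_mod_cast h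
    linarith only [h']
  have hs0 : (0 : ℝ) < s := by exact_mod_cast (by omega : 0 < s)
  have t4 : Real.log N - Real.log ((s / 2 - 1 : ℕ) : ℝ) ≤ Real.log N - Real.log s + Real.log 4 := by
    have h1 : Real.log ((s : ℝ) / 4) ≤ Real.log ((s / 2 - 1 : ℕ) : ℝ) :=
      Real.log_le_log (by positivity) hk0
    rw [Real.log_div hs0.ne' (by norm_num)] at h1
    linarith only [h1]
  have t5 : 2300 * (1 / (((s / 2 - 1 : ℕ) : ℕ) : ℝ) - 1 / (N : ℝ)) ≤ 2300 := by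
    have h1 : (1 : ℝ) ≤ ((s / 2 - 1 : ℕ) : ℝ) := by exact_mod_cast (by omega : 1 ≤ s / 2 - 1)
    have h2 : 1 / ((s / 2 - 1 : ℕ) : ℝ) ≤ 1 := by
      rw [div_le_one (by linarith only [h1])]; exact h1
    have h3 : 0 ≤ 1 / (N : ℝ) := by positivity
    linarith only [h2, h3]
  have t6 : 2 * Real.pi * (Real.log N - Real.log ((s / 2 - 1 : ℕ) : ℝ)) ≤
      2 * Real.pi * (Real.log N - Real.log s + Real.log 4) := by gcongr
  linarith only [t1, t2, t3, t5, t6]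

end H529

end Vale.Agent.P159
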