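import Vale.Agent.P159.H529.Chain

/-!
The lower bound for the form of a pyramid, from long slabs.
-/

set_option linter.all false
set_option autoImplicit false

open MeasureTheory Filter Topology
open scoped BigOperators

namespace Vale.Agent.P159.H529

open Vale.Agent.P159 Vale.Agent.P159.UJ Vale.Agent.P159.H950

/-- the soft input for slabs -/
def Slab (b Y : ℝ) : Prop :=
  ∀ ε : ℝ, 0 < ε → ∃ A : ℕ, 1 ≤ A ∧ ∃ w0 : ℕ, ∀ w : ℕ, w0 ≤ w →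
    (Y - ε) * (A * (w : ℝ) ^ 2) ≤ VF b (ct (hbx 0 w 0 (A * w)) e2)

theorem card_Dm (u0 u1 v0 v1 : ℤ) (hu : u0 ≤ u1) (hv : v0 ≤ v1) :
    ((Dm u0 u1 v0 v1).card : ℝ) ≤ 4 * (u1 - u0 + 4) * (v1 - v0 + 4) := by
  have h1 : (Dm u0 u1 v0 v1).card ≤
      ((Finset.Icc (u0 - 1) (u1 + 1) ×ˢ Finset.Icc (v0 - 3) v1) ×ˢ
        (Finset.univ : Finset HT)).card := by
    refine Finset.card_le_card_of_injOn
      (fun p => ((2 * (p.1.1 - p.1.2), 2 * (p.1.1 + p.1.2)), p.2)) (fun p hp => ?_) ?_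
    · rw [Finset.mem_coe, mem_Dm] at hp
      have h := s_cell p
      simp only [Finset.coe_product, Finset.coe_Icc, Finset.coe_univ, Set.mem_prod, Set.mem_Icc,
        Set.mem_univ, and_true]
      omega
    · intro p _ q _ hpq
      simp only [Prod.mk.injEq] at hpq
      obtain ⟨⟨h1, h2⟩, h3⟩ := hpq
      ext1
      · ext <;> omega
      · exact h3
  rw [Finset.card_product, Finset.card_product, Int.card_Icc, Int.card_Icc] at h1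
  have h2 : (Finset.univ : Finset HT).card = 4 := rfl
  rw [h2] at h1
  have h3 : ((Dm u0 u1 v0 v1).card : ℝ) ≤
      (((u1 + 1 + 1 - (u0 - 1)).toNat * (v1 + 1 - (v0 - 3)).toNat * 4 : ℕ) : ℝ) := by
    exact_mod_cast h1
  refine h3.trans ?_
  have e1 : (((u1 + 1 + 1 - (u0 - 1)).toNat : ℕ) : ℝ) = (u1 : ℝ) - u0 + 3 := by
    have : ((u1 + 1 + 1 - (u0 - 1)).toNat : ℤ) = u1 - u0 + 3 := by omega
    exact_mod_cast this
  have e2 : (((v1 + 1 - (v0 - 3)).toNat : ℕ) : ℝ) = (v1 : ℝ) - v0 + 4 := by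
    have : ((v1 + 1 - (v0 - 3)).toNat : ℤ) = v1 - v0 + 4 := by omega
    exact_mod_cast this
  push_cast
  rw [e1, e2]
  have e3 : (0 : ℝ) ≤ (v1 : ℝ) - v0 := by
    have : (v0 : ℝ) ≤ v1 := by exact_mod_cast hv
    linarith
  have e4 : (0 : ℝ) ≤ (u1 : ℝ) - u0 := by
    have : (u0 : ℝ) ≤ u1 := by exact_mod_cast hu
    linarith
  nlinarith

/-- the pyramid centred at the origin -/
noncomputable def tile (ρ : ℤ) : FH := ct (Dm (-(2 * ρ)) (2 * ρ) (-(2 * ρ)) (2 * ρ)) (ga ρ)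

variable {b : ℝ}

/-- the start tile against the centred tile -/
theorem start_tile (hb : 0 ≤ b) {ρ : ℤ} (hρ : 0 < ρ) (P : ℤ) :
    VF b (ct (Dm (-(2 * ((2 * P - 1) * ρ))) (-(2 * ((2 * P - 1) * ρ)) + 4 * ρ)
      (-(2 * ((2 * P - 1) * ρ))) (-(2 * ((2 * P - 1) * ρ)) + 4 * ρ)) (ga ρ)) =
      VF b (tile ρ) := by
  have h2 : ((-ct (Dm (-(2 * ((2 * P - 1) * ρ))) (-(2 * ((2 * P - 1) * ρ)) + 4 * ρ)
      (-(2 * ((2 * P - 1) * ρ))) (-(2 * ((2 * P - 1) * ρ)) + 4 * ρ)) (ga ρ) : FH) :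
      Hb → ℝ) = ac (Dir.V.refl (-(P - 1) * ρ)) (tile ρ) := by
    rw [← ct_neg]
    unfold tile
    refine ct_ac (fun p => ?_) (fun p _ => (ga_V hρ _ p).symm)
    rw [mem_Dm, mem_Dm, sA_V, sD_V]
    have e2 : -(2 * ((2 * P - 1) * ρ)) = 4 * (-(P - 1) * ρ) - 2 * ρ := by ring
    rw [e2]
    generalize -(P - 1) * ρ = a
    omega
  have h3 := VF_inv hb Dir.V _ h2
  rw [VF_neg hb] at h3
  exact h3

/-- the large diamond against the tile -/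
theorem big_tile (hb : 0 ≤ b) {ρ : ℤ} (hρ : 0 < ρ) (n : ℕ) {M : ℤ} (hM : 2 ^ (n + 1) = M) :
    VF b (ct (Dm (-(2 * ((M - 1) * ρ))) (-(2 * ((M - 1) * ρ)) + 4 * ρ * M)
      (-(2 * ((M - 1) * ρ))) (-(2 * ((M - 1) * ρ)) + 4 * ρ * M))
      (ga ρ)) ≤ 4 ^ (n + 1) * VF b (tile ρ) := by
  have h1 := chess hb hρ (-2 ^ n) (-2 ^ n) (n + 1)
  obtain ⟨P, hP⟩ : ∃ P : ℤ, P = 2 ^ n := ⟨_, rfl⟩
  have hM2 : M = 2 * P := by rw [← hM, hP, pow_succ]; ring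
  have e1 : 2 * ((2 * (-2 ^ n : ℤ) + 1) * ρ) = -(2 * ((2 * P - 1) * ρ)) := by
    rw [hP]; ring
  rw [e1, hM, start_tile hb hρ P] at h1
  rw [hM2] at h1 ⊢
  exact h1

/-- the centred large diamond against a square -/
theorem diam_sq (hb : 0 ≤ b) {r : ℤ} (hr : 0 < r) (k : ℕ) :
    4 * VF b (ct (hbx 0 ((2 * k + 1) * (2 * r)) 0 ((2 * k + 1) * (2 * r))) (al (2 * r))) ≤
      VF b (ct (Dm (-(2 * ((2 * k + 1) * (2 * r)))) (2 * ((2 * k + 1) * (2 * r)))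
        (-(2 * ((2 * k + 1) * (2 * r)))) (2 * ((2 * k + 1) * (2 * r)))) (ga (2 * r))) := by
  have hρ : 0 < 2 * r := by omega
  have hd := decouple hb hr k
  have ha := anti hb hρ k
  set N : ℤ := (2 * k + 1) * (2 * r) with hN
  have hN0 : 0 < N := by positivity
  set D := Dm (-(2 * N)) (2 * N) (-(2 * N)) (2 * N) with hD
  have h1 := half_V hb hρ (S := D) (fun p => by
    rw [hD, mem_Dm, mem_Dm, sA_V, sD_V]; omega)
  have h2 := half_H hb hρ (S := D.filter fun p => 0 ≤ p.1.1) (fun p => by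
    rw [Finset.mem_filter, Finset.mem_filter, hD, mem_Dm, mem_Dm, sA_H, sD_H, im_H]
    simp only
    omega)
  have e1 : (D.filter fun p => 0 ≤ p.1.1).filter (fun p => 0 ≤ p.1.2) =
      (hbx 0 N 0 N).filter fun p => sA p < 2 * N := by
    ext p
    rw [Finset.mem_filter, Finset.mem_filter, Finset.mem_filter, hD, mem_Dm, mem_hbx]
    have h3 := s_cell p
    constructor
    · rintro ⟨⟨h4, h5⟩, h6⟩
      have h7 := s_quad p h5 h6
      omega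
    · rintro ⟨⟨h5, h4, h6, h8⟩, h9⟩
      have h7 := s_quad p h5 h6
      omega
  rw [e1] at h2
  linarith

theorem al_sq_le (ρ : ℤ) (p : Hb) : al ρ p ^ 2 / 2 ≤ 1 / 2 := by
  unfold al
  split_ifs
  · rw [sw_sq]
  · norm_num

theorem card_hbx {x y : ℤ} (hx : 0 ≤ x) (hy : 0 ≤ y) : ((hbx 0 x 0 y).card : ℝ) = 4 * x * y := by
  unfold hbx
  rw [Finset.card_product, Finset.card_product, Int.card_Ico, Int.card_Ico, sub_zero, sub_zero]
  have h2 : (Finset.univ : Finset HT).card = 4 := rfl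
  rw [h2]
  push_cast
  have e1 : ((x.toNat : ℕ) : ℝ) = x := by exact_mod_cast Int.toNat_of_nonneg hx
  have e2 : ((y.toNat : ℕ) : ℝ) = y := by exact_mod_cast Int.toNat_of_nonneg hy
  rw [e1, e2]
  ring

/-- the finite inequality -/
theorem fin_ineq (hb : 0 ≤ b) {r : ℤ} (hr : 0 < r) {η : ℝ} (hη : 0 < η) {A : ℕ} (hA : 1 ≤ A) :
    ∃ K : ℝ, ∀ n κ : ℕ, 1 ≤ κ → A * (2 * κ) ≤ 2 ^ (n + 1) - 1 →
      2 ^ (n + 1) - 1 < A * (2 * (κ + 1)) →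
      A * VF b (ct (hbx 0 ((2 * κ : ℕ) * (2 * r)) 0 (A * ((2 * κ : ℕ) * (2 * r)))) e2) ≤
        (1 + η) ^ 2 / 4 * (4 ^ (n + 1) * VF b (tile (2 * r))) + K * 2 ^ (n + 1) := by
  classical
  set ρ : ℤ := 2 * r with hρd
  have hρ : 0 < ρ := by omega
  refine ⟨(1 + η) / 4 * ((1 + 1 / η) * (b * (16 * (2 * ρ + 4) * (4 * ρ + 4)))) +
    (1 + 1 / η) * (b * (8 * A * ρ * ρ)), ?_⟩
  intro n κ hκ h1 h2
  obtain ⟨k, hk⟩ : ∃ k : ℕ, 2 ^ (n + 1) - 1 = 2 * k + 1 := ⟨2 ^ n - 1, by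
    have : 1 ≤ 2 ^ n := Nat.one_le_two_pow
    rw [pow_succ]; omega⟩
  have hp1 : 1 ≤ 2 ^ (n + 1) := Nat.one_le_two_pow
  have hkz : ((2 : ℤ) ^ (n + 1) - 1) = 2 * k + 1 := by
    have : ((2 ^ (n + 1) - 1 : ℕ) : ℤ) = ((2 * k + 1 : ℕ) : ℤ) := by rw [hk]
    push_cast [Nat.cast_sub hp1] at this
    exact this
  have hkr : (2 : ℝ) ^ (n + 1) = 2 * k + 2 := by
    have : ((2 : ℤ) ^ (n + 1) : ℤ) = 2 * k + 2 := by linarith
    exact_mod_cast this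
  set N : ℤ := (2 * k + 1) * ρ with hN
  have hN0 : 0 < N := by positivity
  have hNle : (N : ℝ) ≤ 2 ^ (n + 1) * ρ := by
    rw [hkr, hN]
    have : (0 : ℝ) < ρ := by exact_mod_cast hρ
    push_cast
    nlinarith
  -- the tile
  have hT := big_tile hb hρ n (M := 2 * k + 2) (by linarith)
  have e0 : ((2 * (k : ℤ) + 2) - 1) * ρ = N := by rw [hN]; ring
  have e1 : -(2 * N) + 4 * ρ * (2 * k + 2) = 2 * N + 4 * ρ := by rw [hN]; ring
  rw [e0, e1] at hT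
  -- removal of a strip of the diamond
  set S := Dm (-(2 * N)) (2 * N + 4 * ρ) (-(2 * N)) (2 * N + 4 * ρ) with hS
  set D := Dm (-(2 * N)) (2 * N) (-(2 * N)) (2 * N) with hD
  have hDS : D ⊆ S := by
    intro p hp
    rw [hD, mem_Dm] at hp
    rw [hS, mem_Dm]
    omega
  have hR1 := VF_remove_ct hb hDS (ga ρ) hη
  have hc1 : (((S \ D).card : ℕ) : ℝ) ≤ 2 * (16 * (2 * ρ + 4) * (4 * ρ + 4)) * 2 ^ (n + 1) := by
    have hsub : S \ D ⊆ Dm (2 * N - 1) (2 * N + 4 * ρ) (-(2 * N)) (2 * N + 4 * ρ) ∪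
        Dm (-(2 * N)) (2 * N + 4 * ρ) (2 * N - 1) (2 * N + 4 * ρ) := by
      intro p hp
      rw [Finset.mem_sdiff, hS, hD, mem_Dm, mem_Dm] at hp
      rw [Finset.mem_union, mem_Dm, mem_Dm]
      omega
    have h3 : (((S \ D).card : ℕ) : ℝ) ≤
        ((Dm (2 * N - 1) (2 * N + 4 * ρ) (-(2 * N)) (2 * N + 4 * ρ)).card : ℝ) +
        ((Dm (-(2 * N)) (2 * N + 4 * ρ) (2 * N - 1) (2 * N + 4 * ρ)).card : ℝ) := by
      have := (Finset.card_le_card hsub).trans (Finset.card_union_le _ _)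
      exact_mod_cast this
    have h4 := card_Dm (2 * N - 1) (2 * N + 4 * ρ) (-(2 * N)) (2 * N + 4 * ρ) (by omega) (by omega)
    have h5 := card_Dm (-(2 * N)) (2 * N + 4 * ρ) (2 * N - 1) (2 * N + 4 * ρ) (by omega) (by omega)
    push_cast at h4 h5
    have hρ1 : (1 : ℝ) ≤ ρ := by exact_mod_cast hρ
    have hp : (1 : ℝ) ≤ 2 ^ (n + 1) := one_le_pow₀ (by norm_num)
    have h6 : (4 : ℝ) * N + 4 * ρ + 4 ≤ (4 * ρ + 4 * ρ + 4) * 2 ^ (n + 1) := by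
      nlinarith
    have h7 : 4 * (2 * (N : ℝ) + 4 * ρ - (2 * N - 1) + 4) * (2 * N + 4 * ρ - -(2 * N) + 4) ≤
        16 * (2 * ρ + 4) * (4 * ρ + 4) * 2 ^ (n + 1) := by
      have e3 : 4 * (2 * (N : ℝ) + 4 * ρ - (2 * N - 1) + 4) * (2 * N + 4 * ρ - -(2 * N) + 4) =
        4 * (4 * ρ + 5) * (4 * N + 4 * ρ + 4) := by ring
      rw [e3]
      calc 4 * (4 * (ρ : ℝ) + 5) * (4 * N + 4 * ρ + 4) ≤
          4 * (4 * (ρ : ℝ) + 5) * ((4 * ρ + 4 * ρ + 4) * 2 ^ (n + 1)) :=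
            mul_le_mul_of_nonneg_left h6 (by positivity)
        _ = (4 * (4 * (ρ : ℝ) + 5) * (8 * ρ + 4)) * 2 ^ (n + 1) := by ring
        _ ≤ (16 * (2 * ρ + 4) * (4 * ρ + 4)) * 2 ^ (n + 1) := by
            refine mul_le_mul_of_nonneg_right ?_ (by positivity)
            nlinarith
        _ = _ := by ring
    have h8 : 4 * (2 * (N : ℝ) + 4 * ρ - -(2 * N) + 4) * (2 * N + 4 * ρ - (2 * N - 1) + 4) ≤
        16 * (2 * ρ + 4) * (4 * ρ + 4) * 2 ^ (n + 1) := by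
      refine le_trans (le_of_eq ?_) h7
      ring
    linarith
  have hs1 : ∑ p ∈ S \ D, ga ρ p ^ 2 / 2 ≤
      16 * (2 * (ρ : ℝ) + 4) * (4 * ρ + 4) * 2 ^ (n + 1) := by
    simp only [ga_sq]
    rw [Finset.sum_const, nsmul_eq_mul]
    linarith
  -- the square
  have hQ := diam_sq hb hr k
  rw [← hρd, ← hN] at hQ
  set w : ℤ := (2 * κ : ℕ) * ρ with hw
  have hw0 : 0 < w := by rw [hw]; positivity
  have hAw : (A : ℤ) * w ≤ N := by
    rw [hw, hN]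
    have h3 : ((A * (2 * κ) : ℕ) : ℤ) ≤ 2 * k + 1 := by rw [hk] at h1; exact_mod_cast h1
    push_cast at h3 ⊢
    nlinarith
  have hAw2 : N - A * w ≤ 2 * A * ρ := by
    rw [hw, hN]
    have h3 : (2 * k + 1 : ℤ) < ((A * (2 * (κ + 1)) : ℕ) : ℤ) := by
      rw [hk] at h2; exact_mod_cast h2
    push_cast at h3 ⊢
    nlinarith
  have hAw0 : 0 ≤ (A : ℤ) * w := by positivity
  have hsub2 : hbx 0 (A * w) 0 (A * w) ⊆ hbx 0 N 0 N := by
    intro p hp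
    rw [mem_hbx] at hp ⊢
    omega
  have hR2 := VF_remove_ct hb hsub2 (al ρ) hη
  have hs2 : ∑ p ∈ hbx 0 N 0 N \ hbx 0 (A * w) 0 (A * w), al ρ p ^ 2 / 2 ≤
      8 * (A : ℝ) * ρ * ρ * 2 ^ (n + 1) := by
    refine (Finset.sum_le_sum fun p _ => al_sq_le ρ p).trans ?_
    rw [Finset.sum_const, nsmul_eq_mul, Finset.card_sdiff_of_subset hsub2,
      Nat.cast_sub (Finset.card_le_card hsub2), card_hbx hN0.le hN0.le, card_hbx hAw0 hAw0]
    have h3 : (N : ℝ) - (A * w : ℤ) ≤ 2 * A * ρ := by exact_mod_cast hAw2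
    have h4 : ((A * w : ℤ) : ℝ) ≤ N := by exact_mod_cast hAw
    have h5 : (0 : ℝ) ≤ ((A * w : ℤ) : ℝ) := by exact_mod_cast hAw0
    have hρ1 : (1 : ℝ) ≤ ρ := by exact_mod_cast hρ
    have h6 : (4 * (N : ℝ) * N - 4 * ((A * w : ℤ) : ℝ) * ((A * w : ℤ) : ℝ)) * (1 / 2) =
        2 * (N - ((A * w : ℤ) : ℝ)) * (N + ((A * w : ℤ) : ℝ)) := by ring
    rw [h6]
    calc 2 * ((N : ℝ) - ((A * w : ℤ) : ℝ)) * (N + ((A * w : ℤ) : ℝ)) ≤
        2 * (2 * A * ρ) * (N + N) := by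
          refine mul_le_mul (by linarith) (by linarith) (by positivity) (by positivity)
      _ ≤ 2 * (2 * A * ρ) * (2 ^ (n + 1) * ρ + 2 ^ (n + 1) * ρ) := by
          refine mul_le_mul_of_nonneg_left (by linarith) (by positivity)
      _ = _ := by ring
  -- slabs and strips
  have hsl := slabs hb hρ κ hκ A (A * w)
  have hst := strips hb hr (2 * κ) (A * w)
  rw [← hρd] at hst
  have e4 : (2 * (κ : ℤ) * ρ) = w := by rw [hw]; push_cast; ring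
  rw [e4] at hsl
  have e5 : (((2 * κ : ℕ) : ℤ) * ρ) = w := rfl
  rw [e5] at hst
  have hA0 : (0 : ℝ) ≤ A := by positivity
  have c1 : A * VF b (ct (hbx 0 w 0 (A * w)) e2) ≤ A * VF b (ct (hbx 0 w 0 (A * w)) (al ρ)) :=
    mul_le_mul_of_nonneg_left hst hA0
  have i1 : 0 < 1 + 1 / η := by positivity
  have c2 : (1 + 1 / η) * (b * ∑ p ∈ hbx 0 N 0 N \ hbx 0 (A * w) 0 (A * w), al ρ p ^ 2 / 2) ≤
      (1 + 1 / η) * (b * (8 * (A : ℝ) * ρ * ρ * 2 ^ (n + 1))) := by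
    exact mul_le_mul_of_nonneg_left (mul_le_mul_of_nonneg_left hs2 hb) i1.le
  have c3 : (1 + 1 / η) * (b * ∑ p ∈ S \ D, ga ρ p ^ 2 / 2) ≤
      (1 + 1 / η) * (b * (16 * (2 * (ρ : ℝ) + 4) * (4 * ρ + 4) * 2 ^ (n + 1))) := by
    exact mul_le_mul_of_nonneg_left (mul_le_mul_of_nonneg_left hs1 hb) i1.le
  have c4 : VF b (ct D (ga ρ)) ≤ (1 + η) * (4 ^ (n + 1) * VF b (tile ρ)) +
      (1 + 1 / η) * (b * (16 * (2 * (ρ : ℝ) + 4) * (4 * ρ + 4) * 2 ^ (n + 1))) := by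
    have : (1 + η) * VF b (ct S (ga ρ)) ≤ (1 + η) * (4 ^ (n + 1) * VF b (tile ρ)) :=
      mul_le_mul_of_nonneg_left hT (by positivity)
    linarith
  have c5 : (1 + η) * VF b (ct (hbx 0 N 0 N) (al ρ)) ≤ (1 + η) / 4 * VF b (ct D (ga ρ)) := by
    have := mul_le_mul_of_nonneg_left hQ (show 0 ≤ (1 + η) / 4 by positivity)
    linarith
  have c6 := mul_le_mul_of_nonneg_left c4 (show 0 ≤ (1 + η) / 4 by positivity)
  calc A * VF b (ct (hbx 0 w 0 (A * w)) e2) ≤ VF b (ct (hbx 0 (A * w) 0 (A * w)) (al ρ)) :=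
        c1.trans hsl
    _ ≤ (1 + η) * VF b (ct (hbx 0 N 0 N) (al ρ)) +
        (1 + 1 / η) * (b * (8 * (A : ℝ) * ρ * ρ * 2 ^ (n + 1))) := by linarith
    _ ≤ (1 + η) / 4 * ((1 + η) * (4 ^ (n + 1) * VF b (tile ρ)) +
      (1 + 1 / η) * (b * (16 * (2 * (ρ : ℝ) + 4) * (4 * ρ + 4) * 2 ^ (n + 1)))) +
        (1 + 1 / η) * (b * (8 * (A : ℝ) * ρ * ρ * 2 ^ (n + 1))) := by linarith
    _ = _ := by ring

end Vale.Agent.P159.H529
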