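import Vale.Agent.P159.H529.Rpl

/-!
The lower bound for the form of a pyramid, from long slabs: the limit.
-/

set_option linter.all false
set_option autoImplicit false

open MeasureTheory Filter Topology
open scoped BigOperators

namespace Vale.Agent.P159.H529

open Vale.Agent.P159 Vale.Agent.P159.UJ Vale.Agent.P159.H950

variable {b : ℝ}

/-- the centred pyramid, up to `ε`, `η` -/
theorem tile_ge_aux (hb : 0 ≤ b) {Y : ℝ} (hS : Slab b Y) {r : ℤ} (hr : 0 < r) {ε η : ℝ}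
    (hε : 0 < ε) (hεY : ε < Y) (hη : 0 < η) :
    (Y - ε) * (2 * r) ^ 2 ≤ (1 + η) ^ 2 / 4 * VF b (tile (2 * r)) := by
  obtain ⟨A, hA, w0, hw0⟩ := hS ε hε
  obtain ⟨K, hK⟩ := fin_ineq hb hr hη hA
  set V := VF b (tile (2 * r)) with hV
  have hV0 : 0 ≤ V := VF_nonneg hb _
  have hAr : (1 : ℝ) ≤ A := by exact_mod_cast hA
  have hrr : (1 : ℝ) ≤ r := by exact_mod_cast hr
  -- for large n
  have key : ∀ᶠ n : ℕ in atTop,
      (Y - ε) * ((1 - (1 + 2 * A) * (1 / 2 : ℝ) ^ (n + 1)) ^ 2 * (2 * r) ^ 2) ≤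
        (1 + η) ^ 2 / 4 * V + K * (1 / 2 : ℝ) ^ (n + 1) := by
    have hlarge : ∀ᶠ n : ℕ in atTop, 2 * A * (w0 + 1) + 1 ≤ 2 ^ (n + 1) := by
      have : Tendsto (fun n : ℕ => 2 ^ (n + 1)) atTop atTop :=
        (tendsto_add_atTop_iff_nat (f := fun n : ℕ => 2 ^ n) 1).2
          (tendsto_pow_atTop_atTop_of_one_lt (by norm_num))
      exact this.eventually_ge_atTop _
    filter_upwards [hlarge] with n hn
    set κ := (2 ^ (n + 1) - 1) / (2 * A) with hκ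
    have hA2 : 0 < 2 * A := by omega
    have hκ1 : w0 + 1 ≤ κ := by
      rw [hκ, Nat.le_div_iff_mul_le hA2]
      have : (w0 + 1) * (2 * A) = 2 * A * (w0 + 1) := by ring
      omega
    have h1 : A * (2 * κ) ≤ 2 ^ (n + 1) - 1 := by
      have := Nat.mul_div_le (2 ^ (n + 1) - 1) (2 * A)
      rw [← hκ] at this
      have e : A * (2 * κ) = 2 * A * κ := by ring
      omega
    have h2 : 2 ^ (n + 1) - 1 < A * (2 * (κ + 1)) := by
      have := Nat.lt_mul_div_succ (2 ^ (n + 1) - 1) hA2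
      rw [← hκ] at this
      have e : A * (2 * (κ + 1)) = 2 * A * (κ + 1) := by ring
      omega
    have h3 := hK n κ (by omega) h1 h2
    -- the slab
    obtain ⟨w, hw⟩ : ∃ w : ℕ, ((w : ℕ) : ℤ) = (2 * κ : ℕ) * (2 * r) :=
      ⟨((2 * κ : ℕ) * (2 * r) : ℤ).toNat, by
        rw [Int.toNat_of_nonneg]; positivity⟩
    have hww : w0 ≤ w := by
      have : (w0 : ℤ) ≤ w := by
        rw [hw]
        push_cast
        have : (w0 : ℤ) + 1 ≤ κ := by exact_mod_cast hκ1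
        nlinarith
      exact_mod_cast this
    have h4 := hw0 w hww
    rw [hw] at h4
    have h5 : (w : ℝ) = 2 * κ * (2 * r) := by exact_mod_cast hw
    have hX : (0 : ℝ) < 2 ^ (n + 1) := by positivity
    set X : ℝ := 2 ^ (n + 1) with hXd
    have h6 : X - 1 - 2 * A ≤ A * (2 * κ) := by
      have h7 : (2 ^ (n + 1) - 1 : ℕ) ≤ A * (2 * (κ + 1)) := h2.le
      have h8 : (((2 ^ (n + 1) - 1 : ℕ)) : ℝ) ≤ ((A * (2 * (κ + 1)) : ℕ) : ℝ) := by
        exact_mod_cast h7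
      rw [Nat.cast_sub Nat.one_le_two_pow] at h8
      push_cast at h8
      rw [← hXd] at h8
      linarith
    have h9 : 0 ≤ X - 1 - 2 * A := by
      have h10 : ((2 * A * (w0 + 1) + 1 : ℕ) : ℝ) ≤ ((2 ^ (n + 1) : ℕ) : ℝ) := by exact_mod_cast hn
      push_cast at h10
      rw [← hXd] at h10
      have : (0 : ℝ) ≤ 2 * A * w0 := by positivity
      nlinarith
    have hYe : 0 ≤ Y - ε := by linarith
    have h10 : (Y - ε) * ((X - 1 - 2 * A) ^ 2 * (2 * r) ^ 2) ≤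
        A * VF b (ct (hbx 0 ((2 * κ : ℕ) * (2 * r)) 0 (A * ((2 * κ : ℕ) * (2 * r)))) e2) := by
      calc (Y - ε) * ((X - 1 - 2 * A) ^ 2 * (2 * r) ^ 2) ≤
          (Y - ε) * ((A * (2 * κ)) ^ 2 * (2 * r) ^ 2) := by
            refine mul_le_mul_of_nonneg_left ?_ hYe
            refine mul_le_mul_of_nonneg_right ?_ (by positivity)
            exact pow_le_pow_left₀ h9 h6 2
        _ = A * ((Y - ε) * (A * (w : ℝ) ^ 2)) := by rw [h5]; ring
        _ ≤ _ := mul_le_mul_of_nonneg_left h4 (by positivity)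
    have h11 := h10.trans h3
    have h12 : (4 : ℝ) ^ (n + 1) = X ^ 2 := by
      rw [hXd, ← pow_mul, mul_comm (n + 1) 2, pow_mul]; norm_num
    rw [h12] at h11
    have h13 : (1 / 2 : ℝ) ^ (n + 1) = 1 / X := by
      rw [hXd, one_div, inv_pow, one_div]
    rw [h13]
    have h14 : (Y - ε) * ((1 - (1 + 2 * A) * (1 / X)) ^ 2 * (2 * r) ^ 2) =
        ((Y - ε) * ((X - 1 - 2 * A) ^ 2 * (2 * r) ^ 2)) / X ^ 2 := by
      field_simp
      ring
    have h15 : (1 + η) ^ 2 / 4 * V + K * (1 / X) =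
        ((1 + η) ^ 2 / 4 * (X ^ 2 * V) + K * X) / X ^ 2 := by
      field_simp
    rw [h14, h15]
    exact div_le_div_of_nonneg_right h11 (by positivity)
  have hu : Tendsto (fun n : ℕ => (1 / 2 : ℝ) ^ (n + 1)) atTop (𝓝 0) :=
    (tendsto_add_atTop_iff_nat (f := fun n : ℕ => (1 / 2 : ℝ) ^ n) 1).2
      (tendsto_pow_atTop_nhds_zero_of_lt_one (by norm_num) (by norm_num))
  have hl : Tendsto (fun n : ℕ => (Y - ε) * ((1 - (1 + 2 * A) * (1 / 2 : ℝ) ^ (n + 1)) ^ 2 *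
      (2 * (r : ℝ)) ^ 2)) atTop (𝓝 ((Y - ε) * ((1 - (1 + 2 * A) * 0) ^ 2 * (2 * (r : ℝ)) ^ 2))) :=
    (((tendsto_const_nhds.sub (hu.const_mul _)).pow 2).mul_const _).const_mul _
  have hr' : Tendsto (fun n : ℕ => (1 + η) ^ 2 / 4 * V + K * (1 / 2 : ℝ) ^ (n + 1)) atTop
      (𝓝 ((1 + η) ^ 2 / 4 * V + K * 0)) := tendsto_const_nhds.add (hu.const_mul _)
  have := le_of_tendsto_of_tendsto hl hr' key
  simpa using this

/-- **the centred pyramid** -/
theorem tile_ge (hb : 0 ≤ b) {Y : ℝ} (hY : 0 < Y) (hS : Slab b Y) {r : ℤ} (hr : 0 < r) :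
    Y * (4 * (2 * r) ^ 2) ≤ VF b (tile (2 * r)) := by
  set V := VF b (tile (2 * r)) with hV
  have hu : Tendsto (fun n : ℕ => (1 / 2 : ℝ) ^ n) atTop (𝓝 0) :=
    tendsto_pow_atTop_nhds_zero_of_lt_one (by norm_num) (by norm_num)
  have hl : Tendsto (fun n : ℕ => (Y - (1 / 2 : ℝ) ^ n) * (2 * (r : ℝ)) ^ 2) atTop
      (𝓝 ((Y - 0) * (2 * (r : ℝ)) ^ 2)) := (tendsto_const_nhds.sub hu).mul_const _
  have hr' : Tendsto (fun n : ℕ => (1 + (1 / 2 : ℝ) ^ n) ^ 2 / 4 * V) atTop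
      (𝓝 ((1 + 0) ^ 2 / 4 * V)) := (((tendsto_const_nhds.add hu).pow 2).div_const 4).mul_const _
  have hev : ∀ᶠ n : ℕ in atTop, (1 / 2 : ℝ) ^ n < Y := hu.eventually (gt_mem_nhds hY)
  have := le_of_tendsto_of_tendsto hl hr' (by
    filter_upwards [hev] with n hn
    exact tile_ge_aux hb hS hr (by positivity) hn (by positivity))
  have h2 : (Y - 0) * (2 * (r : ℝ)) ^ 2 = Y * (2 * (r : ℝ)) ^ 2 := by ring
  have h3 : (1 + (0:ℝ)) ^ 2 / 4 * V = V / 4 := by ring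
  rw [h2, h3] at this
  linarith

end Vale.Agent.P159.H529
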