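import Vale.Agent.P159.H529.Hb

/-!
The soft input of the reflection positivity bound.
-/

open MeasureTheory

namespace Vale.Agent.P159.H529

open Vale.Agent.P159 Vale.Agent.P159.UJ Vale.Agent.P159.H950

/-- the bond field of a function of the faces; the face `f` is the unit square with lower left
corner `f`; the value on a bond is the value on its left face minus the value on its right face,
the same for both half-bonds of the bond -/
def dH (g : ℤ × ℤ → ℝ) (p : Hb) : ℝ :=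
  if p.2.1 then g (hu p.1 p.2 - (1, 0)) - g (hu p.1 p.2) else g (hu p.1 p.2) - g (hu p.1 p.2 - (0, 1))

/-- Dirichlet energy -/
noncomputable def Dir2 (φ : ℝ × ℝ → ℝ) : ℝ :=
  ∫ z, (fderiv ℝ φ z (1, 0)) ^ 2 + (fderiv ℝ φ z (0, 1)) ^ 2

/-- (S1) the quadratic form of `grad^perp` of a smooth function in all large wired boxes -/
def S1 (b : ℝ) : Prop :=
  ∀ φ : ℝ × ℝ → ℝ, ContDiff ℝ 2 φ → HasCompactSupport φ →
    (∀ z ∈ tsupport φ, 0 < z.1 ∧ 0 < z.2) → ∀ ε : ℝ, 0 < ε →
    ∃ n0 : ℕ, ∀ n ≥ n0, ∃ m0 : ℕ, ∀ m ≥ m0,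
      helicity b * Dir2 φ - ε ≤ QF b (bx m) (dH fun f => φ ((f.1 : ℝ) / n, (f.2 : ℝ) / n))

end Vale.Agent.P159.H529
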