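import Mathlib

/-!
Sum over the scales of the tests.
-/

set_option linter.all false

open scoped BigOperators

namespace Vale.Agent.P159

namespace H529

/-- level of the squares used at scale `κ` -/
def lm (κ : ℕ) : ℕ := Nat.findGreatest (fun l => (l + 1) ^ 2 * 2 ^ l ≤ 10 * 2 ^ κ) (κ + 3)

theorem lm_le (κ : ℕ) : (lm κ + 1) ^ 2 * 2 ^ lm κ ≤ 10 * 2 ^ κ := by
  have h := Nat.findGreatest_spec (P := fun l => (l + 1) ^ 2 * 2 ^ l ≤ 10 * 2 ^ κ)
    (m := 0) (n := κ + 3) (by omega) (by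
      have : 1 ≤ 2 ^ κ := Nat.one_le_two_pow
      simp only [zero_add, one_pow, pow_zero, mul_one]
      omega)
  exact h

theorem big_lm {κ l : ℕ} (h : κ + 1 ≤ l) (h1 : 1 ≤ κ) : 10 * 2 ^ κ < (l + 1) ^ 2 * 2 ^ l := by
  have e1 : 2 ^ (κ + 1) ≤ 2 ^ l := Nat.pow_le_pow_right (by norm_num) h
  have e2 : 9 ≤ (l + 1) ^ 2 := by
    have : 3 ≤ l + 1 := by omega
    nlinarith
  have e3 : 0 < 2 ^ κ := by positivity
  calc 10 * 2 ^ κ < 9 * 2 ^ (κ + 1) := by rw [pow_succ]; omega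
    _ ≤ (l + 1) ^ 2 * 2 ^ l := Nat.mul_le_mul e2 e1

theorem big_lm' {κ l : ℕ} (h : κ + 3 ≤ l) : 10 * 2 ^ κ < (l + 1) ^ 2 * 2 ^ l := by
  have e1 : 2 ^ (κ + 3) ≤ 2 ^ l := Nat.pow_le_pow_right (by norm_num) h
  have e2 : 16 ≤ (l + 1) ^ 2 := by
    have : 4 ≤ l + 1 := by omega
    nlinarith
  have e3 : 0 < 2 ^ κ := by positivity
  calc 10 * 2 ^ κ < 16 * 2 ^ (κ + 3) := by
        have : 2 ^ (κ + 3) = 8 * 2 ^ κ := by rw [pow_add]; ring
        omega
    _ ≤ (l + 1) ^ 2 * 2 ^ l := Nat.mul_le_mul e2 e1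

theorem lm_lt (κ : ℕ) : 10 * 2 ^ κ < (lm κ + 2) ^ 2 * 2 ^ (lm κ + 1) := by
  by_contra hc
  push Not at hc
  have h1 : lm κ < κ + 3 := by
    by_contra h2
    push Not at h2
    have := big_lm' h2
    have := lm_le κ
    omega
  have h2 := Nat.findGreatest_is_greatest (P := fun l => (l + 1) ^ 2 * 2 ^ l ≤ 10 * 2 ^ κ)
    (n := κ + 3) (k := lm κ + 1) (Nat.lt_succ_self (lm κ)) (by omega)
  exact h2 hc

theorem lm_le_self {κ : ℕ} (h : 1 ≤ κ) : lm κ ≤ κ := by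
  by_contra hc
  have := big_lm (by omega : κ + 1 ≤ lm κ) h
  have := lm_le κ
  omega

/-- each level is used at most three times -/
theorem lm_fib (k K : ℕ) : ((Finset.range K).filter fun κ => lm κ = k).card ≤ 3 := by
  rcases ((Finset.range K).filter fun κ => lm κ = k).eq_empty_or_nonempty with h | h
  · rw [h]; simp
  · obtain ⟨κ0, h0, hmin⟩ := Finset.exists_min_image _ (fun κ => κ) h
    rw [Finset.mem_filter] at h0
    have hsub : ((Finset.range K).filter fun κ => lm κ = k) ⊆ Finset.Ico κ0 (κ0 + 3) := by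
      intro κ hκ
      have h1 := hmin κ hκ
      rw [Finset.mem_filter] at hκ
      rw [Finset.mem_Ico]
      refine ⟨h1, ?_⟩
      by_contra hc
      push Not at hc
      have h2 := lm_le κ0
      have h3 := lm_lt κ
      rw [h0.2] at h2
      rw [hκ.2] at h3
      have h4 : 2 ^ (κ0 + 3) ≤ 2 ^ κ := Nat.pow_le_pow_right (by norm_num) hc
      have h5 : (k + 2) ^ 2 ≤ 4 * (k + 1) ^ 2 := by nlinarith
      have h6 : (k + 2) ^ 2 * 2 ^ (k + 1) ≤ 4 * (k + 1) ^ 2 * 2 ^ (k + 1) :=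
        Nat.mul_le_mul_right _ h5
      have e1 : 4 * (k + 1) ^ 2 * 2 ^ (k + 1) = 8 * ((k + 1) ^ 2 * 2 ^ k) := by
        rw [pow_succ 2 k]; ring
      have e2 : 2 ^ (κ0 + 3) = 8 * 2 ^ κ0 := by rw [pow_add]; ring
      omega
    refine (Finset.card_le_card hsub).trans ?_
    rw [Nat.card_Ico]
    omega

theorem sum_lm {f : ℕ → ℝ} (hf : ∀ k, 0 ≤ f k) {K n : ℕ} (h : ∀ κ < K, lm κ < n) :
    ∑ κ ∈ Finset.range K, f (lm κ) ≤ 3 * ∑ k ∈ Finset.range n, f k := by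
  have h1 : ∑ κ ∈ Finset.range K, f (lm κ) =
      ∑ k ∈ Finset.range n, ∑ κ ∈ (Finset.range K).filter (fun κ => lm κ = k), f (lm κ) := by
    symm
    refine Finset.sum_fiberwise_of_maps_to (fun κ hκ => ?_) _
    rw [Finset.mem_range] at hκ ⊢
    exact h κ hκ
  rw [h1, Finset.mul_sum]
  refine Finset.sum_le_sum fun k _ => ?_
  have h2 : ∑ κ ∈ (Finset.range K).filter (fun κ => lm κ = k), f (lm κ) =
      ((Finset.range K).filter (fun κ => lm κ = k)).card * f k := by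
    rw [← nsmul_eq_mul, ← Finset.sum_const]
    refine Finset.sum_congr rfl fun κ hκ => ?_
    rw [(Finset.mem_filter.1 hκ).2]
  rw [h2]
  refine mul_le_mul_of_nonneg_right ?_ (hf k)
  exact_mod_cast lm_fib k K

theorem sum_sq_inv (n : ℕ) : ∑ k ∈ Finset.range n, 1 / ((k : ℝ) + 1) ^ 2 ≤ 2 := by
  have h : ∀ n : ℕ, ∑ k ∈ Finset.range (n + 1), 1 / ((k : ℝ) + 1) ^ 2 ≤ 2 - 1 / ((n : ℝ) + 1) := by
    intro n
    induction n with
    | zero => norm_num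
    | succ n ih =>
      rw [Finset.sum_range_succ]
      have hn : (0 : ℝ) ≤ n := n.cast_nonneg
      have h1 : 1 / (((n + 1 : ℕ) : ℝ) + 1) ^ 2 ≤ 1 / ((n : ℝ) + 1) - 1 / (((n + 1 : ℕ) : ℝ) + 1) := by
        push_cast
        rw [div_sub_div _ _ (by positivity) (by positivity), div_le_div_iff₀ (by positivity)
          (by positivity)]
        nlinarith
      linarith
  cases n with
  | zero => simp
  | succ n =>
    have h1 := h n
    have h2 : 0 ≤ 1 / ((n : ℝ) + 1) := by positivity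
    linarith

theorem sum_sqrt (K : ℕ) : ∑ κ ∈ Finset.range K, 1 / Real.sqrt (2 ^ κ) ≤ 4 := by
  have h0 : ∀ κ : ℕ, 1 / Real.sqrt (2 ^ κ) = (1 / Real.sqrt 2) ^ κ := by
    intro κ
    rw [div_pow, one_pow, Real.sqrt_eq_rpow, Real.sqrt_eq_rpow, ← Real.rpow_natCast,
      ← Real.rpow_natCast, ← Real.rpow_mul (by norm_num), ← Real.rpow_mul (by norm_num), mul_comm]
  simp only [h0]
  have h1 : (1 : ℝ) / Real.sqrt 2 ≤ 3 / 4 := by
    rw [div_le_div_iff₀ (by positivity) (by norm_num)]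
    have : (4 : ℝ) / 3 ≤ Real.sqrt 2 := by
      apply Real.le_sqrt_of_sq_le
      norm_num
    linarith
  have h2 : ∑ κ ∈ Finset.range K, (1 / Real.sqrt 2) ^ κ ≤ ∑ κ ∈ Finset.range K, (3 / 4 : ℝ) ^ κ :=
    Finset.sum_le_sum fun κ _ => pow_le_pow_left₀ (by positivity) h1 κ
  refine h2.trans ?_
  rw [geom_sum_eq (by norm_num)]
  have : (0 : ℝ) ≤ (3 / 4) ^ K := by positivity
  rw [div_le_iff_of_neg (by norm_num)]
  linarith

/-- **sum over the scales** -/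
theorem sum_scales {x : ℕ → ℝ} (hx : ∀ k, 0 ≤ x k) (a K n : ℕ) {s : ℝ} (hs : 0 < s)
    (h : ∀ κ < K, lm κ < n) :
    ∑ κ ∈ Finset.range K, (x (lm κ) + 1 / ((2 : ℝ) ^ a * ((lm κ : ℝ) + 1) ^ 2 / 10) +
      1 / Real.sqrt (s * 2 ^ κ)) ≤ 3 * ∑ k ∈ Finset.range n, x k + 60 / 2 ^ a +
        4 / Real.sqrt s := by
  rw [Finset.sum_add_distrib, Finset.sum_add_distrib]
  have h1 := sum_lm hx h
  have h2 := sum_lm (f := fun k => 1 / ((2 : ℝ) ^ a * ((k : ℝ) + 1) ^ 2 / 10))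
    (fun k => by positivity) h
  have h3 : ∑ k ∈ Finset.range n, 1 / ((2 : ℝ) ^ a * ((k : ℝ) + 1) ^ 2 / 10) ≤ 20 / 2 ^ a := by
    have e1 : ∀ k : ℕ, 1 / ((2 : ℝ) ^ a * ((k : ℝ) + 1) ^ 2 / 10) =
        10 / 2 ^ a * (1 / ((k : ℝ) + 1) ^ 2) := by
      intro k
      field_simp
    simp only [e1]
    rw [← Finset.mul_sum]
    have := mul_le_mul_of_nonneg_left (sum_sq_inv n) (show (0 : ℝ) ≤ 10 / 2 ^ a by positivity)
    refine this.trans (le_of_eq ?_)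
    ring
  have h4 : ∑ κ ∈ Finset.range K, 1 / Real.sqrt (s * 2 ^ κ) ≤ 4 / Real.sqrt s := by
    have e1 : ∀ κ : ℕ, 1 / Real.sqrt (s * 2 ^ κ) = 1 / Real.sqrt s * (1 / Real.sqrt (2 ^ κ)) := by
      intro κ
      rw [Real.sqrt_mul hs.le]
      field_simp
    simp only [e1]
    rw [← Finset.mul_sum]
    have := mul_le_mul_of_nonneg_left (sum_sqrt K)
      (show (0 : ℝ) ≤ 1 / Real.sqrt s by positivity)
    refine this.trans (le_of_eq ?_)
    ring
  have h5 : 3 * (20 / (2 : ℝ) ^ a) = 60 / 2 ^ a := by ring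
  linarith

end H529

end Vale.Agent.P159
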