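import Vale.Agent.P159.H529.Qf1

/-!
P159 (helper529), module UB (1): **the tilted comparison with the massless model**. For a family of
gradient weights `W`, every real field `φ` and every real `v` (`u = M₀ v` is neutral):

`Z_M (W b) φ ≤ exp (-⟨u, φ⟩ + ⟨v, M₀ v⟩ / 2) (Σ_h pin (W b) h exp ⟨u, h⟩ / Zp (W 0)) Z_M (W 0) 0`

(`ZM_tilt` : integer model, `Zn_tilt` : neutral model). `v = 0` is `ZM_le`, `Zn_le`.
-/

set_option linter.unusedSectionVars false

namespace Vale.Agent.P159.H529.Ub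

open Finset Matrix MeasureTheory
open Vale.Agent.P159.TM.H104 (EM nh Gr li)
open Vale.Agent.P159.H37 (wM ZM qf bf Zn Zs re gau)
open Vale.Agent.P159.H963 (GrI pin MF ntr)
open Vale.Agent.P159.H145 (cs Per)
open Vale.Agent.P159.H770 (GWF)
open Vale.Agent.P159.H883
open Vale.Agent.P159.H529.Qf (ginZM per_of_grI)

noncomputable section

variable {V : Type} [Fintype V] [DecidableEq V] [Nonempty V]
variable {M : Matrix V V ℝ} {m : ℝ}

/-- the massless partition function with the source `u` -/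
def Zu (w : (V → ℤ) → ℝ) (x₀ : V) (u : V → ℝ) : ℝ := ∑' h, pin w x₀ h * Real.exp (li u h)

/-! ### the Gaussian integral -/

lemma bf_addc (hM : MF M m) (v F : V → ℝ) (c : ℝ) :
    bf (ntr M m) (fun x => F x + c) v = bf (ntr M m) F v := by
  rw [H37.bf_comm (H963.ntr_transpose hM.symm m), H37.bf_comm (H963.ntr_transpose hM.symm m) F v]
  have e : (fun x => F x + c) = F + fun _ => c := rfl
  rw [e, H37.bf_add_right]
  have h0 : ntr M m *ᵥ (fun _ => c) = 0 := by
    funext x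
    simp only [Matrix.mulVec, dotProduct, Pi.zero_apply]
    rw [← Finset.sum_mul, H963.ntr_row hM.row, zero_mul]
  rw [H37.bf_eq _ v (fun _ => c), h0]
  simp

lemma ci_bf (hM : MF M m) (v : V → ℝ) : CI fun F : V → ℝ => bf (ntr M m) F v := fun F c =>
  bf_addc hM v F c

lemma bf_cont (v : V → ℝ) (A : Matrix V V ℝ) : Continuous fun F : V → ℝ => bf A F v := by
  have : (fun F : V → ℝ => bf A F v) = fun F => ∑ x, F x * (A *ᵥ v) x := by
    funext F
    rw [H37.bf_eq]
    rfl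
  rw [this]
  exact continuous_finsetSum _ fun x _ => (continuous_apply x).mul continuous_const

lemma bf_re (v : V → ℝ) (A : Matrix V V ℝ) (h : V → ℤ) : bf A (re h) v = li (A *ᵥ v) h := by
  rw [H37.bf_eq]
  unfold li dotProduct
  exact Finset.sum_congr rfl fun x _ => by simp only [re]; ring

lemma exp_bf_le (v : V → ℝ) (A : Matrix V V ℝ) : ∃ C : ℝ, ∀ F : V → ℝ,
    |Real.exp (bf A F v)| ≤ C * Real.exp (C * ∑ x, |F x|) := by
  refine ⟨1 + ∑ x, |(A *ᵥ v) x|, fun F => ?_⟩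
  set K := ∑ x, |(A *ᵥ v) x| with hK
  have hK0 : 0 ≤ K := Finset.sum_nonneg fun _ _ => abs_nonneg _
  have hF0 : 0 ≤ ∑ x, |F x| := Finset.sum_nonneg fun _ _ => abs_nonneg _
  rw [abs_of_pos (Real.exp_pos _)]
  have h1 : bf A F v ≤ (1 + K) * ∑ x, |F x| := by
    rw [H37.bf_eq]
    unfold dotProduct
    rw [Finset.mul_sum]
    refine Finset.sum_le_sum fun x _ => ?_
    have h2 : |(A *ᵥ v) x| ≤ K := Finset.single_le_sum (f := fun x => |(A *ᵥ v) x|)
      (fun _ _ => abs_nonneg _) (Finset.mem_univ x)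
    calc F x * (A *ᵥ v) x ≤ |F x * (A *ᵥ v) x| := le_abs_self _
      _ = |(A *ᵥ v) x| * |F x| := by rw [abs_mul, mul_comm]
      _ ≤ (1 + K) * |F x| := mul_le_mul_of_nonneg_right (by linarith) (abs_nonneg _)
  calc Real.exp (bf A F v) ≤ Real.exp ((1 + K) * ∑ x, |F x|) := Real.exp_le_exp.2 h1
    _ = 1 * Real.exp ((1 + K) * ∑ x, |F x|) := (one_mul _).symm
    _ ≤ (1 + K) * Real.exp ((1 + K) * ∑ x, |F x|) :=
        mul_le_mul_of_nonneg_right (by linarith) (Real.exp_pos _).le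

lemma tilt_E0g (hM : MF M m) (v F : V → ℝ) :
    Real.exp (bf (ntr M m) F v) * E0g M m F =
      Real.exp (qf (ntr M m) v / 2) * E0g M m (F + -v) := by
  unfold E0g
  rw [← Real.exp_add, ← Real.exp_add]
  congr 1
  have h1 := H37.qf_sub_vec (H963.ntr_transpose hM.symm m) F v
  have e : F + -v = F - v := (sub_eq_add_neg F v).symm
  rw [e, h1]
  ring

lemma SI_tilt_E0g (hM : MF M m) (x₀ : V) (v : V → ℝ) :
    SI x₀ (fun F => Real.exp (bf (ntr M m) F v) * E0g M m F) =
      Real.exp (qf (ntr M m) v / 2) * Gs M m x₀ := by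
  have e : (fun F => Real.exp (bf (ntr M m) F v) * E0g M m F) =
      fun F => Real.exp (qf (ntr M m) v / 2) * E0g M m (F + -v) := funext fun F => tilt_E0g hM v F
  rw [e]
  unfold SI
  rw [integral_const_mul]
  congr 1
  exact SI_shift (ci_E0g hM) x₀ (-v)

/-- **the tilted slab integral** -/
theorem SI_tilt {w : (V → ℤ) → ℝ} (hw : BW w) (hM : MF M m) (x₀ : V) (v : V → ℝ) :
    IntegrableOn (fun F => Real.exp (bf (ntr M m) F v) * Zn w M F) (slab x₀) ∧
      SI x₀ (fun F => Real.exp (bf (ntr M m) F v) * Zn w M F) =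
        cI M m x₀ * Real.exp (qf (ntr M m) v / 2) * Zu w x₀ (ntr M m *ᵥ v) := by
  obtain ⟨C, hC⟩ := exp_bf_le v (ntr M m)
  have h := hw.SI_Zn_gen hM x₀ (H := fun F => Real.exp (bf (ntr M m) F v))
    ((ci_bf hM v).comp Real.exp) (Real.continuous_exp.comp (bf_cont v _)).measurable (C := C) hC
  refine ⟨h.1, ?_⟩
  rw [h.2.2]
  have e : ∀ h : V → ℤ, pin w x₀ h * SI x₀ (fun F => Real.exp (bf (ntr M m) (F + re h) v) *
      E0g M m F) = (Real.exp (qf (ntr M m) v / 2) * Gs M m x₀) *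
        (pin w x₀ h * Real.exp (li (ntr M m *ᵥ v) h)) := by
    intro h
    have e1 : (fun F => Real.exp (bf (ntr M m) (F + re h) v) * E0g M m F) =
        fun F => Real.exp (li (ntr M m *ᵥ v) h) *
          (Real.exp (bf (ntr M m) F v) * E0g M m F) := by
      funext F
      rw [H37.bf_add_left, Real.exp_add, bf_re]
      ring
    rw [e1]
    unfold SI
    rw [integral_const_mul]
    have h2 := SI_tilt_E0g hM x₀ v
    unfold SI at h2
    rw [h2]
    ring
  rw [tsum_congr e, tsum_mul_left]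
  unfold cI Zu
  ring

/-! ### the comparison -/

variable {β : Type} [AddCommGroup β] {W : β → (V → ℤ) → ℝ}

lemma amgm {x y z α : ℝ} (hx : 0 ≤ x) (hy : 0 ≤ y) (hα : 0 < α) (h : z ^ 2 ≤ x * y) :
    2 * z ≤ α * x + α⁻¹ * y := by
  have h1 : (2 * z) ^ 2 ≤ (α * x + α⁻¹ * y) ^ 2 := by
    have e : (α * x) * (α⁻¹ * y) = x * y := by field_simp
    nlinarith [sq_nonneg (α * x - α⁻¹ * y)]
  have h2 := abs_le_of_sq_le_sq h1 (by positivity)
  exact (le_abs_self _).trans h2

theorem le_tilt (hW : GWF W) (hE : ∀ b x₀, EM (pin (W b) x₀)) (hM : MF M m) (x₀ : V) (b : β)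
    (φ v : V → ℝ) {r : ℝ} (hr : ∀ H : V → ℝ, 2 * (r * Zn (W 0) M H) ≤
      Real.exp (bf (ntr M m) H v) * Zn (W b) M (φ + H) +
        (Real.exp (bf (ntr M m) H v))⁻¹ * Zn (W b) M (φ + -H)) :
    r ≤ Real.exp (-(bf (ntr M m) φ v) + qf (ntr M m) v / 2) *
      (Zu (W b) x₀ (ntr M m *ᵥ v) / Zp (W 0) x₀) := by
  have hw := gwf_bw hW hE 0
  have hD := gwf_bw hW hE b
  set G : (V → ℝ) → ℝ := fun F => Real.exp (bf (ntr M m) F v) * Zn (W b) M F with hG
  have hGci : CI G := ((ci_bf hM v).comp Real.exp).mul (hD.ci M)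
  obtain ⟨gi, gv⟩ := SI_tilt hD hM x₀ v
  set κ := Real.exp (-(bf (ntr M m) φ v)) with hκ
  have e1 : ∀ H : V → ℝ, Real.exp (bf (ntr M m) H v) * Zn (W b) M (φ + H) = κ * G (H + φ) := by
    intro H
    rw [hκ, hG]
    simp only
    rw [H37.bf_add_left, Real.exp_add, add_comm H φ, Real.exp_neg]
    field_simp
  have e2 : ∀ H : V → ℝ, (Real.exp (bf (ntr M m) H v))⁻¹ * Zn (W b) M (φ + -H) =
      κ * G (-H + φ) := by
    intro H
    rw [← e1 (-H)]
    congr 1
    have : bf (ntr M m) (-H) v = -bf (ntr M m) H v := by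
      have h := H37.bf_smul_left (ntr M m) (-1) H v
      rw [neg_one_smul] at h
      rw [h]
      ring
    rw [this, Real.exp_neg]
  have i1 : IntegrableOn (fun F : V → ℝ => G (F + φ)) (slab x₀) := SI_shift_int hGci x₀ φ gi
  have v1 : SI x₀ (fun F : V → ℝ => G (F + φ)) = SI x₀ G := SI_shift hGci x₀ φ
  have hci2 : CI fun F : V → ℝ => G (F + φ) := fun F c => by
    have e : (fun x => F x + c) + φ = fun x => (F + φ) x + c := by
      funext x
      simp only [Pi.add_apply]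
      ring
    simp only [e]
    exact hGci _ _
  have v2 : SI x₀ (fun F : V → ℝ => G (-F + φ)) = SI x₀ G := by
    have := SI_neg hci2 x₀
    rw [v1] at this
    exact this
  have gp : 0 < SI x₀ G := by
    refine SI_pos (fun F => ?_) x₀ gi
    exact mul_pos (Real.exp_pos _) (hW.Zn_pos hM b F)
  have i2 : IntegrableOn (fun F : V → ℝ => G (-F + φ)) (slab x₀) := by
    by_contra hcon
    have h2 : SI x₀ (fun F : V → ℝ => G (-F + φ)) = 0 := integral_undef hcon
    rw [v2] at h2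
    exact gp.ne' h2
  have h1 : ∫ F in slab x₀, 2 * (r * Zn (W 0) M F) ≤
      ∫ F in slab x₀, (κ * G (F + φ) + κ * G (-F + φ)) :=
    integral_mono (((hw.SI_Zn hM x₀).1.const_mul r).const_mul 2)
      ((i1.const_mul κ).add (i2.const_mul κ)) fun F => by
        have := hr F
        rw [e1, e2] at this
        exact this
  rw [integral_add (i1.const_mul κ) (i2.const_mul κ), integral_const_mul, integral_const_mul,
    integral_const_mul, integral_const_mul] at h1
  have h3 : 2 * (r * SI x₀ (Zn (W 0) M)) ≤ κ * SI x₀ (fun F : V → ℝ => G (F + φ)) +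
      κ * SI x₀ (fun F : V → ℝ => G (-F + φ)) := h1
  rw [v1, v2, (hw.SI_Zn hM x₀).2, gv] at h3
  have hc := cI_pos hM x₀
  have hz := hw.Zp_pos x₀
  rw [Real.exp_add, ← hκ, mul_assoc, ← mul_div_assoc, ← mul_div_assoc, le_div_iff₀ hz]
  have h4 : cI M m x₀ * (r * Zp (W 0) x₀) ≤
      cI M m x₀ * (κ * (Real.exp (qf (ntr M m) v / 2) * Zu (W b) x₀ (ntr M m *ᵥ v))) := by
    linarith
  exact le_of_mul_le_mul_left h4 hc

/-- **(UB) neutral model** -/
theorem Zn_tilt (hW : GWF W) (hE : ∀ b x₀, EM (pin (W b) x₀)) (hM : MF M m) (x₀ : V) (b : β)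
    (φ v : V → ℝ) : Zn (W b) M φ ≤ Real.exp (-(bf (ntr M m) φ v) + qf (ntr M m) v / 2) *
      (Zu (W b) x₀ (ntr M m *ᵥ v) / Zp (W 0) x₀) * Zn (W 0) M 0 := by
  have z0 := hW.Zn_pos hM 0 (0 : V → ℝ)
  rw [← div_le_iff₀ z0]
  refine le_tilt hW hE hM x₀ b φ v fun H => amgm (hW.Zn_pos hM b _).le (hW.Zn_pos hM b _).le
    (Real.exp_pos _) ?_
  have h1 := hW.ginZn hM b 0 φ H
  rw [add_zero, sub_zero] at h1
  have h3 : (Zn (W b) M φ / Zn (W 0) M 0 * Zn (W 0) M H) ^ 2 =
      (Zn (W b) M φ * Zn (W 0) M H) ^ 2 / Zn (W 0) M 0 ^ 2 := by field_simp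
  rw [h3, div_le_iff₀ (by positivity), ← sub_eq_add_neg]
  linarith

/-- **(UB) integer model** -/
theorem ZM_tilt (hW : GWF W) (hE : ∀ b x₀, EM (pin (W b) x₀)) (hM : MF M m) (x₀ : V) (b : β)
    (φ v : V → ℝ) : ZM (W b) M φ ≤ Real.exp (-(bf (ntr M m) φ v) + qf (ntr M m) v / 2) *
      (Zu (W b) x₀ (ntr M m *ᵥ v) / Zp (W 0) x₀) * ZM (W 0) M 0 := by
  have em : ∀ c, EM (wM (W c) M) := (hW.disF_wM hM).em
  have hs := hM.symm
  have z0 := H37.ZM_pos hs (em 0) 0
  rw [← div_le_iff₀ z0]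
  refine le_tilt hW hE hM x₀ b φ v fun H => ?_
  have hper : ∀ c, Per (W c) := fun c => per_of_grI (hW.grd c)
  set r := ZM (W b) M φ / ZM (W 0) M 0 with hr
  set α := Real.exp (bf (ntr M m) H v) with hα
  have hα0 : 0 < α := Real.exp_pos _
  have hc : ∀ (d : β) (F : V → ℝ), Continuous fun c : ℝ => ZM (W d) M (cs F c) := fun d F =>
    (H145.continuous_ZM hs (em d)).comp (H145.continuous_cs F)
  have i0 : IntervalIntegrable (fun c : ℝ => ZM (W 0) M (cs H c)) volume 0 1 :=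
    (hc 0 H).intervalIntegrable _ _
  have i1 : IntervalIntegrable (fun c : ℝ => ZM (W b) M (cs (φ + H) c)) volume 0 1 :=
    (hc b _).intervalIntegrable _ _
  have i2 : IntervalIntegrable (fun c : ℝ => ZM (W b) M (cs (φ + -H) (-c))) volume 0 1 :=
    ((hc b (φ + -H)).comp continuous_neg).intervalIntegrable _ _
  have e2 : ∫ c in (0 : ℝ)..1, ZM (W b) M (cs (φ + -H) (-c)) = Zn (W b) M (φ + -H) := by
    have h1 := intervalIntegral.integral_comp_neg (a := (0 : ℝ)) (b := 1)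
      (fun c => ZM (W b) M (cs (φ + -H) c))
    rw [h1, neg_zero]
    have h2 := (H145.ZM_periodic (M := M) (hper b) (φ + -H)).intervalIntegral_add_eq (-1) 0
    simp only [neg_add_cancel, zero_add] at h2
    rw [h2]
    rfl
  have key : ∫ c in (0 : ℝ)..1, 2 * (r * ZM (W 0) M (cs H c)) ≤
      ∫ c in (0 : ℝ)..1, (α * ZM (W b) M (cs (φ + H) c) +
        α⁻¹ * ZM (W b) M (cs (φ + -H) (-c))) := by
    refine intervalIntegral.integral_mono_on zero_le_one ((i0.const_mul r).const_mul 2)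
      ((i1.const_mul α).add (i2.const_mul α⁻¹)) fun c _ => ?_
    refine amgm (H37.ZM_pos hs (em b) _).le (H37.ZM_pos hs (em b) _).le hα0 ?_
    have h1 := ginZM hW hM b 0 φ (cs H c)
    rw [add_zero, sub_zero] at h1
    have e3 : φ + cs H c = cs (φ + H) c := by
      funext x
      simp only [cs, Pi.add_apply]
      ring
    have e4 : φ - cs H c = cs (φ + -H) (-c) := by
      funext x
      simp only [cs, Pi.sub_apply, Pi.add_apply, Pi.neg_apply]
      ring
    rw [e3, e4] at h1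
    have h3 : (r * ZM (W 0) M (cs H c)) ^ 2 =
        (ZM (W b) M φ * ZM (W 0) M (cs H c)) ^ 2 / ZM (W 0) M 0 ^ 2 := by
      rw [hr]
      field_simp
    rw [h3, div_le_iff₀ (by positivity)]
    linarith
  rw [intervalIntegral.integral_const_mul, intervalIntegral.integral_const_mul,
    intervalIntegral.integral_add (i1.const_mul α) (i2.const_mul α⁻¹),
    intervalIntegral.integral_const_mul, intervalIntegral.integral_const_mul, e2] at key
  exact key

end

end Vale.Agent.P159.H529.Ub
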