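import Vale.Agent.P159.H529.S1def

/-!
The quadratic form in infinite volume (limit of the wired boxes).
-/

set_option linter.all false
set_option autoImplicit false

open MeasureTheory Filter Topology
open scoped BigOperators

namespace Vale.Agent.P159.H529

open Vale.Agent.P159 Vale.Agent.P159.UJ Vale.Agent.P159.H950

/-- finitely supported half-bond fields -/
abbrev FH : Type := Hb →₀ ℝ

/-- support in a region -/
def InR (R : Finset (ℤ × ℤ)) (y : FH) : Prop := ∀ c ∉ R, ∀ t, y (c, t) = 0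

theorem bx_mono {m m' : ℕ} (h : m ≤ m') : bx m ⊆ bx m' := by
  intro c hc
  rw [mem_bx] at hc ⊢
  omega

theorem exists_bx (S : Finset (ℤ × ℤ)) : ∃ m : ℕ, S ⊆ bx m := by
  classical
  refine ⟨∑ c ∈ S, (c.1.natAbs + c.2.natAbs + 1), fun c hc => ?_⟩
  have h1 := Finset.single_le_sum (f := fun c : ℤ × ℤ => c.1.natAbs + c.2.natAbs + 1)
    (fun c _ => Nat.zero_le _) hc
  have h2 : c.1.natAbs + c.2.natAbs + 1 ≤ ∑ c ∈ S, (c.1.natAbs + c.2.natAbs + 1) := h1
  rw [mem_bx]
  generalize (∑ c ∈ S, (c.1.natAbs + c.2.natAbs + 1)) = M at h2 ⊢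
  omega

theorem exists_InR (y : FH) : ∃ m : ℕ, InR (bx m) y := by
  classical
  obtain ⟨m, hm⟩ := exists_bx (y.support.image Prod.fst)
  refine ⟨m, fun c hc t => ?_⟩
  by_contra h
  exact hc (hm (Finset.mem_image.2 ⟨(c, t), Finsupp.mem_support_iff.2 h, rfl⟩))

theorem InR.mono {R R' : Finset (ℤ × ℤ)} (h : R ⊆ R') {y : FH} (hy : InR R y) : InR R' y :=
  fun c hc t => hy c (fun h' => hc (h h')) t

/-- the bilinear form in infinite volume -/
noncomputable def VB (b : ℝ) (y z : FH) : ℝ :=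
  limUnder atTop fun m : ℕ => QB b (bx m) y z

variable {b : ℝ}

theorem tend_self (hb : 0 ≤ b) (y : FH) :
    ∃ v, Tendsto (fun m : ℕ => QF b (bx m) y) atTop (𝓝 v) := by
  obtain ⟨m0, hm0⟩ := exists_InR y
  have hanti : Antitone fun m : ℕ => QF b (bx (m + m0)) y := by
    intro m m' h
    exact QF_mono hb (bx_mono (by omega)) (hm0.mono (bx_mono (by omega)))
  have hbd : BddBelow (Set.range fun m : ℕ => QF b (bx (m + m0)) y) :=
    ⟨0, by rintro _ ⟨m, rfl⟩; exact QF_nonneg hb _ _⟩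
  have h := tendsto_atTop_ciInf hanti hbd
  exact ⟨_, (tendsto_add_atTop_iff_nat m0).1 h⟩

theorem tend (hb : 0 ≤ b) (y z : FH) :
    Tendsto (fun m : ℕ => QB b (bx m) y z) atTop (𝓝 (VB b y z)) := by
  obtain ⟨v1, h1⟩ := tend_self hb (y + z)
  obtain ⟨v2, h2⟩ := tend_self hb y
  obtain ⟨v3, h3⟩ := tend_self hb z
  have h4 := ((h1.sub h2).sub h3).div_const 2
  have h5 : ∀ m : ℕ, (QF b (bx m) (y + z : FH) - QF b (bx m) y - QF b (bx m) z) / 2 =
      QB b (bx m) y z := by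
    intro m
    rw [Finsupp.coe_add, QF_add]
    ring
  simp only [h5] at h4
  exact tendsto_nhds_limUnder ⟨_, h4⟩

/-- the quadratic form in infinite volume -/
noncomputable def VF (b : ℝ) (y : FH) : ℝ := VB b y y

theorem tendF (hb : 0 ≤ b) (y : FH) :
    Tendsto (fun m : ℕ => QF b (bx m) y) atTop (𝓝 (VF b y)) := by
  have := tend hb y y
  simp only [QB_self] at this
  exact this

theorem VB_symm (hb : 0 ≤ b) (y z : FH) : VB b y z = VB b z y :=
  tendsto_nhds_unique (tend hb y z) ((tend hb z y).congr fun m => QB_symm ..)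

theorem VB_add (hb : 0 ≤ b) (y z w : FH) : VB b y (z + w) = VB b y z + VB b y w :=
  tendsto_nhds_unique (tend hb y (z + w)) (((tend hb y z).add (tend hb y w)).congr fun m => by
    rw [Finsupp.coe_add, QB_add])

theorem VB_smul (hb : 0 ≤ b) (y z : FH) (c : ℝ) : VB b y (c • z) = c * VB b y z :=
  tendsto_nhds_unique (tend hb y (c • z)) (((tend hb y z).const_mul c).congr fun m => by
    rw [Finsupp.coe_smul, QB_smul])

/-- as a bilinear map -/
noncomputable def VL (hb : 0 ≤ b) : FH →ₗ[ℝ] FH →ₗ[ℝ] ℝ :=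
  LinearMap.mk₂ ℝ (VB b) (fun y y' z => by
      rw [VB_symm hb, VB_add hb, VB_symm hb z y, VB_symm hb z y'])
    (fun c y z => by rw [VB_symm hb, VB_smul hb, VB_symm hb z y, smul_eq_mul])
    (fun y z z' => VB_add hb y z z') (fun c y z => by rw [VB_smul hb, smul_eq_mul])

theorem VL_apply (hb : 0 ≤ b) (y z : FH) : VL hb y z = VB b y z := rfl

theorem VB_add_left (hb : 0 ≤ b) (y y' z : FH) : VB b (y + y') z = VB b y z + VB b y' z := by
  rw [VB_symm hb, VB_add hb, VB_symm hb z y, VB_symm hb z y']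

theorem VB_neg (hb : 0 ≤ b) (y z : FH) : VB b y (-z) = -VB b y z := by
  have := map_neg (VL hb y) z
  exact this

theorem VB_neg_left (hb : 0 ≤ b) (y z : FH) : VB b (-y) z = -VB b y z := by
  rw [VB_symm hb, VB_neg hb, VB_symm hb]

theorem VB_sum (hb : 0 ≤ b) {ι κ : Type*} (s : Finset ι) (u : Finset κ) (f : ι → FH)
    (g : κ → FH) : VB b (∑ i ∈ s, f i) (∑ j ∈ u, g j) = ∑ i ∈ s, ∑ j ∈ u, VB b (f i) (g j) := by
  have h1 : VL hb (∑ i ∈ s, f i) (∑ j ∈ u, g j) = ∑ i ∈ s, ∑ j ∈ u, VL hb (f i) (g j) := by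
    rw [map_sum (VL hb), LinearMap.sum_apply]
    exact Finset.sum_congr rfl fun i _ => map_sum _ _ _
  exact h1

theorem VF_add (hb : 0 ≤ b) (y z : FH) : VF b (y + z) = VF b y + VF b z + 2 * VB b y z := by
  unfold VF
  rw [VB_add hb, VB_add_left hb, VB_add_left hb, VB_symm hb z y]
  ring

theorem VF_sub (hb : 0 ≤ b) (y z : FH) : VF b (y - z) = VF b y + VF b z - 2 * VB b y z := by
  rw [sub_eq_add_neg, VF_add hb, VB_neg hb]
  unfold VF
  rw [VB_neg hb, VB_neg_left hb]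
  ring

theorem VF_neg (hb : 0 ≤ b) (y : FH) : VF b (-y) = VF b y := by
  unfold VF
  rw [VB_neg hb, VB_neg_left hb, neg_neg]

theorem VF_smul (hb : 0 ≤ b) (y : FH) (c : ℝ) : VF b (c • y) = c ^ 2 * VF b y := by
  unfold VF
  rw [VB_smul hb, VB_symm hb, VB_smul hb]
  ring

theorem VF_nonneg (hb : 0 ≤ b) (y : FH) : 0 ≤ VF b y :=
  ge_of_tendsto (tendF hb y) (Eventually.of_forall fun m => QF_nonneg hb _ _)

/-- total squared norm -/
noncomputable def nT (y : FH) : ℝ := ∑ p ∈ y.support, y p ^ 2 / 2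

theorem nH_le_nT (R : Finset (ℤ × ℤ)) (y : FH) : nH R y ≤ nT y := by
  classical
  unfold nH nT
  rw [← Finset.sum_product' (f := fun c t => y (c, t) ^ 2 / 2)]
  have h1 : ∑ p ∈ R ×ˢ (Finset.univ : Finset HT), y (p.1, p.2) ^ 2 / 2 =
      ∑ p ∈ (R ×ˢ (Finset.univ : Finset HT)).filter (fun p => p ∈ y.support),
        y (p.1, p.2) ^ 2 / 2 := by
    symm
    refine Finset.sum_subset (Finset.filter_subset _ _) fun p hp hp' => ?_
    rw [Finset.mem_filter, not_and, Finsupp.notMem_support_iff] at hp'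
    have : y (p.1, p.2) = 0 := hp' hp
    rw [this]
    norm_num
  rw [h1]
  exact Finset.sum_le_sum_of_subset_of_nonneg (fun p hp => (Finset.mem_filter.1 hp).2)
    fun p _ _ => by positivity

theorem VF_le (hb : 0 ≤ b) (y : FH) : VF b y ≤ b * nT y :=
  le_of_tendsto (tendF hb y) (Eventually.of_forall fun m =>
    (QF_le hb _ _).trans (mul_le_mul_of_nonneg_left (nH_le_nT _ _) hb))

theorem VF_le_QF (hb : 0 ≤ b) {R : Finset (ℤ × ℤ)} {y : FH} (hy : InR R y) :
    VF b y ≤ QF b R y := by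
  obtain ⟨m0, hm0⟩ := exists_bx R
  refine le_of_tendsto (tendF hb y) ?_
  filter_upwards [eventually_ge_atTop m0] with m hm
  exact QF_mono hb (hm0.trans (bx_mono hm)) hy

/-- the limit along other exhausting sequences -/
theorem tendF_of (hb : 0 ≤ b) (y : FH) {B : ℕ → Finset (ℤ × ℤ)} (h1 : ∀ m, bx m ⊆ B m) :
    Tendsto (fun m : ℕ => QF b (B m) y) atTop (𝓝 (VF b y)) := by
  obtain ⟨m0, hm0⟩ := exists_InR y
  refine tendsto_of_tendsto_of_tendsto_of_le_of_le' tendsto_const_nhds (tendF hb y) ?_ ?_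
  · filter_upwards [eventually_ge_atTop m0] with m hm
    exact VF_le_QF hb (hm0.mono ((bx_mono hm).trans (h1 m)))
  · filter_upwards [eventually_ge_atTop m0] with m hm
    exact QF_mono hb (h1 m) (hm0.mono (bx_mono hm))

theorem tend_of (hb : 0 ≤ b) (y z : FH) {B : ℕ → Finset (ℤ × ℤ)} (h1 : ∀ m, bx m ⊆ B m) :
    Tendsto (fun m : ℕ => QB b (B m) y z) atTop (𝓝 (VB b y z)) := by
  have h4 := (((tendF_of hb (y + z) h1).sub (tendF_of hb y h1)).sub
    (tendF_of hb z h1)).div_const 2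
  have h5 : ∀ m : ℕ, (QF b (B m) (y + z : FH) - QF b (B m) y - QF b (B m) z) / 2 =
      QB b (B m) y z := by
    intro m
    rw [Finsupp.coe_add, QF_add]
    ring
  simp only [h5] at h4
  rw [VF_add hb] at h4
  have h6 : (VF b y + VF b z + 2 * VB b y z - VF b y - VF b z) / 2 = VB b y z := by ring
  rwa [h6] at h4

/-- symmetric boxes -/
theorem symB (σ : Dir) (a : ℤ) : ∃ B : ℕ → Finset (ℤ × ℤ), (∀ m, bx m ⊆ B m) ∧
    ∀ m, (σ.refl a).Sym (B m) := by
  have h := fun m => σ.big a m a.natAbs (by rw [Int.abs_eq_natAbs])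
  choose p L h1 h2 h3 using h
  exact ⟨fun m => blk (p m) (L m), h2, h1⟩

/-- **reflection positivity in infinite volume** -/
theorem VB_rp (hb : 0 ≤ b) (σ : Dir) (a : ℤ) {y z : FH}
    (hz : (z : Hb → ℝ) = ac (σ.refl a) y) (hy : ∀ c t, ¬ (σ.refl a).left c t → y (c, t) = 0) :
    VB b y z ≤ 0 := by
  obtain ⟨B, h1, h2⟩ := symB σ a
  refine le_of_tendsto (tend_of hb y z h1) (Eventually.of_forall fun m => ?_)
  rw [hz]
  exact QB_rp (h2 m) b y fun c _ t => hy c t

theorem QB_ac (r : Refl) {R : Finset (ℤ × ℤ)} (h : r.Sym R) (b : ℝ) (y z : Hb → ℝ) :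
    QB b R (ac r y) (ac r z) = QB b R y z := by
  have h1 := QF_add b R y z
  have h2 := QF_add b R (ac r y) (ac r z)
  have h3 : ac r y + ac r z = ac r (y + z) := by
    funext p
    simp only [ac, Pi.add_apply]
    ring
  rw [h3, QF_ac r h, QF_ac r h, QF_ac r h] at h2
  linarith

/-- reflection invariance in infinite volume -/
theorem VB_inv (hb : 0 ≤ b) (σ : Dir) (a : ℤ) {y z y' z' : FH}
    (hy : (y' : Hb → ℝ) = ac (σ.refl a) y) (hz : (z' : Hb → ℝ) = ac (σ.refl a) z) :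
    VB b y' z' = VB b y z := by
  obtain ⟨B, h1, h2⟩ := symB σ a
  refine tendsto_nhds_unique (tend_of hb y' z' h1) ((tend_of hb y z h1).congr fun m => ?_)
  rw [hy, hz, QB_ac _ (h2 m)]

theorem VF_inv (hb : 0 ≤ b) (σ : Dir) (a : ℤ) {y y' : FH}
    (hy : (y' : Hb → ℝ) = ac (σ.refl a) y) : VF b y' = VF b y := VB_inv hb σ a hy hy

/-! ### Cut fields -/

/-- a field cut to a finite set of half-bonds -/
noncomputable def ct (S : Finset Hb) (g : Hb → ℝ) : FH :=
  Finsupp.onFinset S (fun p => if p ∈ S then g p else 0) fun p hp => by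
    by_contra h
    simp [h] at hp

theorem ct_apply (S : Finset Hb) (g : Hb → ℝ) (p : Hb) : ct S g p = if p ∈ S then g p else 0 :=
  rfl

theorem nT_ct (S : Finset Hb) (g : Hb → ℝ) : nT (ct S g) = ∑ p ∈ S, g p ^ 2 / 2 := by
  unfold nT
  have h1 : (ct S g).support ⊆ S := by
    intro p hp
    rw [Finsupp.mem_support_iff, ct_apply] at hp
    by_contra h
    simp [h] at hp
  rw [Finset.sum_subset h1 fun p _ hp => by
    rw [Finsupp.notMem_support_iff] at hp; rw [hp]; norm_num]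
  refine Finset.sum_congr rfl fun p hp => ?_
  rw [ct_apply, if_pos hp]

/-- fibres -/
theorem ct_fib {ι : Type*} [DecidableEq ι] (S : Finset Hb) (I : Finset ι) (τ : Hb → ι)
    (h : ∀ p ∈ S, τ p ∈ I) (g : Hb → ℝ) :
    ∑ i ∈ I, ct (S.filter fun p => τ p = i) g = ct S g := by
  ext p
  rw [Finsupp.finsetSum_apply]
  simp only [ct_apply, Finset.mem_filter]
  by_cases hp : p ∈ S
  · rw [Finset.sum_eq_single (τ p)]
    · simp [hp]
    · intro i _ hi
      rw [if_neg]
      rintro ⟨_, h2⟩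
      exact hi h2.symm
    · intro h1; exact absurd (h p hp) h1
  · simp [hp]

theorem ct_sub {S T : Finset Hb} (h : T ⊆ S) (g : Hb → ℝ) :
    ct S g = ct T g + ct (S \ T) g := by
  ext p
  rw [Finsupp.add_apply, ct_apply, ct_apply, ct_apply]
  by_cases h1 : p ∈ T
  · simp [h1, h h1]
  · by_cases h2 : p ∈ S <;> simp [h1, h2]

/-- removal of a part -/
theorem VF_remove (hb : 0 ≤ b) (y z : FH) {η : ℝ} (hη : 0 < η) :
    VF b y ≤ (1 + η) * VF b (y + z) + (1 + 1 / η) * VF b z := by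
  have h := VF_nonneg hb (η • (y + z) + z)
  rw [VF_add hb, VF_smul hb, VB_symm hb, VB_smul hb] at h
  have h1 : VF b y = VF b (y + z) + VF b z - 2 * VB b (y + z) z := by
    rw [← VF_sub hb, add_sub_cancel_right]
  rw [VB_symm hb z (y + z)] at h
  have h2 : 0 ≤ (1 / η) * (η ^ 2 * VF b (y + z) + VF b z + 2 * (η * VB b (y + z) z)) :=
    mul_nonneg (by positivity) h
  have h3 : (1 / η) * (η ^ 2 * VF b (y + z) + VF b z + 2 * (η * VB b (y + z) z)) =
      η * VF b (y + z) + 1 / η * VF b z + 2 * VB b (y + z) z := by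
    field_simp
  rw [h3] at h2
  rw [h1]
  linarith

theorem VF_remove_ct (hb : 0 ≤ b) {S T : Finset Hb} (h : T ⊆ S) (g : Hb → ℝ) {η : ℝ}
    (hη : 0 < η) :
    VF b (ct T g) ≤ (1 + η) * VF b (ct S g) + (1 + 1 / η) * (b * ∑ p ∈ S \ T, g p ^ 2 / 2) := by
  have h1 := VF_remove hb (ct T g) (ct (S \ T) g) hη
  rw [← ct_sub h] at h1
  have h2 := VF_le hb (ct (S \ T) g)
  rw [nT_ct] at h2
  have h3 : (1 + 1 / η) * VF b (ct (S \ T) g) ≤
      (1 + 1 / η) * (b * ∑ p ∈ S \ T, g p ^ 2 / 2) :=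
    mul_le_mul_of_nonneg_left h2 (by positivity)
  linarith

/-! ### Sums of mirrored parts -/

/-- nonpositive covariances: change of signs increases the form -/
theorem VF_signs (hb : 0 ≤ b) {ι : Type*} (I : Finset ι) (f : ι → FH)
    (h : ∀ i ∈ I, ∀ j ∈ I, i ≠ j → VB b (f i) (f j) ≤ 0) (s : ι → ℝ)
    (hs : ∀ i ∈ I, s i = 1 ∨ s i = -1) :
    VF b (∑ i ∈ I, f i) ≤ VF b (∑ i ∈ I, s i • f i) := by
  classical
  unfold VF
  rw [VB_sum hb, VB_sum hb]
  refine Finset.sum_le_sum fun i hi => Finset.sum_le_sum fun j hj => ?_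
  rw [VB_smul hb, VB_symm hb (s i • f i), VB_smul hb, VB_symm hb (f j)]
  by_cases hij : i = j
  · subst hij
    rcases hs i hi with h1 | h1 <;> rw [h1] <;> simp
  · have h2 := h i hi j hj hij
    rcases hs i hi with h1 | h1 <;> rcases hs j hj with h3 | h3 <;> rw [h1, h3] <;> linarith

/-- nonnegative covariances: the form is superadditive -/
theorem VF_super (hb : 0 ≤ b) {ι : Type*} (I : Finset ι) (f : ι → FH)
    (h : ∀ i ∈ I, ∀ j ∈ I, i ≠ j → 0 ≤ VB b (f i) (f j)) :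
    ∑ i ∈ I, VF b (f i) ≤ VF b (∑ i ∈ I, f i) := by
  classical
  unfold VF
  rw [VB_sum hb]
  refine Finset.sum_le_sum fun i hi => ?_
  rw [← Finset.add_sum_erase _ _ hi]
  have : 0 ≤ ∑ j ∈ I.erase i, VB b (f i) (f j) :=
    Finset.sum_nonneg fun j hj => h i hi j (Finset.mem_of_mem_erase hj)
      (Finset.ne_of_mem_erase hj).symm
  linarith

end Vale.Agent.P159.H529
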